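import Vale.Agent.P159.H856.Dl7
import Vale.Agent.P159.H817.St3

/-!
P159 / S list, 270's Ed4 (helper856), part 8: the energies of the canonical field `bD p q` of a pair,
everywhere and off the balls of radius `r` around the cores; the number of sites of these balls.
-/

set_option linter.unusedSectionVars false

namespace Vale.Agent.P159.H856.Dl

open Finset
open Vale.Agent.P159.TM.Spec (V)
open Vale.Agent.P159.H817 (gr nrm eF sz bD CG)

noncomputable section

/-! ### radial sums -/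

lemma inv_le_log {k : ℕ} (hk : 1 ≤ k) :
    1 / (1 + (k : ℝ)) ≤ Real.log (1 + k) - Real.log k := by
  have hk0 : (0 : ℝ) < k := by exact_mod_cast hk
  have h1 : (0 : ℝ) < k / (1 + k) := by positivity
  have h2 := Real.log_le_sub_one_of_pos h1
  rw [Real.log_div hk0.ne' (by positivity)] at h2
  have h3 : (k : ℝ) / (1 + k) - 1 = -(1 / (1 + (k : ℝ))) := by
    field_simp
    ring
  rw [h3] at h2
  linarith

lemma harm_le (r s : ℕ) (hrs : r ≤ s) :
    ∑ k ∈ (range (s + 1)).filter (fun k => r ≤ k), 1 / (1 + (k : ℝ)) ≤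
      1 + (Real.log (1 + s) - Real.log (1 + r)) := by
  induction s, hrs using Nat.le_induction with
  | base =>
    rw [Finset.range_add_one, Finset.filter_insert, if_pos le_rfl, Finset.sum_insert (by simp)]
    have h3 : ∑ k ∈ (range r).filter (fun k => r ≤ k), 1 / (1 + (k : ℝ)) = 0 := by
      refine Finset.sum_eq_zero fun k hk => ?_
      rw [Finset.mem_filter, Finset.mem_range] at hk
      omega
    rw [h3, sub_self, add_zero, add_zero]
    rw [div_le_one (by positivity)]
    have : (0 : ℝ) ≤ r := Nat.cast_nonneg _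
    linarith
  | succ s hs ih =>
    rw [Finset.range_add_one, Finset.filter_insert, if_pos (by omega : r ≤ s + 1),
      Finset.sum_insert (by simp)]
    have h1 := inv_le_log (k := s + 1) (by omega)
    push_cast at h1 ⊢
    have e : Real.log ((s : ℝ) + 1) = Real.log (1 + s) := by rw [add_comm]
    rw [e] at h1
    linarith

variable {N : ℕ} [NeZero N]

/-- `∑_{|x| ≥ r} (1 + |x|)⁻² ≤ 8 (1 + log ((1 + N)/(1 + r)))` -/
theorem sum_inv2 {r : ℕ} (hr : r ≤ N) :
    ∑ x : V N, (if r ≤ sz x then 1 / (1 + (sz x : ℝ)) ^ 2 else 0) ≤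
      8 * (1 + (Real.log (1 + N) - Real.log (1 + r))) := by
  have h1 := H817.sum_sz_le (N := N) (g := fun k => 1 / (1 + (k : ℝ)) ^ 2)
    (fun k => by positivity) r
  rw [← Finset.sum_filter]
  refine h1.trans ?_
  have h2 : ∀ k : ℕ, 8 * ((k : ℝ) + 1) * (1 / (1 + (k : ℝ)) ^ 2) = 8 * (1 / (1 + (k : ℝ))) := by
    intro k
    field_simp
    ring
  simp_rw [h2]
  rw [← Finset.mul_sum]
  exact mul_le_mul_of_nonneg_left (harm_le r N hr) (by norm_num)

/-- sites of a ball -/
lemma card_ball (r : ℕ) :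
    (((univ : Finset (V N)).filter fun x => sz x ≤ r).card : ℝ) ≤ 8 * (1 + (r : ℝ)) ^ 2 := by
  have h1 := H817.sum_sz_le (N := N) (g := fun k => if k ≤ r then 1 else 0)
    (fun k => by split_ifs <;> norm_num) 0
  have e1 : (((univ : Finset (V N)).filter fun x => sz x ≤ r).card : ℝ) =
      ∑ x ∈ (univ : Finset (V N)).filter (fun x => 0 ≤ sz x), (if sz x ≤ r then (1 : ℝ) else 0) := by
    rw [Finset.card_eq_sum_ones]
    push_cast
    rw [Finset.sum_filter]
    refine Finset.sum_congr ?_ fun _ _ => rfl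
    ext x
    simp
  rw [e1]
  refine h1.trans ?_
  have h3 : ∑ k ∈ (range (N + 1)).filter (fun k => 0 ≤ k), 8 * ((k : ℝ) + 1) *
      (if k ≤ r then 1 else 0) ≤ ∑ _k ∈ range (r + 1), 8 * ((r : ℝ) + 1) := by
    have e2 : ∀ k : ℕ, 8 * ((k : ℝ) + 1) * (if k ≤ r then 1 else 0) =
        if k ≤ r then 8 * ((k : ℝ) + 1) else 0 := by
      intro k
      split_ifs <;> ring
    simp_rw [e2]
    rw [← Finset.sum_filter, Finset.filter_filter]
    refine (Finset.sum_le_sum_of_subset_of_nonneg (t := range (r + 1)) ?_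
      fun k _ _ => by positivity).trans (Finset.sum_le_sum fun k hk => ?_)
    · intro k hk
      rw [Finset.mem_filter] at hk
      rw [Finset.mem_range]
      omega
    · rw [Finset.mem_range] at hk
      have : (k : ℝ) ≤ r := by exact_mod_cast Nat.lt_succ_iff.1 hk
      linarith
  refine h3.trans (le_of_eq ?_)
  rw [Finset.sum_const, Finset.card_range, nsmul_eq_mul]
  push_cast
  ring

/-- sites of the balls around the cores -/
theorem card_cS (p q : V N) (r : ℕ) : ((cS p q r).card : ℝ) ≤ 16 * (1 + (r : ℝ)) ^ 2 := by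
  have hsub : cS p q r ⊆ ((univ : Finset (V N)).filter fun x => sz (x - p) ≤ r) ∪
      (univ : Finset (V N)).filter fun x => sz (x - q) ≤ r := by
    intro x hx
    unfold cS at hx
    rw [Finset.mem_filter] at hx
    rw [Finset.mem_union, Finset.mem_filter, Finset.mem_filter]
    rcases hx.2 with h | h
    · exact Or.inl ⟨Finset.mem_univ _, h⟩
    · exact Or.inr ⟨Finset.mem_univ _, h⟩
  have hc : ∀ a : V N, (((univ : Finset (V N)).filter fun x => sz (x - a) ≤ r).card : ℝ) ≤
      8 * (1 + (r : ℝ)) ^ 2 := by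
    intro a
    refine le_trans (le_of_eq ?_) (card_ball (N := N) r)
    congr 1
    refine Finset.card_nbij' (fun x => x - a) (fun x => x + a) ?_ ?_ ?_ ?_
    · intro x hx
      simpa using hx
    · intro x hx
      simpa using hx
    · intro x _
      simp
    · intro x _
      simp
  have h1 : ((cS p q r).card : ℝ) ≤
      ((((univ : Finset (V N)).filter fun x => sz (x - p) ≤ r).card +
        ((univ : Finset (V N)).filter fun x => sz (x - q) ≤ r).card : ℕ) : ℝ) := by
    exact_mod_cast (Finset.card_le_card hsub).trans (Finset.card_union_le _ _)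
  push_cast at h1
  linarith [hc p, hc q]

/-! ### the canonical field -/

lemma bD_sq (p q x : V N) (c : Bool) : bD p q (x, c) ^ 2 ≤
    3 * (1 / (N : ℝ)) ^ 2 + 12 * CG ^ 2 * (1 / (1 + (sz (x - p) : ℝ)) ^ 2) +
      12 * CG ^ 2 * (1 / (1 + (sz (x - q) : ℝ)) ^ 2) := by
  have hN : (0 : ℝ) < N := H817.N_pos_real
  have hC := H817.CG_pos
  have h1 := H817.jD_near p q (-(H817.v2 p q : ℝ) / (N : ℝ) ^ 2) ((H817.v1 p q : ℝ) / (N : ℝ) ^ 2)
    x c
  have h3 : |-(H817.v2 p q : ℝ) / (N : ℝ) ^ 2| + |(H817.v1 p q : ℝ) / (N : ℝ) ^ 2| ≤ 1 / N := by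
    rw [abs_div, abs_div, abs_neg, abs_of_pos (by positivity : (0 : ℝ) < (N : ℝ) ^ 2), ← add_div,
      div_le_div_iff₀ (by positivity) hN]
    have b1 := H817.half_ge (q - p).1
    have b2 := H817.half_ge (q - p).2
    have b3 : |(H817.v2 p q : ℝ)| = ((q - p).2.valMinAbs.natAbs : ℝ) := by
      rw [Nat.cast_natAbs, Int.cast_abs]; rfl
    have b4 : |(H817.v1 p q : ℝ)| = ((q - p).1.valMinAbs.natAbs : ℝ) := by
      rw [Nat.cast_natAbs, Int.cast_abs]; rfl
    have b5 : ((q - p).2.valMinAbs.natAbs : ℝ) + ((q - p).1.valMinAbs.natAbs : ℝ) ≤ N := by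
      have : (q - p).2.valMinAbs.natAbs + (q - p).1.valMinAbs.natAbs ≤ N := by omega
      exact_mod_cast this
    rw [b3, b4]
    nlinarith
  have h4 : |bD p q (x, c)| ≤ 1 / N + 2 * CG * (1 / (1 + (sz (x - q) : ℝ)) +
      1 / (1 + (sz (x - p) : ℝ))) := by
    refine h1.trans ?_
    linarith
  set a : ℝ := 1 / N with ha
  set u : ℝ := 1 / (1 + (sz (x - q) : ℝ)) with hu
  set v : ℝ := 1 / (1 + (sz (x - p) : ℝ)) with hv
  have hu2 : 1 / (1 + (sz (x - q) : ℝ)) ^ 2 = u ^ 2 := by rw [hu]; field_simp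
  have hv2 : 1 / (1 + (sz (x - p) : ℝ)) ^ 2 = v ^ 2 := by rw [hv]; field_simp
  rw [hu2, hv2, ← sq_abs]
  have h5 := pow_le_pow_left₀ (abs_nonneg _) h4 2
  refine h5.trans ?_
  nlinarith [sq_nonneg (a - 2 * CG * u), sq_nonneg (a - 2 * CG * v),
    sq_nonneg (2 * CG * u - 2 * CG * v)]

/-- **the energy of the canonical field off the balls** -/
theorem nOff_bD (p q : V N) {r : ℕ} (hr : r ≤ N) {S : Finset (V N)}
    (hS : ∀ x, (sz (x - p) < r ∨ sz (x - q) < r) → x ∈ S) :
    nOff S (bD p q) ≤ 6 + 384 * CG ^ 2 * (1 + (Real.log (1 + N) - Real.log (1 + r))) := by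
  have hN : (0 : ℝ) < N := H817.N_pos_real
  have hC := H817.CG_pos
  unfold nOff
  rw [H817.sum_edges]
  have h1 : ∀ (c : Bool) (x : V N), (if x ∈ S then 0 else bD p q (x, c) ^ 2) ≤
      3 * (1 / (N : ℝ)) ^ 2 +
        12 * CG ^ 2 * (if r ≤ sz (x - p) then 1 / (1 + (sz (x - p) : ℝ)) ^ 2 else 0) +
        12 * CG ^ 2 * (if r ≤ sz (x - q) then 1 / (1 + (sz (x - q) : ℝ)) ^ 2 else 0) := by
    intro c x
    by_cases hx : x ∈ S
    · rw [if_pos hx]
      have i1 : 0 ≤ (if r ≤ sz (x - p) then 1 / (1 + (sz (x - p) : ℝ)) ^ 2 else 0) := by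
        split_ifs <;> positivity
      have i2 : 0 ≤ (if r ≤ sz (x - q) then 1 / (1 + (sz (x - q) : ℝ)) ^ 2 else 0) := by
        split_ifs <;> positivity
      positivity
    · rw [if_neg hx]
      have h2 : r ≤ sz (x - p) := by
        by_contra hcon
        exact hx (hS x (Or.inl (by omega)))
      have h3 : r ≤ sz (x - q) := by
        by_contra hcon
        exact hx (hS x (Or.inr (by omega)))
      rw [if_pos h2, if_pos h3]
      exact bD_sq p q x c
  have h2 : ∀ c : Bool, ∑ x : V N, (if x ∈ S then 0 else bD p q (x, c) ^ 2) ≤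
      3 + 192 * CG ^ 2 * (1 + (Real.log (1 + N) - Real.log (1 + r))) := by
    intro c
    refine (Finset.sum_le_sum fun x _ => h1 c x).trans ?_
    rw [Finset.sum_add_distrib, Finset.sum_add_distrib, Finset.sum_const, ← Finset.mul_sum,
      ← Finset.mul_sum, H817.sum_shift_sub
        (fun x : V N => if r ≤ sz x then 1 / (1 + (sz x : ℝ)) ^ 2 else 0) p,
      H817.sum_shift_sub (fun x : V N => if r ≤ sz x then 1 / (1 + (sz x : ℝ)) ^ 2 else 0) q,
      nsmul_eq_mul, Finset.card_univ]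
    have hcard : (Fintype.card (V N) : ℝ) = (N : ℝ) ^ 2 := TM.H764.card_V
    rw [hcard]
    have e : (N : ℝ) ^ 2 * (3 * (1 / (N : ℝ)) ^ 2) = 3 := by field_simp
    rw [e]
    have h3 := mul_le_mul_of_nonneg_left (sum_inv2 (N := N) hr)
      (by positivity : 0 ≤ 12 * CG ^ 2)
    linarith
  have h3 := h2 false
  have h4 := h2 true
  have e : ∀ f : V N × Bool → ℝ, ∑ x, (f (x, false) + f (x, true)) =
      ∑ x, f (x, false) + ∑ x, f (x, true) := fun f => Finset.sum_add_distrib
  have h5 := e fun y => if y.1 ∈ S then 0 else bD p q y ^ 2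
  simp only at h5 ⊢
  linarith

theorem nrm_bD (p q : V N) :
    nrm (bD p q) ≤ 6 + 384 * CG ^ 2 * (1 + Real.log (1 + N)) := by
  have h := nOff_bD p q (r := 0) (Nat.zero_le _) (S := ∅) fun x hx => by
    rcases hx with h | h <;> exact absurd h (Nat.not_lt_zero _)
  have e : nOff (∅ : Finset (V N)) (bD p q) = nrm (bD p q) := by
    unfold nOff H817.nrm
    exact Finset.sum_congr rfl fun e _ => by simp
  rw [e] at h
  simpa using h

end

end Vale.Agent.P159.H856.Dl
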