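import Vale.Agent.P159.H856.Dl5
import Vale.Agent.P159.H963.Core2

/-!
P159 / S list, 270's Ed4 (helper856), part 6: the zero background number on the torus.

* `delta_tor` : `Del` from the symmetric exponential moment (Ginibre averages), the probability of
  the bad set in the presence of the dislocation, and the two exponential inequalities (everywhere,
  and off the cores).
* `mean_tor` : the mean field of the dislocated massless law has Jensen bounds.
-/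

set_option linter.unusedSectionVars false

namespace Vale.Agent.P159.H856.Dl

open Finset Matrix MeasureTheory
open Vale.Agent.P159.TM.Spec (V)
open Vale.Agent.P159.TM.H764 (EE)
open Vale.Agent.P159.TM.H104 (EM nh)
open Vale.Agent.P159.H37 (qf bf re)
open Vale.Agent.P159.H864 (TI sym lapM ti_lapM sym_lapM)
open Vale.Agent.P159.H817 (gr nrm eF)
open Vale.Agent.P159.H963 (pin Pn Anm Ank Pin ntr An)
open Vale.Agent.P159.H770 (wTD Ed eS eT)
open Vale.Agent.P159.H883 (Zp CT Psi nuM gP)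

noncomputable section

variable {N : ℕ} [NeZero N] {b t : ℝ}

/-- `A ≤ CA (-Δ)` from the self energy -/
lemma qf_Anm_le (hb : 0 < b) (ht : 0 < t) {CA : ℝ}
    (h : ∀ k : V N, k ≠ 0 → Pin N b t k ≤ CA * EE k) (F : V N → ℝ) :
    qf (Anm N b t) F ≤ CA * nrm (gr F) := by
  rw [← H817.qf_lap, ← H864.qf_smul_mat]
  refine (H864.qf_le_iff (H963.ti_Anm hb.le ht) (ti_lapM.smul CA)).2 (fun k => ?_) F
  rw [H963.sym_Anm, H864.sym_smul, sym_lapM]
  by_cases hk : k = 0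
  · rw [hk, TM.H764.EE_zero, mul_zero]
    unfold Ank
    simp
  · refine le_trans ?_ (h k hk)
    have h1 := H963.Pin_nonneg (N := N) hb ht hk
    rw [H963.Ank_eq hb ht hk, div_le_iff₀ (by linarith)]
    nlinarith [mul_nonneg h1 h1]

/-- `A ≤ t` -/
lemma qf_Anm_le_mass (hb : 0 < b) (ht : 0 < t) (F : V N → ℝ) :
    qf (Anm N b t) F ≤ t * ∑ x, F x ^ 2 := by
  have h1 : t * ∑ x, F x ^ 2 = qf (t • (1 : Matrix (V N) (V N) ℝ)) F := by
    rw [H864.qf_smul_mat, H37.qf_eq, one_mulVec]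
    unfold dotProduct
    congr 1
    exact Finset.sum_congr rfl fun x _ => by ring
  rw [h1]
  refine (H864.qf_le_iff (H963.ti_Anm hb.le ht) (TI.one.smul t)).2 (fun k => ?_) F
  rw [H963.sym_Anm, H864.sym_smul, H864.sym_one, mul_one]
  unfold Ank
  split_ifs with hk
  · exact ht.le
  · have := H963.Gnh_nonneg (N := N) hb.le ht k
    nlinarith [mul_nonneg (sq_nonneg t) this]

lemma qf_Anm_nonneg (hb : 0 < b) (ht : 0 < t) (F : V N → ℝ) : 0 ≤ qf (Anm N b t) F := by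
  refine (H864.psd_iff (H963.ti_Anm hb.le ht)).2 (fun k => ?_) F
  rw [H963.sym_Anm]
  exact H963.Ank_nonneg hb.le ht k

lemma An_tor (b : ℝ) (ht : 0 < t) (F : V N → ℝ) :
    qf (An (wTD N b 0) (t • (1 : Matrix (V N) (V N) ℝ)) t 0) F = qf (Anm N b t) F := by
  rw [H770.wTD_zero]
  exact H963.qf_An_torus b ht F

/-- the linear functional of the model has small energy -/
lemma lD_grad (hb : 0 < b) (ht : 0 < t) {CA : ℝ}
    (hCA : ∀ k : V N, k ≠ 0 → Pin N b t k ≤ CA * EE k) (η : Ed N → ℤ) (φ F : V N → ℝ) :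
    lD (wTD N b) (t • (1 : Matrix (V N) (V N) ℝ)) t 0 η φ F ^ 2 ≤
      2 * Del (wTD N b) (t • (1 : Matrix (V N) (V N) ℝ)) t 0 η φ * CA * nrm (gr F) := by
  have hW := H770.gwf_wTD (N := N) hb
  have hE := fun (e : Ed N → ℤ) (x : V N) => H883.em_pin_wTD (N := N) hb e x
  have hM := H883.mf_scalar (N := N) ht
  refine (lD_sq hW hE hM 0 η φ F).trans ?_
  rw [An_tor b ht, mul_assoc _ CA]
  exact mul_le_mul_of_nonneg_left (qf_Anm_le hb ht hCA F)
    (mul_nonneg zero_le_two (Del_nonneg hW hE hM 0 η φ))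

/-- **the zero background number on the torus** -/
theorem delta_tor (hb : 0 < b) (ht : 0 < t) (η : Ed N → ℤ) (φ : V N → ℝ)
    {good : Set (V N → ℝ)} (hg : MeasurableSet good) {s K q : ℝ} (hs : 4 ≤ s) (hK : K ≤ s)
    (hSi : IntegrableOn (fun F => Real.exp (gP (wTD N b) (t • (1 : Matrix (V N) (V N) ℝ)) t 0
        ((η, φ), s • F) + gP (wTD N b) (t • (1 : Matrix (V N) (V N) ℝ)) t 0 ((η, φ), -(s • F))))
      good (nuM (wTD N b 0) (t • (1 : Matrix (V N) (V N) ℝ)) 0))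
    (hS : ∫ F in good, Real.exp (gP (wTD N b) (t • (1 : Matrix (V N) (V N) ℝ)) t 0
        ((η, φ), s • F) + gP (wTD N b) (t • (1 : Matrix (V N) (V N) ℝ)) t 0 ((η, φ), -(s • F)))
        ∂(nuM (wTD N b 0) (t • (1 : Matrix (V N) (V N) ℝ)) 0) ≤ CT N b η ^ 2 * Real.exp K)
    (hq0 : 0 < q)
    (hQ : ∫ F in goodᶜ, Psi (wTD N b 0) (wTD N b η) (t • (1 : Matrix (V N) (V N) ℝ)) φ F
        ∂(nuM (wTD N b 0) (t • (1 : Matrix (V N) (V N) ℝ)) 0) ≤ q * CT N b η)
    (hq8 : q ≤ 1 / 8) {CA : ℝ} (hCA : 0 < CA)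
    (hPin : ∀ k : V N, k ≠ 0 → Pin N b t k ≤ CA * EE k)
    {S : Finset (V N)} {K₀ K₁ B₀ B₁ : ℝ} (hK0 : 0 < K₀) (hK1 : 0 < K₁)
    (x0 : EXD N b η (∅ : Finset (V N)) K₀) (x1 : EXD N b η S K₁)
    (hB0 : nrm (eF η φ) ≤ B₀) (hB1 : nOff S (eF η φ) ≤ B₁)
    (hUq : (CA * (48 * (1 + Real.log 2 + b + Real.log (K₀ / CT N b η)) ^ 2 + 4 * B₀) + 16) * q
      ≤ 1 / 16) {r : ℕ} (hr : 1 ≤ r) (hrN : r ≤ N) :
    Del (wTD N b) (t • (1 : Matrix (V N) (V N) ℝ)) t 0 η φ ≤
      324 * (4 * CA * ((4 * Real.log (K₁ / CT N b η) * (Real.log (K₁ / CT N b η) + 2 * b) +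
            2 * B₁) +
          (S.card : ℝ) / (r : ℝ) ^ 2 *
            (4 * Real.log (K₀ / CT N b η) * (Real.log (K₀ / CT N b η) + 2 * b) + 2 * B₀)) +
        4 * t * (r : ℝ) ^ 2 *
          (4 * Real.log (K₀ / CT N b η) * (Real.log (K₀ / CT N b η) + 2 * b) + 2 * B₀)) + 27 := by
  have hW := H770.gwf_wTD (N := N) hb
  have hE := fun (e : Ed N → ℤ) (x : V N) => H883.em_pin_wTD (N := N) hb e x
  have hM := H883.mf_scalar (N := N) ht
  have hG : H963.GW (wTD N b 0) := by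
    rw [H770.wTD_zero]
    exact H963.gw_wT hb.le
  set D := Del (wTD N b) (t • (1 : Matrix (V N) (V N) ℝ)) t 0 η φ with hD
  have hD0 : 0 ≤ D := Del_nonneg hW hE hM 0 η φ
  have hqf := qf_JB hb (qf_Anm_nonneg hb ht) (qf_Anm_le hb ht hPin) hCA.le
    (qf_Anm_le_mass hb ht) ht.le hr hrN (gr_kD hb η φ) (x1.jb hb hK1) (x0.jb hb hK0) hB1 hB0
  rcases eq_or_lt_of_le hD0 with h0 | h0
  · rw [← h0]
    have := qf_Anm_nonneg (N := N) hb ht (kD (wTD N b) 0 η φ)
    linarith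
  have hm2 : m2D (wTD N b) (t • (1 : Matrix (V N) (V N) ℝ)) t 0 η φ ≤
      D * (CA * (48 * (1 + Real.log 2 + b + Real.log (K₀ / CT N b η)) ^ 2 + 4 * B₀)) := by
    have hc := sum_cD hW hE hM 0 η φ
    have h1 := x0.second hb hK0 φ hc (κ := 2 * D * CA) (by positivity)
      (fun F => by rw [← lD_eq hW hM]; exact lD_grad hb ht hPin η φ F) hB0
    unfold m2D
    simp only [lD_eq hW hM]
    refine h1.trans (le_of_eq ?_)
    ring
  have h1 := delta_neu hW hE hG hM 0 η φ hg hs hK hSi hS hq0 hQ hm2 hUq hq8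
  rw [An_tor b ht] at h1
  linarith

end

end Vale.Agent.P159.H856.Dl
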