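import Vale.Agent.P159.H883.Brg5
import Vale.Agent.P159.H963.NeuI

/-!
P159 / S list, 270's Ed4 (helper856), part 2: first and second moments of a linear functional under
the law of the field in the presence of a dislocation (`Psi / C` times the law `nuM`), reduced to the
massless dislocated law of the heights.
-/

set_option linter.unusedSectionVars false

namespace Vale.Agent.P159.H856.Dl

open Finset Matrix MeasureTheory
open Vale.Agent.P159.TM.H104 (EM nh)
open Vale.Agent.P159.H37 (qf bf Zn re gau)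
open Vale.Agent.P159.H963 (GrI pin MF ntr GW Neu)
open Vale.Agent.P159.H883

noncomputable section

variable {V : Type} [Fintype V] [DecidableEq V] [Nonempty V]
variable {w wD : (V → ℤ) → ℝ} {M : Matrix V V ℝ} {m : ℝ}

/-- **expectation in the presence of the dislocation**, general functional -/
theorem Enu_dis (hw : BW w) (hD : BW wD) (hM : MF M m) (x₀ : V) (φ : V → ℝ) {H : (V → ℝ) → ℝ}
    (hH : CI H) (hx : XG H) :
    IN w M x₀ (fun F => Psi w wD M φ F * H F) ∧
    (Summable fun h => pin wD x₀ h * SI x₀ fun F => H (F + (re h - φ)) * E0g M m F) ∧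
    Enu w M x₀ (fun F => Psi w wD M φ F * H F) =
      (∑' h, pin wD x₀ h * SI x₀ fun F => H (F + (re h - φ)) * E0g M m F) /
        (Gs M m x₀ * Zp w x₀) := by
  have e1 : ∀ F, Psi w wD M φ F * H F * Zn w M F =
      (fun G : V → ℝ => H (-φ + G) * Zn wD M G) (F + φ) := by
    intro F
    simp only
    have h1 : -φ + (F + φ) = F := by abel
    rw [h1, mul_right_comm, psi_mul hw hM, add_comm F φ]
    ring
  have hci : CI fun G : V → ℝ => H (-φ + G) := by
    have := hH.shift (-φ)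
    have e : (fun F : V → ℝ => H (F + -φ)) = fun G => H (-φ + G) := funext fun G => by rw [add_comm]
    rwa [e] at this
  obtain ⟨hm, C, hC, hb⟩ := hx.shift (-φ)
  obtain ⟨g1, g2, g3⟩ := hD.SI_Zn_gen hM x₀ (H := fun G => H (-φ + G)) hci hm hb
  have hci2 : CI fun G : V → ℝ => H (-φ + G) * Zn wD M G := hci.mul (hD.ci M)
  have e2 : ∀ (h : V → ℤ) (F : V → ℝ), -φ + (F + re h) = F + (re h - φ) := fun h F => by abel
  simp only [e2] at g2 g3
  refine ⟨?_, g2, ?_⟩
  · unfold IN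
    simp only [e1]
    exact SI_shift_int hci2 x₀ φ g1
  · unfold Enu
    simp only [e1]
    rw [SI_shift hci2 x₀ φ, g3, (hw.SI_Zn hM x₀).2]
    unfold cI
    rw [mul_assoc, mul_div_mul_left _ _ (kap_pos (V := V) hM.pos).ne']

/-! ### linear functionals -/

/-- linear functional -/
def lin (c F : V → ℝ) : ℝ := ∑ x, c x * F x

lemma lin_add (c F G : V → ℝ) : lin c (F + G) = lin c F + lin c G := by
  unfold lin
  rw [← Finset.sum_add_distrib]
  exact Finset.sum_congr rfl fun x _ => by rw [Pi.add_apply]; ring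

lemma lin_neg (c F : V → ℝ) : lin c (-F) = -lin c F := by
  unfold lin
  rw [← Finset.sum_neg_distrib]
  exact Finset.sum_congr rfl fun x _ => by rw [Pi.neg_apply]; ring

lemma lin_sub (c F G : V → ℝ) : lin c (F - G) = lin c F - lin c G := by
  rw [sub_eq_add_neg, lin_add, lin_neg, ← sub_eq_add_neg]

lemma lin_smul (c F : V → ℝ) (s : ℝ) : lin c (s • F) = s * lin c F := by
  unfold lin
  rw [Finset.mul_sum]
  exact Finset.sum_congr rfl fun x _ => by rw [Pi.smul_apply, smul_eq_mul]; ring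

lemma lin_const {c : V → ℝ} (hc : ∑ x, c x = 0) (a : ℝ) : lin c (fun _ => a) = 0 := by
  unfold lin
  rw [← Finset.sum_mul, hc, zero_mul]

lemma ci_lin {c : V → ℝ} (hc : ∑ x, c x = 0) : CI (lin c) := fun F a => by
  have : (fun x => F x + a) = F + fun _ => a := rfl
  rw [this, lin_add, lin_const hc, add_zero]

lemma abs_lin_le (c F : V → ℝ) : |lin c F| ≤ (∑ x, |c x|) * ∑ x, |F x| := by
  unfold lin
  rw [Finset.sum_mul]
  refine (Finset.abs_sum_le_sum_abs _ _).trans (Finset.sum_le_sum fun x _ => ?_)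
  rw [abs_mul]
  exact mul_le_mul_of_nonneg_left (Finset.single_le_sum (f := fun y => |F y|)
    (fun _ _ => abs_nonneg _) (Finset.mem_univ x)) (abs_nonneg _)

lemma xg_lin (c : V → ℝ) : XG (lin c) := by
  have h : (lin c) = fun g => ∑ x, c x * g x := rfl
  rw [h]
  refine XG.sum _ fun x _ => XG.const_mul _ ⟨measurable_pi_apply x, 1, zero_le_one, fun g => ?_⟩
  rw [one_mul, one_mul]
  have h1 : |g x| ≤ ∑ y, |g y| := Finset.single_le_sum (f := fun y => |g y|)
    (fun _ _ => abs_nonneg _) (Finset.mem_univ x)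
  have h2 := Real.add_one_le_exp (∑ y, |g y|)
  linarith

/-! ### the noise -/

/-- functions of exponential growth against the Gaussian -/
lemma xg_E0g (hM : MF M m) (x₀ : V) {H : (V → ℝ) → ℝ} (hx : XG H) :
    IntegrableOn (fun F => H F * E0g M m F) (slab x₀) := by
  obtain ⟨hm, C, hC, hb⟩ := hx
  exact integrable_slab hM x₀ hm hb

lemma SI_lin_zero (hM : MF M m) (x₀ : V) {c : V → ℝ} (hc : ∑ x, c x = 0) :
    SI x₀ (fun F => lin c F * E0g M m F) = 0 := by
  have h1 := SI_neg ((ci_lin hc).mul (ci_E0g hM)) x₀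
  simp only [lin_neg, E0g_neg] at h1
  have h2 : SI x₀ (fun F => -lin c F * E0g M m F) = -SI x₀ (fun F => lin c F * E0g M m F) := by
    unfold SI
    rw [← integral_neg]
    refine integral_congr_ae (Filter.Eventually.of_forall fun F => ?_)
    simp only
    ring
  rw [h2] at h1
  linarith

lemma SI_lin_shift (hM : MF M m) (x₀ : V) {c : V → ℝ} (hc : ∑ x, c x = 0) (u : V → ℝ) :
    SI x₀ (fun F => lin c (F + u) * E0g M m F) = lin c u * Gs M m x₀ := by
  have h1 : SI x₀ (fun F => lin c (F + u) * E0g M m F) =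
      SI x₀ (fun F => lin c F * E0g M m F) + lin c u * SI x₀ (E0g M m) := by
    unfold SI
    rw [← integral_const_mul, ← integral_add (xg_E0g hM x₀ (xg_lin c))
      ((E0g_int hM x₀).const_mul _)]
    refine integral_congr_ae (Filter.Eventually.of_forall fun F => ?_)
    simp only
    rw [lin_add]
    ring
  rw [h1, SI_lin_zero hM x₀ hc, zero_add]
  rfl

lemma SI_sq_shift (hM : MF M m) (x₀ : V) {c : V → ℝ} (hc : ∑ x, c x = 0) (u : V → ℝ) :
    SI x₀ (fun F => lin c (F + u) ^ 2 * E0g M m F) =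
      lin c u ^ 2 * Gs M m x₀ + SI x₀ (fun F => lin c F ^ 2 * E0g M m F) := by
  have i1 := xg_E0g hM x₀ (xg_lin c)
  have i2 := xg_E0g hM x₀ ((xg_lin c).pow 2)
  have h1 : SI x₀ (fun F => lin c (F + u) ^ 2 * E0g M m F) =
      SI x₀ (fun F => lin c F ^ 2 * E0g M m F) + (2 * lin c u) *
        SI x₀ (fun F => lin c F * E0g M m F) + lin c u ^ 2 * SI x₀ (E0g M m) := by
    have a1 := integral_add i2 (i1.const_mul (2 * lin c u))
    have a2 := integral_add (i2.add (i1.const_mul (2 * lin c u)))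
      ((E0g_int hM x₀).const_mul (lin c u ^ 2))
    rw [integral_const_mul] at a1 a2
    simp only [Pi.add_apply] at a1 a2
    unfold SI
    rw [← a1, ← a2]
    refine integral_congr_ae (Filter.Eventually.of_forall fun F => ?_)
    simp only [lin_add]
    ring
  rw [h1, SI_lin_zero hM x₀ hc]
  unfold Gs
  ring

/-- every neutral functional is `⟨·, ntr M u⟩` -/
lemma exists_rep (hM : MF M m) {c : V → ℝ} (hc : ∑ x, c x = 0) : ∃ u : V → ℝ, ntr M m *ᵥ u = c := by
  obtain ⟨m0, hm0, hco⟩ := hM.coer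
  have hinj : Function.Injective (Matrix.mulVecLin M) := by
    rw [← LinearMap.ker_eq_bot, LinearMap.ker_eq_bot']
    intro u hu
    have h1 := hco u
    have h2 : qf M u = 0 := by
      rw [H37.qf_eq]
      have : M *ᵥ u = 0 := hu
      rw [this, dotProduct_zero]
    rw [h2] at h1
    have h3 : ∑ x, u x ^ 2 ≤ 0 := by
      by_contra hcon
      push Not at hcon
      have := mul_pos hm0 hcon
      linarith
    have h4 : ∑ x, u x ^ 2 = 0 := le_antisymm h3 (Finset.sum_nonneg fun _ _ => sq_nonneg _)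
    funext x
    have h5 := (Finset.sum_eq_zero_iff_of_nonneg fun _ _ => sq_nonneg _).1 h4 x (Finset.mem_univ x)
    exact pow_eq_zero_iff (two_ne_zero) |>.1 h5
  obtain ⟨u, hu⟩ := (LinearMap.injective_iff_surjective.1 hinj) c
  have hu' : M *ᵥ u = c := hu
  have hs : m * ∑ x, u x = 0 := by
    rw [← hc, ← hu']
    simp only [mulVec, dotProduct]
    rw [Finset.sum_comm, Finset.mul_sum]
    refine Finset.sum_congr rfl fun y _ => ?_
    rw [← Finset.sum_mul]
    congr 1
    rw [← hM.row y]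
    refine Finset.sum_congr rfl fun x _ => ?_
    conv_lhs => rw [← hM.symm]
    rfl
  have hs0 : ∑ x, u x = 0 := (mul_eq_zero.1 hs).resolve_left hM.pos.ne'
  exact ⟨u, (H963.ntr_of_neu M m hs0).trans hu'⟩

lemma E0g_shift_exp (hM : MF M m) (u F : V → ℝ) (s : ℝ) :
    Real.exp (s * lin (ntr M m *ᵥ u) F) * E0g M m F =
      Real.exp (s ^ 2 * qf (ntr M m) u / 2) * E0g M m (F + -(s • u)) := by
  have hA := H963.ntr_transpose hM.symm m
  unfold E0g
  rw [← Real.exp_add, ← Real.exp_add]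
  congr 1
  have h1 : qf (ntr M m) (F + -(s • u)) = qf (ntr M m) F - 2 * (s * lin (ntr M m *ᵥ u) F) +
      s ^ 2 * qf (ntr M m) u := by
    have e2 : lin (ntr M m *ᵥ u) F = F ⬝ᵥ (ntr M m *ᵥ u) := by
      unfold lin
      simp only [dotProduct]
      exact Finset.sum_congr rfl fun x _ => mul_comm _ _
    have e3 : u ⬝ᵥ (ntr M m *ᵥ F) = F ⬝ᵥ (ntr M m *ᵥ u) := by
      rw [dotProduct_mulVec, ← mulVec_transpose, hA, dotProduct_comm]
    rw [H37.qf_eq, H37.qf_eq, H37.qf_eq, e2]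
    simp only [mulVec_add, mulVec_neg, mulVec_smul, add_dotProduct, dotProduct_add,
      neg_dotProduct, dotProduct_neg, smul_dotProduct, dotProduct_smul, smul_eq_mul, e3]
    ring
  rw [h1]
  ring

lemma SI_exp_lin (hM : MF M m) (x₀ : V) (u : V → ℝ) (s : ℝ) :
    SI x₀ (fun F => Real.exp (s * lin (ntr M m *ᵥ u) F) * E0g M m F) =
      Real.exp (s ^ 2 * qf (ntr M m) u / 2) * Gs M m x₀ := by
  simp only [E0g_shift_exp hM]
  unfold SI
  rw [integral_const_mul]
  congr 1
  exact SI_shift (ci_E0g hM) x₀ (-(s • u))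

lemma exp_lin_int (hM : MF M m) (x₀ : V) (u : V → ℝ) (s : ℝ) :
    IntegrableOn (fun F => Real.exp (s * lin (ntr M m *ᵥ u) F) * E0g M m F) (slab x₀) := by
  simp only [E0g_shift_exp hM]
  exact (SI_shift_int (ci_E0g hM) x₀ (-(s • u)) (E0g_int hM x₀)).const_mul _

lemma sq_le_two_exp (x : ℝ) : x ^ 2 ≤ 2 * (Real.exp x + Real.exp (-x)) := by
  rcases le_total 0 x with h | h
  · have h1 := Real.quadratic_le_exp_of_nonneg h
    have h2 := Real.exp_pos (-x)
    linarith
  · have h1 := Real.quadratic_le_exp_of_nonneg (neg_nonneg.2 h)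
    have h2 := Real.exp_pos x
    nlinarith

/-- second moment of the noise -/
lemma SI_sq_le (hM : MF M m) (x₀ : V) {c : V → ℝ} (hc : ∑ x, c x = 0) {κ : ℝ} (hκ : 0 < κ)
    (h : ∀ u : V → ℝ, lin c u ^ 2 ≤ κ * qf (ntr M m) u) :
    SI x₀ (fun F => lin c F ^ 2 * E0g M m F) ≤ 8 * κ * Gs M m x₀ := by
  obtain ⟨u, hu⟩ := exists_rep hM hc
  have hA := H963.ntr_transpose hM.symm m
  have e2 : lin c u = qf (ntr M m) u := by
    rw [← hu, H37.qf_eq]
    unfold lin
    simp only [dotProduct]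
    exact Finset.sum_congr rfl fun x _ => mul_comm _ _
  have hq : qf (ntr M m) u ≤ κ := by
    have h1 := h u
    rw [e2] at h1
    rcases le_or_gt (qf (ntr M m) u) 0 with h2 | h2
    · linarith
    · nlinarith
  set s : ℝ := 1 / Real.sqrt κ with hs
  have hsk : s ^ 2 * κ = 1 := by
    rw [hs, div_pow, one_pow, Real.sq_sqrt hκ.le, one_div_mul_cancel hκ.ne']
  have hpt : ∀ F : V → ℝ, lin c F ^ 2 * E0g M m F ≤
      (2 * κ) * (Real.exp (s * lin c F) * E0g M m F) +
        (2 * κ) * (Real.exp (-s * lin c F) * E0g M m F) := by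
    intro F
    have h1 := sq_le_two_exp (s * lin c F)
    have h3 : lin c F ^ 2 = κ * (s * lin c F) ^ 2 := by
      rw [mul_pow, ← mul_assoc, mul_comm κ (s ^ 2), hsk, one_mul]
    rw [h3]
    have h4 := mul_le_mul_of_nonneg_left h1 hκ.le
    have h5 := mul_le_mul_of_nonneg_right h4 (E0g_pos M m F).le
    rw [neg_mul]
    calc κ * (s * lin c F) ^ 2 * E0g M m F ≤ _ := h5
      _ = _ := by ring
  have i1 := (exp_lin_int hM x₀ u s).const_mul (2 * κ)
  have i2 := (exp_lin_int hM x₀ u (-s)).const_mul (2 * κ)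
  have k1 := SI_exp_lin hM x₀ u s
  have k2 := SI_exp_lin hM x₀ u (-s)
  rw [hu] at i1 i2 k1 k2
  have h6 : SI x₀ (fun F => lin c F ^ 2 * E0g M m F) ≤
      (2 * κ) * SI x₀ (fun F => Real.exp (s * lin c F) * E0g M m F) +
        (2 * κ) * SI x₀ (fun F => Real.exp (-s * lin c F) * E0g M m F) := by
    unfold SI
    rw [← integral_const_mul, ← integral_const_mul, ← integral_add i1 i2]
    exact integral_mono (xg_E0g hM x₀ ((xg_lin c).pow 2)) (i1.add i2) hpt
  rw [k1, k2] at h6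
  have h7 : Real.exp (s ^ 2 * qf (ntr M m) u / 2) ≤ 2 := by
    have h8 : s ^ 2 * qf (ntr M m) u ≤ 1 := by
      rw [← hsk]
      exact mul_le_mul_of_nonneg_left hq (sq_nonneg _)
    have h9 : Real.exp (s ^ 2 * qf (ntr M m) u / 2) ≤ Real.exp (1 / 2) :=
      Real.exp_le_exp.2 (by linarith)
    have h10 : Real.exp (1 / 2) ≤ 2 := by
      have h11 : Real.exp (1 / 2) ^ 2 = Real.exp 1 := by
        rw [← Real.exp_nat_mul]
        norm_num
      have h12 := Real.exp_one_lt_d9
      nlinarith [Real.exp_pos (1 / 2 : ℝ)]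
    exact h9.trans h10
  have e5 : (-s) ^ 2 = s ^ 2 := by ring
  rw [e5] at h6
  have hG := (Gs_pos hM x₀).le
  have h13 : κ * (Real.exp (s ^ 2 * qf (ntr M m) u / 2) * Gs M m x₀) ≤ κ * (2 * Gs M m x₀) :=
    mul_le_mul_of_nonneg_left (mul_le_mul_of_nonneg_right h7 hG) hκ.le
  linarith

/-! ### the moments -/

/-- **first moment** -/
theorem Enu_lin (hw : BW w) (hD : BW wD) (hM : MF M m) (x₀ : V) (φ : V → ℝ) {c : V → ℝ}
    (hc : ∑ x, c x = 0) :
    (Summable fun h => pin wD x₀ h * lin c (re h - φ)) ∧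
    Enu w M x₀ (fun F => Psi w wD M φ F * lin c F) =
      (∑' h, pin wD x₀ h * lin c (re h - φ)) / Zp w x₀ := by
  obtain ⟨-, h2, h3⟩ := Enu_dis hw hD hM x₀ φ (ci_lin hc) (xg_lin c)
  have hG := Gs_pos hM x₀
  simp only [SI_lin_shift hM x₀ hc, ← mul_assoc] at h2 h3
  rw [summable_mul_right_iff hG.ne'] at h2
  refine ⟨h2, ?_⟩
  rw [h3, tsum_mul_right, mul_comm (Gs M m x₀), mul_div_mul_right _ _ hG.ne']

/-- **second moment** -/
theorem Enu_sq (hw : BW w) (hD : BW wD) (hM : MF M m) (x₀ : V) (φ : V → ℝ) {c : V → ℝ}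
    (hc : ∑ x, c x = 0) {κ : ℝ} (hκ : 0 < κ) (h : ∀ u : V → ℝ, lin c u ^ 2 ≤ κ * qf (ntr M m) u) :
    (Summable fun h => pin wD x₀ h * lin c (re h - φ) ^ 2) ∧
    Enu w M x₀ (fun F => Psi w wD M φ F * lin c F ^ 2) ≤
      (∑' h, pin wD x₀ h * lin c (re h - φ) ^ 2) / Zp w x₀ +
        8 * κ * (Zp wD x₀ / Zp w x₀) := by
  obtain ⟨-, h2, h3⟩ := Enu_dis hw hD hM x₀ φ ((ci_lin hc).comp fun r => r ^ 2)
    ((xg_lin c).pow 2)
  have hG := Gs_pos hM x₀
  have hz := hw.Zp_pos x₀
  have hs : Summable (pin wD x₀) := by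
    have := (hD.em0 x₀).sum 0
    simpa using this
  have hp0 : ∀ h, 0 ≤ pin wD x₀ h := H963.pin_nonneg hD.nn x₀
  simp only [SI_sq_shift hM x₀ hc, mul_add, ← mul_assoc] at h2 h3
  have hs2 := hs.mul_right (SI x₀ fun F => lin c F ^ 2 * E0g M m F)
  have h4 : Summable fun h => pin wD x₀ h * lin c (re h - φ) ^ 2 * Gs M m x₀ := by
    refine (h2.sub hs2).congr fun h => ?_
    ring
  have h5 := h4
  rw [summable_mul_right_iff hG.ne'] at h4
  refine ⟨h4, ?_⟩
  rw [h3, h5.tsum_add hs2, tsum_mul_right, tsum_mul_right, add_div]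
  have e1 : (∑' h, pin wD x₀ h * lin c (re h - φ) ^ 2) * Gs M m x₀ / (Gs M m x₀ * Zp w x₀) =
      (∑' h, pin wD x₀ h * lin c (re h - φ) ^ 2) / Zp w x₀ := by
    rw [mul_comm (Gs M m x₀), mul_div_mul_right _ _ hG.ne']
  rw [e1]
  have e2 : (∑' h, pin wD x₀ h) * SI x₀ (fun F => lin c F ^ 2 * E0g M m F) /
      (Gs M m x₀ * Zp w x₀) ≤ 8 * κ * (Zp wD x₀ / Zp w x₀) := by
    rw [div_le_iff₀ (mul_pos hG hz)]
    have h6 := SI_sq_le hM x₀ hc hκ h
    have h7 := mul_le_mul_of_nonneg_left h6 (hD.Zp_pos x₀).le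
    have e3 : 8 * κ * (Zp wD x₀ / Zp w x₀) * (Gs M m x₀ * Zp w x₀) =
        Zp wD x₀ * (8 * κ * Gs M m x₀) := by
      field_simp
    rw [e3]
    exact h7
  linarith

end

end Vale.Agent.P159.H856.Dl
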