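import Vale.Agent.P159.H856.Dl1
import Vale.Agent.P159.H856.Dl2
import Vale.Agent.P159.H883.Prc2
import Vale.Agent.P159.H963.Core2

/-!
P159 / S list, 270's Ed4 (helper856), part 3: the zero background number
`Del = log C - log Psi(0)` in the letters of the neutral model (`gP`, `nuM`, `Psi`) from

* the symmetric exponential moment at the amplitude `s` (Ginibre averages),
* the probability of the bad set in the presence of the dislocation,
* the second moment of the linear functional,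
* the energy of the mean `kD` of the field in the presence of the dislocation.
-/

set_option linter.unusedSectionVars false

namespace Vale.Agent.P159.H856.Dl

open Finset Matrix MeasureTheory
open Vale.Agent.P159.TM.H104 (EM nh Ex li)
open Vale.Agent.P159.H37 (qf bf Zn re gau Rs Gm)
open Vale.Agent.P159.H963 (GrI pin MF ntr GW Neu nM An)
open Vale.Agent.P159.H770 (GWF RsD DisF)
open Vale.Agent.P159.H883

noncomputable section

variable {V : Type} [Fintype V] [DecidableEq V] [Nonempty V]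
variable {β : Type} [AddCommGroup β] {W : β → (V → ℤ) → ℝ} {M : Matrix V V ℝ} {m : ℝ}

/-- the ratio of the massless partition functions -/
def CW (W : β → (V → ℤ) → ℝ) (x₀ : V) (b : β) : ℝ := Zp (W b) x₀ / Zp (W 0) x₀

/-- the zero background number -/
def Del (W : β → (V → ℤ) → ℝ) (M : Matrix V V ℝ) (m : ℝ) (x₀ : V) (b : β) (φ : V → ℝ) : ℝ :=
  Real.log (CW W x₀ b) - gP W M m x₀ ((b, φ), 0)

/-- the linear functional -/
def lD (W : β → (V → ℤ) → ℝ) (M : Matrix V V ℝ) (m : ℝ) (x₀ : V) (b : β) (φ F : V → ℝ) : ℝ :=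
  -H513.Amp.ell (fun b => nM (W b) M m x₀) (ntr M m) b φ F

/-- the convex part -/
def pD (W : β → (V → ℤ) → ℝ) (M : Matrix V V ℝ) (m : ℝ) (x₀ : V) (b : β) (φ F : V → ℝ) : ℝ :=
  RsD (fun b => nM (W b) M m x₀) b (ntr M m *ᵥ φ) (ntr M m *ᵥ F)

/-- the mean of the field in the presence of the dislocation -/
def kD (W : β → (V → ℤ) → ℝ) (x₀ : V) (b : β) (φ : V → ℝ) (x : V) : ℝ :=
  (∑' h, pin (W b) x₀ h * (re h x - φ x)) / Zp (W b) x₀

lemma CW_pos (hW : GWF W) (hE : ∀ b x₀, EM (pin (W b) x₀)) (x₀ : V) (b : β) : 0 < CW W x₀ b :=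
  div_pos ((gwf_bw hW hE b).Zp_pos x₀) ((gwf_bw hW hE 0).Zp_pos x₀)

/-- `gP` as an affine functional plus a nonnegative convex one -/
theorem gP_split (hW : GWF W) (hM : MF M m) (x₀ : V) (b : β) (φ F : V → ℝ) :
    gP W M m x₀ ((b, φ), F) =
      gP W M m x₀ ((b, φ), 0) + lD W M m x₀ b φ F + pD W M m x₀ b φ F := by
  have hD := hW.disF_nM hM x₀
  have hA := H963.ntr_transpose hM.symm m
  have h1 := H513.Amp.ZF_ratio hD hA (Real.sqrt (2 * Real.pi / (m * Fintype.card V))) b φ F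
  rw [← H513.Amp.Zn_ZF hW hM x₀, ← H513.Amp.Zn_ZF hW hM x₀, ← H513.Amp.Zn_ZF hW hM x₀,
    ← H513.Amp.Zn_ZF hW hM x₀] at h1
  have p1 := hW.Zn_pos hM b (φ + F)
  have p2 := hW.Zn_pos hM 0 (0 : V → ℝ)
  have p3 := hW.Zn_pos hM 0 F
  have p4 := hW.Zn_pos hM b φ
  have h2 := congrArg Real.log h1
  rw [Real.log_mul p1.ne' p2.ne', Real.log_mul (mul_pos p3 p4).ne' (Real.exp_pos _).ne',
    Real.log_mul p3.ne' p4.ne', Real.log_exp] at h2
  have h3 := gP_real (x₀ := x₀) hW hM F
  rw [rP_apply] at h3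
  unfold gP at h3 ⊢
  simp only [Prod.fst_zero, Prod.snd_zero, zero_add, add_zero, H37.qf_zero_vec, zero_div] at h3 ⊢
  unfold lD pD
  linarith

lemma pD_nonneg (hW : GWF W) (hM : MF M m) (x₀ : V) (b : β) (φ F : V → ℝ) :
    0 ≤ pD W M m x₀ b φ F := H770.RsD_nonneg (hW.disF_nM hM x₀) _ _ _

/-- convexity along the rays -/
lemma pD_ray (hW : GWF W) (hM : MF M m) (x₀ : V) (b : β) (φ F : V → ℝ) {s : ℝ} (hs : 1 ≤ s) :
    pD W M m x₀ b φ F ≤ pD W M m x₀ b φ (s • F) / s := by
  have hs0 : 0 < s := by linarith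
  have h1 : 0 ≤ 1 - 1 / s := sub_nonneg.2 ((div_le_one hs0).2 hs)
  have h2 : 0 ≤ 1 / s := by positivity
  have hc := (H770.RsD_convex (hW.disF_nM hM x₀) b (ntr M m *ᵥ φ)).2
    (Set.mem_univ (0 : V → ℝ)) (Set.mem_univ (ntr M m *ᵥ (s • F))) h1 h2 (by ring)
  have e1 : (1 - 1 / s) • (0 : V → ℝ) + (1 / s) • (ntr M m *ᵥ (s • F)) = ntr M m *ᵥ F := by
    rw [smul_zero, zero_add, mulVec_smul, smul_smul, one_div_mul_cancel hs0.ne', one_smul]
  rw [e1, H770.RsD_zero_vec, smul_zero, zero_add, smul_eq_mul] at hc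
  unfold pD
  rw [div_eq_mul_one_div, mul_comm]
  exact hc

/-- the zero background number is nonnegative, and controls the maximum over the real fields -/
theorem Del_max (hW : GWF W) (hE : ∀ b x₀, EM (pin (W b) x₀)) (hM : MF M m) (x₀ : V) (b : β)
    (φ F : V → ℝ) :
    Zn (W b) M (φ + F) ≤ Real.exp (Del W M m x₀ b φ) * Zn (W b) M φ := by
  have h1 := Psi_zero_le hW hE hM x₀ b (φ + F)
  have p1 := hW.Zn_pos hM b φ
  have p2 := hW.Zn_pos hM 0 (0 : V → ℝ)
  have hC := CW_pos hW hE x₀ b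
  have e1 : Real.exp (Del W M m x₀ b φ) * Zn (W b) M φ = CW W x₀ b * Zn (W 0) M 0 := by
    unfold Del gP
    simp only [add_zero, H37.qf_zero_vec, zero_div]
    rw [Real.exp_sub, Real.exp_log hC, Real.exp_sub, Real.exp_log p1, Real.exp_log p2]
    field_simp
  rw [e1]
  unfold Psi at h1
  rw [add_zero, div_le_iff₀ p2] at h1
  exact h1

theorem Del_nonneg (hW : GWF W) (hE : ∀ b x₀, EM (pin (W b) x₀)) (hM : MF M m) (x₀ : V) (b : β)
    (φ : V → ℝ) : 0 ≤ Del W M m x₀ b φ := by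
  have h := Del_max hW hE hM x₀ b φ 0
  rw [add_zero] at h
  have p1 := hW.Zn_pos hM b φ
  have h2 : 1 ≤ Real.exp (Del W M m x₀ b φ) := by
    by_contra hcon
    push Not at hcon
    have := mul_lt_mul_of_pos_right hcon p1
    linarith
  exact Real.one_le_exp_iff.1 h2

/-! ### the linear functional -/

lemma lD_add (hW : GWF W) (hM : MF M m) (x₀ : V) (b : β) (φ F G : V → ℝ) :
    lD W M m x₀ b φ (F + G) = lD W M m x₀ b φ F + lD W M m x₀ b φ G := by
  have hD := hW.disF_nM hM x₀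
  unfold lD H513.Amp.ell
  rw [H37.bf_add_right, mulVec_add, H770.Ex_li_add hD]
  ring

lemma lD_smul (x₀ : V) (b : β) (φ F : V → ℝ) (s : ℝ) :
    lD W M m x₀ b φ (s • F) = s * lD W M m x₀ b φ F := by
  unfold lD
  rw [H513.Amp.ell_smul]
  ring

/-- coefficients of the linear functional -/
def cD (W : β → (V → ℤ) → ℝ) (M : Matrix V V ℝ) (m : ℝ) (x₀ : V) (b : β) (φ : V → ℝ) (x : V) : ℝ :=
  lD W M m x₀ b φ fun y => if x = y then 1 else 0

lemma lD_eq (hW : GWF W) (hM : MF M m) (x₀ : V) (b : β) (φ F : V → ℝ) :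
    lD W M m x₀ b φ F = lin (cD W M m x₀ b φ) F := by
  let L : (V → ℝ) →ₗ[ℝ] ℝ :=
    { toFun := lD W M m x₀ b φ
      map_add' := lD_add hW hM x₀ b φ
      map_smul' := fun s F => by simpa using lD_smul x₀ b φ F s }
  have h := LinearMap.pi_apply_eq_sum_univ L F
  have h1 : L F = lD W M m x₀ b φ F := rfl
  rw [← h1, h]
  unfold lin
  refine Finset.sum_congr rfl fun x _ => ?_
  rw [smul_eq_mul, mul_comm]
  rfl

/-- the linear functional has energy at most `2 Del` -/
theorem lD_sq (hW : GWF W) (hE : ∀ b x₀, EM (pin (W b) x₀)) (hM : MF M m) (x₀ : V) (b : β)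
    (φ F : V → ℝ) :
    lD W M m x₀ b φ F ^ 2 ≤ 2 * Del W M m x₀ b φ * qf (An (W 0) M m x₀) F := by
  have h := H963.Core.ell_sq_n hW hM x₀ b φ (Del_max hW hE hM x₀ b φ) F
  have e : H963.Core.qA (fun b => nM (W b) M m x₀) (ntr M m) F = qf (An (W 0) M m x₀) F := by
    rw [H963.qf_An hM.symm]
    rfl
  rw [e] at h
  unfold lD
  rw [neg_sq]
  exact h

lemma sum_cD (hW : GWF W) (hE : ∀ b x₀, EM (pin (W b) x₀)) (hM : MF M m) (x₀ : V) (b : β)
    (φ : V → ℝ) : ∑ x, cD W M m x₀ b φ x = 0 := by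
  have h1 := lD_sq hW hE hM x₀ b φ fun _ => (1 : ℝ)
  have h2 : ntr M m *ᵥ (fun _ => (1 : ℝ)) = 0 := by
    funext x
    simp only [mulVec, dotProduct, mul_one, Pi.zero_apply]
    exact H963.ntr_row hM.row x
  have h3 : qf (An (W 0) M m x₀) (fun _ => (1 : ℝ)) = 0 := by
    rw [H963.qf_An hM.symm, h2, H37.qf_zero_vec, H37.qf_eq, h2, dotProduct_zero]
    ring
  rw [h3, mul_zero] at h1
  have h4 : lD W M m x₀ b φ (fun _ => (1 : ℝ)) = 0 := by
    have := le_antisymm h1 (sq_nonneg _)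
    exact pow_eq_zero_iff two_ne_zero |>.1 this
  rw [lD_eq hW hM] at h4
  unfold lin at h4
  simpa using h4

/-- the quadratic form of the model is at most the mass form -/
lemma An_le_ntr (hW : GWF W) (hM : MF M m) (x₀ : V) (F : V → ℝ) :
    qf (An (W 0) M m x₀) F ≤ qf (ntr M m) F := by
  rw [H963.qf_An hM.symm]
  have h : 0 ≤ qf (Gm (nM (W 0) M m x₀)) (ntr M m *ᵥ F) := by
    have he : EM (nM (W 0) M m x₀) := (hW.disF_nM hM x₀).em 0
    exact H864.qf_Cm_nonneg he 0 _
  have e : Gm (nM (W 0) M m x₀) = Gm (pin (H37.wM (W 0) (ntr M m)) x₀) := rfl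
  rw [e] at h
  linarith

/-! ### the zero background number -/

/-- second moment of the linear functional under the massless dislocated law -/
def m2D (W : β → (V → ℤ) → ℝ) (M : Matrix V V ℝ) (m : ℝ) (x₀ : V) (b : β) (φ : V → ℝ) : ℝ :=
  (∑' h, pin (W b) x₀ h * lD W M m x₀ b φ (re h - φ) ^ 2) / Zp (W b) x₀

/-- **the zero background number** -/
theorem delta_neu (hW : GWF W) (hE : ∀ b x₀, EM (pin (W b) x₀)) (hG : GW (W 0)) (hM : MF M m)
    (x₀ : V) (b : β) (φ : V → ℝ) {good : Set (V → ℝ)} (hg : MeasurableSet good) {s K0 q U : ℝ}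
    (hs : 4 ≤ s) (hK : K0 ≤ s)
    (hSi : IntegrableOn (fun F => Real.exp (gP W M m x₀ ((b, φ), s • F) +
      gP W M m x₀ ((b, φ), -(s • F)))) good (nuM (W 0) M x₀))
    (hS : ∫ F in good, Real.exp (gP W M m x₀ ((b, φ), s • F) +
      gP W M m x₀ ((b, φ), -(s • F))) ∂(nuM (W 0) M x₀) ≤ CW W x₀ b ^ 2 * Real.exp K0)
    (hq0 : 0 < q)
    (hQ : ∫ F in goodᶜ, Psi (W 0) (W b) M φ F ∂(nuM (W 0) M x₀) ≤ q * CW W x₀ b)
    (hU : m2D W M m x₀ b φ ≤ Del W M m x₀ b φ * U)
    (hUq : (U + 16) * q ≤ 1 / 16) (hq8 : q ≤ 1 / 8) :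
    Del W M m x₀ b φ ≤ 324 * qf (An (W 0) M m x₀) (kD W x₀ b φ) + 27 := by
  have hw := gwf_bw hW hE 0
  have hD := gwf_bw hW hE b
  have hC := CW_pos hW hE x₀ b
  have hzb := hD.Zp_pos x₀
  have hz0 := hw.Zp_pos x₀
  have := prob_nuM hG hw hM x₀
  set ν := nuM (W 0) M x₀ with hν
  set D := Del W M m x₀ b φ with hDdef
  set C := CW W x₀ b with hCdef
  set c := cD W M m x₀ b φ with hc
  have hc0 : ∑ x, c x = 0 := sum_cD hW hE hM x₀ b φ
  have hl : ∀ F, lD W M m x₀ b φ F = lin c F := lD_eq hW hM x₀ b φ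
  have hA0 : 0 ≤ qf (An (W 0) M m x₀) (kD W x₀ b φ) := by
    rcases eq_or_lt_of_le (Del_nonneg hW hE hM x₀ b φ) with h | h
    · exact hG.qf_An_nonneg hM x₀ _
    · have h1 := lD_sq hW hE hM x₀ b φ (kD W x₀ b φ)
      by_contra hcon
      push Not at hcon
      have := mul_neg_of_pos_of_neg (by linarith : 0 < 2 * Del W M m x₀ b φ) hcon
      linarith [sq_nonneg (lD W M m x₀ b φ (kD W x₀ b φ))]
  rcases le_or_gt D 27 with hD27 | hD27
  · linarith
  have hDpos : 0 < D := by linarith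
  -- the density
  set Wf : (V → ℝ) → ℝ := fun F => Psi (W 0) (W b) M φ F / C with hWf
  have hW0 : ∀ F, 0 ≤ Wf F := fun F => div_nonneg (Psi_pos hw hD hM φ F).le hC.le
  have hPc := continuous_Psi hw hD hM φ
  have hPci := ci_Psi (M := M) hw hD φ
  have hWm : Measurable Wf := (hPc.div_const C).measurable
  have hWci : CI Wf := hPci.comp fun r => r / C
  have scal : ∀ {H : (V → ℝ) → ℝ}, CI H → XG H →
      Integrable (fun F => Wf F * H F) ν ∧
      ∫ F, Wf F * H F ∂ν = Enu (W 0) M x₀ (fun F => Psi (W 0) (W b) M φ F * H F) / C := by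
    intro H hH hx
    have h1 := (Enu_dis hw hD hM x₀ φ hH hx).1
    have h2 := nuM_ci hG hw hM x₀ (Φ := fun F => Psi (W 0) (W b) M φ F * H F)
      (hPci.mul hH) (hPc.measurable.mul hx.1)
    have i1 := h2.1.2 h1
    constructor
    · refine (i1.div_const C).congr (Filter.Eventually.of_forall fun F => ?_)
      simp only [hWf]
      ring
    · rw [← h2.2, ← integral_div]
      refine integral_congr_ae (Filter.Eventually.of_forall fun F => ?_)
      simp only [hWf]
      ring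
  have one := scal (H := fun _ => (1 : ℝ)) (fun _ _ => rfl) (XG.const 1)
  simp only [mul_one] at one
  have W1 : ∫ F, Wf F ∂ν = 1 := by
    rw [one.2, Enu_Psi hw hD hM x₀ φ]
    exact div_self hC.ne'
  have lin1 := scal (ci_lin hc0) (xg_lin c)
  have lin2 := scal (H := fun F => lin c F ^ 2) ((ci_lin hc0).comp fun r => r ^ 2)
    ((xg_lin c).pow 2)
  -- first moment
  have hm1 : ∫ F, Wf F * lin c F ∂ν = lD W M m x₀ b φ (kD W x₀ b φ) := by
    obtain ⟨s1, e1⟩ := Enu_lin hw hD hM x₀ φ hc0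
    rw [lin1.2, e1, hl]
    have hcoord : ∀ x, Summable fun h => pin (W b) x₀ h * (re h x - φ x) := by
      intro x
      have h3 : Summable fun h => pin (W b) x₀ h * (Real.exp (nh h) + |φ x|) := by
        have a1 := (hD.em0 x₀).sum 1
        simp only [one_mul] at a1
        have a0 : Summable (pin (W b) x₀) := by
          have := (hD.em0 x₀).sum 0
          simpa using this
        refine (a1.add (a0.mul_right |φ x|)).congr fun h => ?_
        ring
      refine Summable.of_norm_bounded h3 fun h => ?_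
      rw [Real.norm_eq_abs, abs_mul, abs_of_nonneg (H963.pin_nonneg hD.nn x₀ h)]
      refine mul_le_mul_of_nonneg_left ?_ (H963.pin_nonneg hD.nn x₀ h)
      refine (abs_sub _ _).trans ?_
      have h4 : |re h x| ≤ nh h := by
        unfold nh
        exact Finset.single_le_sum (f := fun y => |((h y : ℤ) : ℝ)|) (fun _ _ => abs_nonneg _)
          (Finset.mem_univ x)
      have h5 := Real.add_one_le_exp (nh h)
      linarith
    have e2 : lin c (kD W x₀ b φ) = (∑' h, pin (W b) x₀ h * lin c (re h - φ)) / Zp (W b) x₀ := by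
      unfold lin kD
      rw [eq_div_iff hzb.ne', Finset.sum_mul]
      have e3 : ∀ x, c x * ((∑' h, pin (W b) x₀ h * (re h x - φ x)) / Zp (W b) x₀) *
          Zp (W b) x₀ = ∑' h, c x * (pin (W b) x₀ h * (re h x - φ x)) := by
        intro x
        rw [tsum_mul_left]
        field_simp
      simp only [e3]
      rw [← Summable.tsum_finsetSum fun x _ => (hcoord x).mul_left (c x)]
      refine tsum_congr fun h => ?_
      rw [Finset.mul_sum]
      refine Finset.sum_congr rfl fun x _ => ?_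
      rw [Pi.sub_apply]
      ring
    rw [e2, hCdef]
    unfold CW
    field_simp
  have hm1' : ∫ F, Wf F * lin c F ∂ν ≤
      Real.sqrt (2 * D * qf (An (W 0) M m x₀) (kD W x₀ b φ)) := by
    rw [hm1]
    exact Real.le_sqrt_of_sq_le (lD_sq hW hE hM x₀ b φ _)
  -- second moment
  have hm2 : ∫ F, Wf F * lin c F ^ 2 ∂ν ≤ D * (U + 16) := by
    have hκ : ∀ u : V → ℝ, lin c u ^ 2 ≤ 2 * D * qf (ntr M m) u := by
      intro u
      rw [← hl]
      refine (lD_sq hW hE hM x₀ b φ u).trans ?_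
      exact mul_le_mul_of_nonneg_left (An_le_ntr hW hM x₀ u) (by positivity)
    obtain ⟨s1, e1⟩ := Enu_sq hw hD hM x₀ φ hc0 (κ := 2 * D) (by positivity) hκ
    rw [lin2.2, div_le_iff₀ hC]
    refine e1.trans ?_
    have e2 : (∑' h, pin (W b) x₀ h * lin c (re h - φ) ^ 2) / Zp (W 0) x₀ =
        m2D W M m x₀ b φ * C := by
      unfold m2D
      simp only [hl]
      rw [hCdef]
      unfold CW
      field_simp
    rw [e2]
    have h3 := mul_le_mul_of_nonneg_right hU hC.le
    have e4 : Zp (W b) x₀ / Zp (W 0) x₀ = C := rfl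
    rw [e4]
    linarith
  -- pointwise bound
  set X : (V → ℝ) → ℝ := fun F => gP W M m x₀ ((b, φ), s • F) +
    gP W M m x₀ ((b, φ), -(s • F)) - 2 * Real.log C with hX
  have hpt : ∀ F ∈ good, Wf F ≤ Real.exp (-D + lin c F + (X F + 2 * D) / s) := by
    intro F _
    have h1 := log_Psi (x₀ := x₀) hW hM b φ F
    have hP := Psi_pos hw hD hM φ F
    have h2 : Wf F = Real.exp (gP W M m x₀ ((b, φ), F) -
        Rs (nM (W 0) M m x₀) (ntr M m *ᵥ F) - Real.log C) := by
      rw [← h1, Real.exp_sub, Real.exp_log hP, Real.exp_log hC]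
    rw [h2]
    refine Real.exp_le_exp.2 ?_
    have h3 : 0 ≤ Rs (nM (W 0) M m x₀) (ntr M m *ᵥ F) := by
      have := (eng_neu (x₀ := x₀) hW hM).R_nonneg F
      rw [gP_real hW hM] at this
      exact this
    have h4 := gP_split hW hM x₀ b φ F
    have h5 := gP_split hW hM x₀ b φ (s • F)
    have h6 := gP_split hW hM x₀ b φ (-(s • F))
    have h7 := pD_ray hW hM x₀ b φ F (s := s) (by linarith)
    have h8 := pD_nonneg hW hM x₀ b φ (-(s • F))
    have h9 : lD W M m x₀ b φ (-(s • F)) = -lD W M m x₀ b φ (s • F) := by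
      rw [hl, hl, lin_neg]
    have h10 : D = Real.log C - gP W M m x₀ ((b, φ), 0) := rfl
    have h11 : pD W M m x₀ b φ F ≤ (X F + 2 * D) / s := by
      refine h7.trans (div_le_div_of_nonneg_right ?_ (by linarith))
      simp only [hX]
      rw [h5, h6, h9, h10]
      linarith
    rw [← hl]
    linarith
  have eX : ∀ F, Real.exp (X F) = (C ^ 2)⁻¹ * Real.exp (gP W M m x₀ ((b, φ), s • F) +
      gP W M m x₀ ((b, φ), -(s • F))) := by
    intro F
    simp only [hX]
    rw [Real.exp_sub, show (2 : ℝ) * Real.log C = Real.log (C ^ 2) by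
      rw [Real.log_pow]; norm_num, Real.exp_log (by positivity), inv_mul_eq_div]
  have hXi : IntegrableOn (fun F => Real.exp (X F)) good ν := by
    simp only [eX]
    exact hSi.const_mul _
  have hXK : ∫ F in good, Real.exp (X F) ∂ν ≤ Real.exp K0 := by
    simp only [eX]
    rw [integral_const_mul, inv_mul_le_iff₀ (by positivity)]
    exact hS
  have hQ' : ∫ F in goodᶜ, Wf F ∂ν ≤ q := by
    simp only [hWf]
    rw [integral_div, div_le_iff₀ hC]
    exact hQ
  have hfin := delta_abs2 hg hs hK (Real.sqrt_nonneg _) hW0 one.1 W1 hpt hXi hXK lin1.1 hm1'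
    lin2.1 hm2 hq0 hQ' hUq hq8
  exact delta_quad hDpos.le hA0 hfin

end

end Vale.Agent.P159.H856.Dl
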