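import Vale.Agent.P159.H856.Dl5
import Vale.Agent.P159.H253.Sm7
import Vale.Agent.P159.H270.Ed2e

/-!
P159 / S list, 270's Ed4 (helper856), part 7: the exponential inequality `EXD` for every pair of
cores of the torus, with the price `mm b ρ ^ 2` for the flows which vanish on the balls of radius
`ρ + 1` around the cores, and without any condition with the price `1`; the energies of the
canonical field of the pair.
-/

set_option linter.unusedSectionVars false

namespace Vale.Agent.P159.H856.Dl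

open Finset
open Vale.Agent.P159 Vale.Agent.P159.TM.H331 Vale.Agent.P159.H773
open Vale.Agent.P159.TM.Spec (V)
open Vale.Agent.P159.H817 (gr nrm eF sz bD CG)
open Vale.Agent.P159.H963 (pin)
open Vale.Agent.P159.H770 (wTD Ed eS eT)
open Vale.Agent.P159.H883 (Zp CT)
open Vale.Agent.P159.H474.Cb (trD)
open Vale.Agent.P159.H253.Sm (cz)
open Vale.Agent.P159.H513 (cuZ)
open Vale.Agent.P159.H270 (Tch)
open Vale.Agent.P159.TM.SpecC (wT)
open Vale.Agent.P159.H529.Qf (EQ EQ_one EQ_union bxq)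

noncomputable section

/-! ### translation -/

section tr

variable {N : ℕ} [NeZero N] {b : ℝ}

lemma XD_tr (s : V N) (η : Ed N → ℤ) (h : V N → ℤ) (e : Ed N) :
    XD (trD s η) (fun x => h (x + s)) e = XD η h (e.1 + s, e.2) := by
  obtain ⟨x, c⟩ := e
  rw [XD_eq, XD_eq]
  unfold trD H37.re
  cases c
  · rw [H817.gr_false, H817.gr_false, add_right_comm]
  · rw [H817.gr_true, H817.gr_true, add_right_comm]

lemma sum_tr (s : V N) (f : Ed N → ℝ) : ∑ e : Ed N, f (e.1 + s, e.2) = ∑ e, f e :=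
  Equiv.sum_comp ((Equiv.addRight s).prodCongr (Equiv.refl Bool)) f

lemma pin_tr (s : V N) (η : Ed N → ℤ) (h : V N → ℤ) :
    pin (wTD N b (trD s η)) (-s) (fun x => h (x + s)) = pin (wTD N b η) 0 h := by
  unfold pin
  rw [H253.Sm.wTD_tr]
  simp only [neg_add_cancel]

/-- a Jensen bound for the translated dislocation, at any pinned site -/
theorem exd_tr {η : Ed N → ℤ} {S : Finset (V N)} {K : ℝ} (s : V N)
    (h : ∀ j : Ed N → ℝ, (∀ e, e.1 + s ∈ S → j e = 0) →
      (Summable fun h => pin (wTD N b (trD s η)) (-s) h *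
        Real.exp (∑ e, j e * XD (trD s η) h e)) ∧
      ∑' h, pin (wTD N b (trD s η)) (-s) h * Real.exp (∑ e, j e * XD (trD s η) h e) ≤
        K * Real.exp (b * ∑ e, (Real.cosh (j e) - 1)) * Zp (wTD N b 0) (-s)) :
    EXD N b η S K := by
  intro j hj
  obtain ⟨h1, h2⟩ := h (fun e => j (e.1 + s, e.2)) fun e he => hj _ he
  set E : (V N → ℤ) ≃ (V N → ℤ) := Equiv.arrowCongr (Equiv.subRight s) (Equiv.refl ℤ) with hE
  have e0 : ∀ k, E k = fun x => k (x + s) := fun k => rfl
  have e1 : ∀ k : V N → ℤ, pin (wTD N b (trD s η)) (-s) (E k) *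
      Real.exp (∑ e : Ed N, j (e.1 + s, e.2) * XD (trD s η) (E k) e) =
      pin (wTD N b η) 0 k * Real.exp (∑ e, j e * XD η k e) := by
    intro k
    rw [e0, pin_tr]
    congr 2
    rw [← sum_tr s fun e => j e * XD η k e]
    exact Finset.sum_congr rfl fun e _ => by rw [XD_tr]
  have e2 : ∑ e : Ed N, (Real.cosh (j (e.1 + s, e.2)) - 1) = ∑ e, (Real.cosh (j e) - 1) :=
    sum_tr s fun e => Real.cosh (j e) - 1
  refine ⟨?_, ?_⟩
  · refine (E.summable_iff.2 h1).congr fun k => ?_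
    exact (e1 k).symm ▸ rfl
  · rw [← E.tsum_eq, e2, H253.Sm.Zp_site (fun h n => H253.Sm.wTD_add (0 : Ed N → ℤ) h n) 0 (-s)]
      at h2
    simp only [e1] at h2
    exact h2

end tr

/-! ### the price one -/

theorem exd_one {M : ℕ} {b : ℝ} (hb : 0 ≤ b) (η : Ed (M + 2) → ℤ) :
    EXD (M + 2) b η (∅ : Finset (V (M + 2))) 1 := by
  intro j _
  have h := H270.expD0 hb η 0 j
  rw [one_mul, H770.wTD_zero]
  exact h

theorem exd_one' {N : ℕ} [NeZero N] (hN : 2 ≤ N) {b : ℝ} (hb : 0 ≤ b) (η : Ed N → ℤ) :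
    EXD N b η (∅ : Finset (V N)) 1 := by
  obtain ⟨M, rfl⟩ : ∃ M, N = M + 2 := ⟨N - 2, by omega⟩
  exact exd_one hb η

/-! ### the pair -/

/-- the balls around the cores -/
def cS {N : ℕ} [NeZero N] (p q : V N) (r : ℕ) : Finset (V N) :=
  univ.filter fun x => sz (x - p) ≤ r ∨ sz (x - q) ≤ r

lemma sz_cz {N : ℕ} [NeZero N] (u : ℤ × ℤ) : sz (cz N u) ≤ XY.nm u := by
  have key : ∀ a : ℤ, ((a : ZMod N)).valMinAbs.natAbs ≤ a.natAbs := by
    intro a
    refine ZMod.natAbs_min_of_le_div_two N _ a ?_ (ZMod.natAbs_valMinAbs_le _)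
    rw [ZMod.coe_valMinAbs]
  unfold sz cz XY.nm
  exact max_le_max (key _) (key _)

lemma cz_sub (N : ℕ) (u v : ℤ × ℤ) : cz N (u - v) = cz N u - cz N v := by
  unfold cz
  ext <;> simp

lemma cz_cv {M : ℕ} (v : V (M + 2)) : cz (M + 2) (cv (M := M) v) = v := by
  have h := H253.Sm.cz_nat (M := M) v.1.2 v.2.2
  exact h

variable {M : ℕ} {b : ℝ} {L : ℕ} {p q : V (M + 2)} {d : ℤ × ℤ} {η : Ed (M + 2) → ℤ}

/-- **(EXP-D) for a pair** -/
theorem exd_pair0 (hb : 0 ≤ b) (h : H817.IsPath p q d.1 d.2 L η) (hq : q = p + cz (M + 2) d)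
    {ρ : ℕ} (h1 : 2 * ρ + 2 ≤ XY.nm d) (h2 : 4 * XY.nm d ≤ M + 2) :
    EXD (M + 2) b η (cS p q (ρ + 1)) (mm b ρ ^ 2) := by
  obtain ⟨P0, hp⟩ := H253.Sm.cz_surj (M + 2) p
  set k : ℤ := (((M + 2) / 2 : ℕ) : ℤ) with hk
  set A : ℤ × ℤ := (k, k) with hA
  set s : V (M + 2) := cz (M + 2) (P0 - A) with hs
  have d1 : d.1.natAbs ≤ XY.nm d := le_max_left _ _
  have d2 : d.2.natAbs ≤ XY.nm d := le_max_right _ _
  have nm1 : ∀ u : ℤ × ℤ, u.1.natAbs ≤ XY.nm u := fun u => le_max_left _ _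
  have nm2 : ∀ u : ℤ × ℤ, u.2.natAbs ≤ XY.nm u := fun u => le_max_right _ _
  have hps : p - s = cz (M + 2) A := by
    rw [hp, hs, ← cz_sub]
    congr 1
    abel
  have hqs : q - s = cz (M + 2) (A + d) := by
    rw [hq, hp, hs, add_sub_right_comm, ← cz_sub, ← H253.Sm.cz_add]
    congr 1
    abel
  set Λ : Finset (ℤ × ℤ) := H773.tr (box ρ) A ∪ H773.tr (box ρ) (A + d) with hΛ
  have hin : Λ ⊆ inner (M + 1) := by
    intro z hz
    rw [H773.mem_inner_iff]
    rcases Finset.mem_union.1 hz with h3 | h3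
    · rw [H773.mem_tr, XY.mem_box_iff_nm] at h3
      have a1 : (z.1 - k).natAbs ≤ XY.nm (z - A) := nm1 (z - A)
      have a2 : (z.2 - k).natAbs ≤ XY.nm (z - A) := nm2 (z - A)
      push_cast
      omega
    · rw [H773.mem_tr, XY.mem_box_iff_nm] at h3
      have a1 : (z.1 - (k + d.1)).natAbs ≤ XY.nm (z - (A + d)) := nm1 (z - (A + d))
      have a2 : (z.2 - (k + d.2)).natAbs ≤ XY.nm (z - (A + d)) := nm2 (z - (A + d))
      push_cast
      omega
  -- charges
  have hcA : ∀ v : V (M + 2), (v = cz (M + 2) A) = (cv (M := M) v = A) := by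
    intro v
    refine propext ⟨fun h3 => ?_, fun h3 => ?_⟩
    · have h4 : cz (M + 2) (((((M + 2) / 2 : ℕ) : ℕ) : ℤ), (((M + 2) / 2 : ℕ) : ℤ)) =
          ((⟨(M + 2) / 2, by omega⟩, ⟨(M + 2) / 2, by omega⟩) : St M) :=
        H253.Sm.cz_nat (by omega) (by omega)
      have h5 : v = ((⟨(M + 2) / 2, by omega⟩, ⟨(M + 2) / 2, by omega⟩) : St M) := h3.trans h4
      rw [h5]
      rfl
    · rw [← h3, cz_cv]
  have hcB : ∀ v : V (M + 2), (v = cz (M + 2) (A + d)) = (cv (M := M) v = A + d) := by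
    intro v
    obtain ⟨a, ha⟩ : ∃ a : ℕ, (a : ℤ) = k + d.1 := ⟨(k + d.1).toNat, by omega⟩
    obtain ⟨c, hc⟩ : ∃ c : ℕ, (c : ℤ) = k + d.2 := ⟨(k + d.2).toNat, by omega⟩
    have e : A + d = ((a : ℤ), (c : ℤ)) := by
      rw [ha, hc, hA]
      rfl
    have ha' : a < M + 2 := by omega
    have hc' : c < M + 2 := by omega
    refine propext ⟨fun h3 => ?_, fun h3 => ?_⟩
    · rw [e] at h3 ⊢
      have h5 : v = ((⟨a, ha'⟩, ⟨c, hc'⟩) : St M) := h3.trans (H253.Sm.cz_nat ha' hc')
      rw [h5]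
      rfl
    · rw [← h3, cz_cv]
  have hcurl : ∀ v : V (M + 2), curl (M := M) (trD s η) v =
      bxq M (H253.Sm.qs A (A + d)) v := by
    intro v
    have h3 : cuZ (trD s η) v = cuZ η (v + s) := H253.Sm.cuZ_trD s η v
    have h4 := h.cu (v + s)
    have h5 : ((cuZ η (v + s) : ℤ) : ℝ) =
        (((if v + s = p then 1 else 0) - (if v + s = q then 1 else 0) : ℤ) : ℝ) := by
      unfold cuZ
      push_cast
      exact h4
    have h6 : cuZ η (v + s) = (if v + s = p then 1 else 0) - (if v + s = q then 1 else 0) := by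
      exact_mod_cast h5
    have e1 : (v + s = p) = (cv (M := M) v = A) := by
      rw [← hcA, ← hps]
      exact propext eq_sub_iff_add_eq.symm
    have e2 : (v + s = q) = (cv (M := M) v = A + d) := by
      rw [← hcB, ← hqs]
      exact propext eq_sub_iff_add_eq.symm
    have h7 : curl (M := M) (trD s η) v = cuZ (trD s η) v := rfl
    rw [h7, h3, h6]
    simp only [e1, e2]
    rfl
  have hsz1 : ∀ v : V (M + 2), sz (v + s - p) ≤ XY.nm (cv (M := M) v - A) := by
    intro v
    have e : v + s - p = cz (M + 2) (cv (M := M) v - A) := by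
      rw [cz_sub, cz_cv, ← hps]
      abel
    rw [e]
    exact sz_cz _
  have hsz2 : ∀ v : V (M + 2), sz (v + s - q) ≤ XY.nm (cv (M := M) v - (A + d)) := by
    intro v
    have e : v + s - q = cz (M + 2) (cv (M := M) v - (A + d)) := by
      rw [cz_sub, cz_cv, ← hqs]
      abel
    rw [e]
    exact sz_cz _
  have hu : ∀ c : Bool, sz ((if c then ((1, 0) : V (M + 2)) else (0, 1))) ≤ 1 := by
    intro c
    cases c
    · exact H817.sz_unit (Or.inr rfl)
    · exact H817.sz_unit (Or.inl rfl)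
  have hT : ∀ e : Ed (M + 2), Tch (M := M) Λ e → e.1 + s ∈ cS p q (ρ + 1) := by
    intro e he
    unfold cS
    rw [Finset.mem_filter]
    refine ⟨Finset.mem_univ _, ?_⟩
    have key : ∀ v : V (M + 2), sz (e.1 - v) ≤ 1 → cv (M := M) v ∈ Λ →
        sz (e.1 + s - p) ≤ ρ + 1 ∨ sz (e.1 + s - q) ≤ ρ + 1 := by
      intro v hv hvΛ
      rcases Finset.mem_union.1 hvΛ with h3 | h3
      · rw [H773.mem_tr, XY.mem_box_iff_nm] at h3
        left
        have a1 := H817.sz_add_le (v + s - p) (e.1 - v)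
        have e3 : v + s - p + (e.1 - v) = e.1 + s - p := by abel
        rw [e3] at a1
        have := hsz1 v
        omega
      · rw [H773.mem_tr, XY.mem_box_iff_nm] at h3
        right
        have a1 := H817.sz_add_le (v + s - q) (e.1 - v)
        have e3 : v + s - q + (e.1 - v) = e.1 + s - q := by abel
        rw [e3] at a1
        have := hsz2 v
        omega
    rcases he with he | he
    · refine key e.1 ?_ he
      rw [sub_self, H817.sz_zero]
      omega
    · refine key _ ?_ he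
      have e3 : e.1 - (e.1 - (if e.2 then ((1, 0) : V (M + 2)) else (0, 1))) =
          if e.2 then ((1, 0) : V (M + 2)) else (0, 1) := by abel
      have h4 := hu e.2
      rw [← e3] at h4
      exact h4
  -- the wired number
  have hne : A ≠ A + d := by
    intro h3
    have h4 : d = 0 := by
      have := congrArg (fun z => z - A) h3
      simp only [sub_self, add_sub_cancel_left] at this
      exact this.symm
    rw [h4, XY.nm_zero] at h1
    omega
  have hEQ : EQ b Λ (H253.Sm.qs A (A + d)) ≤ mm b ρ ^ 2 := by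
    have hnm : XY.nm (A - (A + d)) = XY.nm d := by
      rw [show A - (A + d) = -d by abel, XY.nm_neg]
    have hsep := sep_box (ρ := ρ) (p := A) (q := A + d) (by rw [hnm]; exact h1)
    rw [hΛ, EQ_union hsep]
    have hm := H773.mm_nonneg hb ρ
    have g1 : EQ b (H773.tr (box ρ) A) (H253.Sm.qs A (A + d)) ≤ mm b ρ := by
      refine EQ_one hb (Finset.Subset.refl _) (z := A) (Or.inl ?_) fun v hv hvA => ?_
      · unfold H253.Sm.qs
        rw [if_pos rfl, if_neg hne]
        rfl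
      · unfold H253.Sm.qs
        rw [if_neg hvA, if_neg ?_]
        · rfl
        · intro h3
          rw [H773.mem_tr, XY.mem_box_iff_nm, h3, add_sub_cancel_left] at hv
          omega
    have g2 : EQ b (H773.tr (box ρ) (A + d)) (H253.Sm.qs A (A + d)) ≤ mm b ρ := by
      refine EQ_one hb (Finset.Subset.refl _) (z := A + d) (Or.inr ?_) fun v hv hvA => ?_
      · unfold H253.Sm.qs
        rw [if_pos rfl, if_neg hne.symm]
        rfl
      · unfold H253.Sm.qs
        rw [if_neg hvA, if_neg ?_]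
        · rfl
        · intro h3
          rw [H773.mem_tr, XY.mem_box_iff_nm, h3, hnm] at hv
          omega
    have n1 := H529.Qf.EQ_nonneg hb (H773.tr (box ρ) A) (H253.Sm.qs A (A + d))
    have n2 := H529.Qf.EQ_nonneg hb (H773.tr (box ρ) (A + d)) (H253.Sm.qs A (A + d))
    calc _ ≤ mm b ρ * mm b ρ := mul_le_mul g1 g2 n2 hm
      _ = _ := by ring
  refine exd_tr s fun j hj => ?_
  obtain ⟨g1, g2⟩ := H270.expD hb hin hcurl (-s) j fun e he => hj e (hT e he)
  refine ⟨g1, g2.trans ?_⟩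
  rw [H770.wTD_zero]
  have hz : 0 ≤ Zp (wT b (M + 2)) (-s : V (M + 2)) := by
    refine tsum_nonneg fun h => H963.pin_nonneg (fun h => ?_) _ h
    exact (H963.gw_wT hb).nn h
  gcongr

end

end Vale.Agent.P159.H856.Dl
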