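import Vale.Agent.P159.H856.Rp

/-!
P159 (helper856), RP bound for the blocks, part 4: the array of alternating diamonds; chessboard
estimate with reflections through diagonals.
-/

set_option linter.all false

open scoped BigOperators

namespace Vale.Agent.P159.H856

open Vale.Agent.P159 Vale.Agent.P159.UJ Vale.Agent.P159.H950

noncomputable section

/-! ### the square wave -/

/-- one period of the square wave -/
def g0 (p r : ℤ) : ℝ := if r = 0 ∨ r = p then 0 else if r < p then 1 else -1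

/-- the square wave of period `2 p` -/
def sqw (p x : ℤ) : ℝ := g0 p (x % (2 * p))

theorem wave_rep {p : ℤ} (hp : 0 < p) (x : ℤ) :
    ∃ r k : ℤ, 0 ≤ r ∧ r < 2 * p ∧ x = r + 2 * p * k :=
  ⟨x % (2 * p), x / (2 * p), Int.emod_nonneg _ (by omega), Int.emod_lt_of_pos _ (by omega),
    (Int.emod_add_mul_ediv x (2 * p)).symm⟩

theorem sqw_of {p r : ℤ} (k : ℤ) (h0 : 0 ≤ r) (h1 : r < 2 * p) :
    sqw p (r + 2 * p * k) = g0 p r := by
  unfold sqw
  rw [Int.add_mul_emod_self_left, Int.emod_eq_of_lt h0 h1]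

theorem sqw_abs (p x : ℤ) : |sqw p x| ≤ 1 := by
  unfold sqw g0
  split_ifs <;> norm_num

theorem sqw_sq (p x : ℤ) : sqw p x ^ 2 ≤ 1 := by
  unfold sqw g0
  split_ifs <;> norm_num

theorem sqw_per {p : ℤ} (hp : 0 < p) (x m : ℤ) : sqw p (x + 2 * p * m) = sqw p x := by
  obtain ⟨r, k, h0, h1, rfl⟩ := wave_rep hp x
  rw [sqw_of k h0 h1, show r + 2 * p * k + 2 * p * m = r + 2 * p * (k + m) by ring,
    sqw_of (k + m) h0 h1]

theorem sqw_add_p {p : ℤ} (hp : 0 < p) (x : ℤ) : sqw p (x + p) = -sqw p x := by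
  obtain ⟨r, k, h0, h1, rfl⟩ := wave_rep hp x
  rw [sqw_of k h0 h1]
  by_cases h : r < p
  · rw [show r + 2 * p * k + p = (r + p) + 2 * p * k by ring, sqw_of k (by omega) (by omega)]
    unfold g0
    by_cases hr : r = 0
    · simp [hr]
    · rw [if_neg (by omega), if_neg (by omega), if_neg (by omega), if_pos h]
  · rw [show r + 2 * p * k + p = (r - p) + 2 * p * (k + 1) by ring,
      sqw_of (k + 1) (by omega) (by omega)]
    unfold g0
    by_cases hr : r = p
    · simp [hr]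
    · rw [if_neg (by omega), if_pos (by omega), if_neg (by omega), if_neg h]
      norm_num

theorem sqw_neg {p : ℤ} (hp : 0 < p) (x : ℤ) : sqw p (-x) = -sqw p x := by
  obtain ⟨r, k, h0, h1, rfl⟩ := wave_rep hp x
  rw [sqw_of k h0 h1]
  by_cases hr : r = 0
  · subst hr
    rw [show -(0 + 2 * p * k) = 0 + 2 * p * (-k) by ring, sqw_of (-k) le_rfl (by omega)]
    simp [g0]
  · rw [show -(r + 2 * p * k) = (2 * p - r) + 2 * p * (-k - 1) by ring,
      sqw_of (-k - 1) (by omega) (by omega)]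
    unfold g0
    by_cases h : r = p
    · rw [if_pos (by omega), if_pos (by omega)]
      norm_num
    · by_cases h2 : r < p
      · rw [if_neg (by omega), if_neg (by omega), if_neg (by omega), if_pos h2]
      · rw [if_neg (by omega), if_pos (by omega), if_neg (by omega), if_neg h2]
        norm_num

theorem sqw_ref {p : ℤ} (hp : 0 < p) {s m : ℤ} (hs : s = 2 * p * m - p) (x : ℤ) :
    sqw p (s - x) = sqw p x := by
  rw [show s - x = -(x + p + 2 * p * (-m)) by rw [hs]; ring, sqw_neg hp, sqw_per hp, sqw_add_p hp,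
    neg_neg]

theorem sqw_sub {p : ℤ} (hp : 0 < p) {s m : ℤ} (hs : s = 2 * p * m - p) (x : ℤ) :
    sqw p (x - s) = -sqw p x := by
  rw [show x - s = x + p + 2 * p * (-m) by rw [hs]; ring, sqw_per hp, sqw_add_p hp]

theorem sqw_add {p : ℤ} (hp : 0 < p) {s m : ℤ} (hs : s = 2 * p * m - p) (x : ℤ) :
    sqw p (x + s) = -sqw p x := by
  have h := sqw_add_p hp (x + s)
  rw [show x + s + p = x + 2 * p * m by rw [hs]; ring, sqw_per hp] at h
  linarith

theorem sqw_pos {p x : ℤ} (h0 : 0 < x) (h1 : x < p) : sqw p x = 1 := by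
  have h := sqw_of (p := p) (r := x) 0 h0.le (by omega)
  rw [mul_zero, add_zero] at h
  rw [h]
  unfold g0
  rw [if_neg (by omega), if_pos h1]

theorem sqw_zero {p : ℤ} (hp : 0 < p) : sqw p 0 = 0 := by
  have h := sqw_of (p := p) (r := 0) 0 le_rfl (by omega)
  rw [mul_zero, add_zero] at h
  rw [h]
  simp [g0]

theorem sqw_sign {p x : ℤ} (h0 : -p < x) (h1 : x < p) : sqw p x = (x.sign : ℝ) := by
  rcases lt_trichotomy x 0 with h | h | h
  · have hp : 0 < p := by omega
    have h2 := sqw_neg hp (-x)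
    rw [neg_neg] at h2
    rw [h2, sqw_pos (by omega) (by omega), Int.sign_eq_neg_one_of_neg h]
    norm_num
  · subst h
    rw [sqw_zero (by omega)]
    simp
  · rw [sqw_pos h h1, Int.sign_eq_one_of_pos h]
    norm_num

/-! ### bond fields -/

/-- the half-bond field given by values on the horizontal bonds `v → v + (1, 0)` and the vertical
bonds `v → v + (0, 1)` -/
def bF (α β : ℤ × ℤ → ℝ) : HF := fun t c => if t.1 then β (hu c t) else α (hu c t)

theorem bF_h (α β : ℤ × ℤ → ℝ) (s : Bool) (c : ℤ × ℤ) :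
    bF α β (false, s) c = α (hu c (false, s)) := rfl

theorem bF_v (α β : ℤ × ℤ → ℝ) (s : Bool) (c : ℤ × ℤ) :
    bF α β (true, s) c = β (hu c (true, s)) := rfl

/-- horizontal bonds of the array in the rotated rectangle `-p ≤ x + y ≤ s`, `-p ≤ x - y ≤ d` -/
def aH (p s d : ℤ) (v : ℤ × ℤ) : ℝ :=
  if (-p ≤ v.1 + v.2 ∧ v.1 + v.2 < s) ∧ (-p ≤ v.1 - v.2 ∧ v.1 - v.2 < d) then -sqw p v.2 else 0

/-- vertical bonds of the array -/
def aV (p s d : ℤ) (v : ℤ × ℤ) : ℝ :=
  if (-p ≤ v.1 + v.2 ∧ v.1 + v.2 < s) ∧ (-p < v.1 - v.2 ∧ v.1 - v.2 ≤ d) then sqw p v.1 else 0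

/-- the array -/
def arr (p s d : ℤ) : HF := bF (aH p s d) (aV p s d)

theorem refA_h {p : ℤ} (hp : 0 < p) {s m : ℤ} (hs : s = 2 * p * m - p) (hs0 : 0 ≤ s) (d : ℤ)
    (v : ℤ × ℤ) : aH p (2 * s + p) d v = aH p s d v - aV p s d (s - v.2, s - 1 - v.1) := by
  unfold aH aV
  simp only
  rw [sqw_ref hp hs]
  split_ifs <;> first | (exfalso; omega) | ring

theorem refA_v {p : ℤ} (hp : 0 < p) {s m : ℤ} (hs : s = 2 * p * m - p) (hs0 : 0 ≤ s) (d : ℤ)
    (v : ℤ × ℤ) : aV p (2 * s + p) d v = aV p s d v - aH p s d (s - 1 - v.2, s - v.1) := by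
  unfold aH aV
  simp only
  rw [sqw_ref hp hs]
  split_ifs <;> first | (exfalso; omega) | ring

theorem refD_h {p : ℤ} (hp : 0 < p) {d m : ℤ} (hd : d = 2 * p * m - p) (hd0 : 0 ≤ d) (s : ℤ)
    (v : ℤ × ℤ) : aH p s (2 * d + p) v = aH p s d v + aV p s d (v.2 + d, v.1 - d) := by
  unfold aH aV
  simp only
  rw [sqw_add hp hd]
  split_ifs <;> first | (exfalso; omega) | ring

theorem refD_v {p : ℤ} (hp : 0 < p) {d m : ℤ} (hd : d = 2 * p * m - p) (hd0 : 0 ≤ d) (s : ℤ)
    (v : ℤ × ℤ) : aV p s (2 * d + p) v = aV p s d v + aH p s d (v.2 + d, v.1 - d) := by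
  unfold aH aV
  simp only
  rw [sqw_sub hp hd]
  split_ifs <;> first | (exfalso; omega) | ring

theorem arr_A {p : ℤ} (hp : 0 < p) {s m : ℤ} (hs : s = 2 * p * m - p) (hs0 : 0 ≤ s) (d : ℤ) :
    arr p (2 * s + p) d = arr p s d + ac (rA s) (arr p s d) := by
  funext t c
  show arr p (2 * s + p) d t c = arr p s d t c + (-1 : ℝ) * arr p s d ((rA s).tm t) ((rA s).cm c)
  rcases t with ⟨_ | _, t2⟩
  · have e : arr p s d ((rA s).tm (false, t2)) ((rA s).cm c) =
        aV p s d (s - (hu c (false, t2)).2, s - 1 - (hu c (false, t2)).1) := by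
      show aV p s d (hu (s - 1 - c.2, s - 1 - c.1) (true, !t2)) = _
      congr 1
      cases t2 <;> simp [hu] <;> ring
    rw [e]
    show aH p (2 * s + p) d _ = aH p s d _ + _
    rw [refA_h hp hs hs0]
    ring
  · have e : arr p s d ((rA s).tm (true, t2)) ((rA s).cm c) =
        aH p s d (s - 1 - (hu c (true, t2)).2, s - (hu c (true, t2)).1) := by
      show aH p s d (hu (s - 1 - c.2, s - 1 - c.1) (false, !t2)) = _
      congr 1
      cases t2 <;> simp [hu] <;> ring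
    rw [e]
    show aV p (2 * s + p) d _ = aV p s d _ + _
    rw [refA_v hp hs hs0]
    ring

theorem arr_D {p : ℤ} (hp : 0 < p) {d m : ℤ} (hd : d = 2 * p * m - p) (hd0 : 0 ≤ d) (s : ℤ) :
    arr p s (2 * d + p) = arr p s d + ac (rD d) (arr p s d) := by
  funext t c
  show arr p s (2 * d + p) t c = arr p s d t c + (1 : ℝ) * arr p s d ((rD d).tm t) ((rD d).cm c)
  rcases t with ⟨_ | _, t2⟩
  · have e : arr p s d ((rD d).tm (false, t2)) ((rD d).cm c) =
        aV p s d ((hu c (false, t2)).2 + d, (hu c (false, t2)).1 - d) := by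
      show aV p s d (hu (c.2 + d, c.1 - d) (true, t2)) = _
      congr 1
      cases t2 <;> simp [hu] <;> ring
    rw [e]
    show aH p s (2 * d + p) _ = aH p s d _ + _
    rw [refD_h hp hd hd0]
    ring
  · have e : arr p s d ((rD d).tm (true, t2)) ((rD d).cm c) =
        aH p s d ((hu c (true, t2)).2 + d, (hu c (true, t2)).1 - d) := by
      show aH p s d (hu (c.2 + d, c.1 - d) (false, t2)) = _
      congr 1
      cases t2 <;> simp [hu] <;> ring
    rw [e]
    show aV p s (2 * d + p) _ = aV p s d _ + _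
    rw [refD_v hp hd hd0]
    ring

theorem arr_left_A (p s d : ℤ) (c : ℤ × ℤ) (t : HT) (h : ¬ (rA s).left c t) :
    arr p s d t c = 0 := by
  have h1 : ¬ ((hu c t).1 + (hu c t).2 + ((hv c t).1 + (hv c t).2) < 2 * s) := h
  rcases t with ⟨_ | _, t2⟩
  · show aH p s d _ = 0
    unfold aH
    rw [if_neg]
    have h2 : hv c (false, t2) = hu c (false, t2) + (1, 0) := rfl
    rw [h2] at h1
    simp only [Prod.fst_add, Prod.snd_add] at h1
    omega
  · show aV p s d _ = 0
    unfold aV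
    rw [if_neg]
    have h2 : hv c (true, t2) = hu c (true, t2) + (0, 1) := rfl
    rw [h2] at h1
    simp only [Prod.fst_add, Prod.snd_add] at h1
    omega

theorem arr_left_D (p s d : ℤ) (c : ℤ × ℤ) (t : HT) (h : ¬ (rD d).left c t) :
    arr p s d t c = 0 := by
  have h1 : ¬ ((hu c t).1 - (hu c t).2 + ((hv c t).1 - (hv c t).2) < 2 * d) := h
  rcases t with ⟨_ | _, t2⟩
  · show aH p s d _ = 0
    unfold aH
    rw [if_neg]
    have h2 : hv c (false, t2) = hu c (false, t2) + (1, 0) := rfl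
    rw [h2] at h1
    simp only [Prod.fst_add, Prod.snd_add] at h1
    omega
  · show aV p s d _ = 0
    unfold aV
    rw [if_neg]
    have h2 : hv c (true, t2) = hu c (true, t2) + (0, 1) := rfl
    rw [h2] at h1
    simp only [Prod.fst_add, Prod.snd_add] at h1
    omega

/-! ### one step of the chessboard -/

theorem step_form {b : ℝ} {R : Finset (ℤ × ℤ)} {p : ℤ} (hp : 0 < p) {s m : ℤ}
    (hs : s = 2 * p * m - p) (hs0 : 0 ≤ s) (hA : (rA s).Sym R) (hD : (rD s).Sym R) :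
    qG b R (arr p (2 * s + p) (2 * s + p)) ≤ 4 * qG b R (arr p s s) ∧
      nG R (arr p (2 * s + p) (2 * s + p)) = 4 * nG R (arr p s s) := by
  have h1 := rpG (rA s) (b := b) hA (arr p s s) fun c _ t h => arr_left_A p s s c t h
  have h2 := nG_two (rA s) hA (arr p s s) fun c _ t h => arr_left_A p s s c t h
  rw [← arr_A hp hs hs0 s] at h1 h2
  have h3 := rpG (rD s) (b := b) hD (arr p (2 * s + p) s) fun c _ t h => arr_left_D p _ s c t h
  have h4 := nG_two (rD s) hD (arr p (2 * s + p) s) fun c _ t h => arr_left_D p _ s c t h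
  rw [← arr_D hp hs hs0 (2 * s + p)] at h3 h4
  constructor
  · linarith
  · rw [h4, h2]
    ring

theorem sym_A (s : ℤ) (H : ℕ) : (rA s).Sym (blk (s - H, -(H : ℤ)) (2 * H)) := by
  refine ⟨fun c => ?_, fun v => ?_⟩
  · show (s - 1 - c.2, s - 1 - c.1) ∈ _ ↔ _
    rw [mem_blk, mem_blk]; push_cast; omega
  · show (s - v.2, s - v.1) ∈ _ ↔ _
    rw [mem_intR_blk, mem_intR_blk]; push_cast; omega

theorem sym_D (s : ℤ) (H : ℕ) : (rD s).Sym (blk (s - H, -(H : ℤ)) (2 * H)) := by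
  refine ⟨fun c => ?_, fun v => ?_⟩
  · show (c.2 + s, c.1 - s) ∈ _ ↔ _
    rw [mem_blk, mem_blk]; push_cast; omega
  · show (v.2 + s, v.1 - s) ∈ _ ↔ _
    rw [mem_intR_blk, mem_intR_blk]; push_cast; omega

/-- support of the array -/
theorem arr_supp {p P : ℤ} (hP : p ≤ 2 * P) {c : ℤ × ℤ} {t : HT}
    (h : arr p (2 * P - p) (2 * P - p) t c ≠ 0) :
    (-p ≤ c.1 ∧ c.1 < 2 * P - p) ∧ (-P ≤ c.2 ∧ c.2 < P) := by
  rcases t with ⟨_ | _, t2⟩
  · have h1 : aH p (2 * P - p) (2 * P - p) (hu c (false, t2)) ≠ 0 := h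
    unfold aH at h1
    by_cases h2 : (-p ≤ (hu c (false, t2)).1 + (hu c (false, t2)).2 ∧
        (hu c (false, t2)).1 + (hu c (false, t2)).2 < 2 * P - p) ∧
        (-p ≤ (hu c (false, t2)).1 - (hu c (false, t2)).2 ∧
        (hu c (false, t2)).1 - (hu c (false, t2)).2 < 2 * P - p)
    · cases t2 <;> simp [hu] at h2 ⊢ <;> omega
    · rw [if_neg h2] at h1
      exact absurd rfl h1
  · have h1 : aV p (2 * P - p) (2 * P - p) (hu c (true, t2)) ≠ 0 := h
    unfold aV at h1
    by_cases h2 : (-p ≤ (hu c (true, t2)).1 + (hu c (true, t2)).2 ∧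
        (hu c (true, t2)).1 + (hu c (true, t2)).2 < 2 * P - p) ∧
        (-p < (hu c (true, t2)).1 - (hu c (true, t2)).2 ∧
        (hu c (true, t2)).1 - (hu c (true, t2)).2 ≤ 2 * P - p)
    · cases t2 <;> simp [hu] at h2 ⊢ <;> omega
    · rw [if_neg h2] at h1
      exact absurd rfl h1

/-- the block number `n`: corner `(-p - H₀, -(H₀ + 2 P))`, side `2 (H₀ + 2 P)`, `P = 2^n p` -/
def Bn (p H0 n : ℕ) : Finset (ℤ × ℤ) :=
  blk (-(p : ℤ) - H0, -((H0 + 2 * (p * 2 ^ n) : ℕ) : ℤ)) (2 * (H0 + 2 * (p * 2 ^ n)))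

/-- the array number `n` -/
def An (p n : ℕ) : HF := arr p (2 * ((p * 2 ^ n : ℕ) : ℤ) - p) (2 * ((p * 2 ^ n : ℕ) : ℤ) - p)

theorem An_supp (p n : ℕ) {c : ℤ × ℤ} {t : HT} (h : An p n t c ≠ 0) :
    (-(p : ℤ) ≤ c.1 ∧ c.1 < 2 * ((p * 2 ^ n : ℕ) : ℤ) - p) ∧
      (-((p * 2 ^ n : ℕ) : ℤ) ≤ c.2 ∧ c.2 < ((p * 2 ^ n : ℕ) : ℤ)) := by
  refine arr_supp ?_ h
  have h1 : 1 ≤ 2 ^ n := Nat.one_le_two_pow
  have h2 : p * 1 ≤ p * 2 ^ n := Nat.mul_le_mul_left p h1
  have h3 : ((p * 1 : ℕ) : ℤ) ≤ ((p * 2 ^ n : ℕ) : ℤ) := by exact_mod_cast h2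
  push_cast at h3 ⊢
  omega

theorem chess (p : ℕ) (hp : 1 ≤ p) (H0 : ℕ) {b : ℝ} (hb : 0 ≤ b) (n : ℕ) :
    qG b (Bn p H0 n) (An p n) ≤ 4 ^ n * qG b (Bn p H0 0) (An p 0) ∧
      nG (Bn p H0 n) (An p n) = 4 ^ n * nG (Bn p H0 0) (An p 0) := by
  induction n with
  | zero => simp
  | succ n ih =>
    obtain ⟨ih1, ih2⟩ := ih
    set P : ℕ := p * 2 ^ n with hP
    have hP2 : p * 2 ^ (n + 1) = 2 * P := by rw [hP]; ring
    have hPp : p ≤ P := by
      have h1 : 1 ≤ 2 ^ n := Nat.one_le_two_pow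
      calc p = p * 1 := (mul_one p).symm
        _ ≤ P := Nat.mul_le_mul_left p h1
    set s : ℤ := 2 * (P : ℤ) - p with hs
    have hB : Bn p H0 n = blk (s - ((H0 + 2 * P : ℕ) : ℤ), -((H0 + 2 * P : ℕ) : ℤ))
        (2 * (H0 + 2 * P)) := by
      unfold Bn
      rw [← hP]
      congr 2
      rw [hs]
      push_cast
      ring
    have hA : (rA s).Sym (Bn p H0 n) := by rw [hB]; exact sym_A s _
    have hD : (rD s).Sym (Bn p H0 n) := by rw [hB]; exact sym_D s _
    have hm : s = 2 * (p : ℤ) * 2 ^ n - p := by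
      rw [hs, hP]
      push_cast
      ring
    have h1 := step_form (b := b) (p := (p : ℤ)) (by exact_mod_cast hp) hm (by omega) hA hD
    have hAn : An p n = arr p s s := by
      unfold An
      rw [← hP]
    have hAn1 : An p (n + 1) = arr p (2 * s + p) (2 * s + p) := by
      unfold An
      rw [hP2]
      have : 2 * ((2 * P : ℕ) : ℤ) - (p : ℤ) = 2 * s + p := by rw [hs]; push_cast; ring
      rw [this]
    rw [← hAn, ← hAn1] at h1
    have hsup : ∀ c, c ∉ Bn p H0 n → ∀ t, An p (n + 1) t c = 0 := by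
      intro c hc t
      by_contra h2
      have h3 := An_supp p (n + 1) h2
      rw [hP2] at h3
      apply hc
      unfold Bn
      rw [← hP, mem_blk]
      push_cast at h3 ⊢
      omega
    constructor
    · have h2 : qG b (Bn p H0 (n + 1)) (An p (n + 1)) ≤ qG b (Bn p H0 n) (An p (n + 1)) := by
        unfold Bn
        rw [hP2, ← hP]
        refine qG_mono hb (by omega) ?_ _ ?_
        · push_cast
          omega
        · intro c hc t
          exact hsup c (by unfold Bn; rw [← hP]; exact hc) t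
      calc qG b (Bn p H0 (n + 1)) (An p (n + 1)) ≤ 4 * qG b (Bn p H0 n) (An p n) := h2.trans h1.1
        _ ≤ 4 * (4 ^ n * qG b (Bn p H0 0) (An p 0)) := by linarith
        _ = _ := by ring
    · have h2 : nG (Bn p H0 (n + 1)) (An p (n + 1)) = nG (Bn p H0 n) (An p (n + 1)) := by
        refine nG_supp ?_ _ hsup
        intro c hc
        unfold Bn at hc ⊢
        rw [hP2]
        rw [← hP] at hc
        rw [mem_blk] at hc ⊢
        push_cast at hc ⊢
        omega
      rw [h2, h1.2, ih2]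
      ring

/-! ### the diamond -/

/-- **the diamond pyramid** of radius `p` centred at the site `(x0, y0)`: value of
`grad^perp (p - |x - x0| - |y - y0|)_+` on the bond of type `t` of the unit cell `z` -/
def pyr (x0 y0 p : ℤ) : HF := fun t z =>
  if |(hu z t).1 - x0| + |(hu z t).2 - y0| ≤ p ∧ |(hv z t).1 - x0| + |(hv z t).2 - y0| ≤ p then
    (if t.1 then (((hu z t).1 - x0).sign : ℝ) else -(((hu z t).2 - y0).sign : ℝ)) else 0

theorem l1_iff (a b p : ℤ) : |a| + |b| ≤ p ↔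
    (-p ≤ a + b ∧ a + b ≤ p) ∧ (-p ≤ a - b ∧ a - b ≤ p) := by
  rcases abs_cases a with ⟨h, _⟩ | ⟨h, _⟩ <;> rcases abs_cases b with ⟨h', _⟩ | ⟨h', _⟩ <;>
    rw [h, h'] <;> constructor <;> intro _ <;> omega

theorem pyr_eq (x0 y0 p : ℤ) (hp : 0 < p) : pyr x0 y0 p = shF (-(x0, y0)) (arr p p p) := by
  funext t z
  have hsh : ∀ t, hu (z + -(x0, y0)) t = ((hu z t).1 - x0, (hu z t).2 - y0) := by
    intro t
    rcases t with ⟨_ | _, _ | _⟩ <;> simp [hu] <;> constructor <;> ring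
  unfold pyr shF
  rcases t with ⟨_ | _, t2⟩
  · show _ = aH p p p (hu (z + -(x0, y0)) (false, t2))
    rw [hsh]
    have h2 : hv z (false, t2) = hu z (false, t2) + (1, 0) := rfl
    rw [h2]
    set u := hu z (false, t2) with hu'
    unfold aH
    simp only [Prod.fst_add, Prod.snd_add, add_zero, Bool.false_eq_true, if_false, l1_iff]
    by_cases h : (-p ≤ u.1 - x0 + (u.2 - y0) ∧ u.1 - x0 + (u.2 - y0) < p) ∧
        (-p ≤ u.1 - x0 - (u.2 - y0) ∧ u.1 - x0 - (u.2 - y0) < p)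
    · rw [if_pos h, if_pos (by omega), sqw_sign (by omega) (by omega)]
    · rw [if_neg h, if_neg (by omega)]
  · show _ = aV p p p (hu (z + -(x0, y0)) (true, t2))
    rw [hsh]
    have h2 : hv z (true, t2) = hu z (true, t2) + (0, 1) := rfl
    rw [h2]
    set u := hu z (true, t2) with hu'
    unfold aV
    simp only [Prod.fst_add, Prod.snd_add, add_zero, if_true, l1_iff]
    by_cases h : (-p ≤ u.1 - x0 + (u.2 - y0) ∧ u.1 - x0 + (u.2 - y0) < p) ∧
        (-p < u.1 - x0 - (u.2 - y0) ∧ u.1 - x0 - (u.2 - y0) ≤ p)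
    · rw [if_pos h, if_pos (by omega), sqw_sign (by omega) (by omega)]
    · rw [if_neg h, if_neg (by omega)]

end

end Vale.Agent.P159.H856
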