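import Vale.Agent.P159.H856.Pf4

/-!
P159 (helper856), **finite size pyramid inequality**: the wired stiffness at the scale `C Λ ^ 4 LB` is
at most the stiffness measured by the pyramid of radius `p` in a free block of side `LB`, up to
`C (Λ ^ (-1/2) + p ^ (-1/2))`.
-/

set_option linter.all false

open scoped BigOperators

namespace Vale.Agent.P159.H856

open Vale.Agent.P159 Vale.Agent.P159.UJ Vale.Agent.P159.H950

noncomputable section

theorem An_zero' (p : ℕ) : An p 0 = arr p p p := by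
  unfold An
  rw [pow_zero, mul_one]
  congr 1 <;> ring

/-- the pyramid in a block against the array in the rotated square -/
theorem pyr_rot {b : ℝ} (hb : 0 ≤ b) {p : ℕ} (hp : 1 ≤ p) {H : ℤ} {LB : ℕ} {q : ℤ × ℤ}
    {x0 y0 : ℤ} (h1 : q.1 ≤ x0 - p) (h2 : x0 + p ≤ q.1 + LB) (h3 : q.2 ≤ y0 - p)
    (h4 : y0 + p ≤ q.2 + LB) (hH : 2 * (LB : ℤ) + 2 ≤ H) :
    qG b (Rd p H p) (An p 0) ≤ qG b (blk q LB) (pyr x0 y0 p) ∧
      nG (Rd p H p) (An p 0) = nG (blk q LB) (pyr x0 y0 p) := by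
  have hp0 : (0 : ℤ) < (p : ℤ) := by exact_mod_cast hp
  have hB : ∀ c, c + -(x0, y0) ∈ blk (q - (x0, y0)) LB ↔ c ∈ blk q LB := by
    intro c
    rw [mem_blk, mem_blk]
    simp only [Prod.fst_add, Prod.snd_add, Prod.fst_sub, Prod.snd_sub, Prod.fst_neg, Prod.snd_neg]
    omega
  have e1 : qG b (blk q LB) (pyr x0 y0 p) = qG b (blk (q - (x0, y0)) LB) (An p 0) := by
    rw [pyr_eq _ _ _ hp0, An_zero', ← qG_shF b (-(x0, y0)) hB]
  have e2 : nG (blk q LB) (pyr x0 y0 p) = nG (blk (q - (x0, y0)) LB) (An p 0) := by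
    rw [pyr_eq _ _ _ hp0, An_zero', ← nG_shF (-(x0, y0)) hB]
  have hsub : blk (q - (x0, y0)) LB ⊆ Rd p H p := by
    intro c hc
    rw [mem_blk] at hc
    unfold Rd
    rw [mem_rot]
    simp only [Prod.fst_sub, Prod.snd_sub] at hc
    omega
  have hvan : ∀ c, c ∉ blk (q - (x0, y0)) LB → ∀ t, An p 0 t c = 0 := by
    intro c hc t
    by_contra hcon
    have h5 := An_supp p 0 hcon
    apply hc
    rw [mem_blk]
    simp only [Prod.fst_sub, Prod.snd_sub]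
    rw [pow_zero, mul_one] at h5
    omega
  rw [e1, e2]
  exact ⟨qG_sub hb hsub _ fun c _ hc t => hvan c hc t, nG_supp hsub _ hvan⟩

/-- **the pyramid inequality with explicit errors** -/
theorem pyrf_exp {b : ℝ} (hb : 0 ≤ b) {p n k : ℕ} (hp : 1 ≤ p) (hn : 1 ≤ n) (hk : 1 ≤ k) {N : ℕ}
    (hN : N = p * 2 ^ n + 2 * (p * k)) (m d : ℕ) {η η1 η2 : ℝ} (hη : 0 < η) (h1 : 0 < η1)
    (h2 : 0 < η2) {LB : ℕ} (hLB : LB + 1 ≤ p * k) {q : ℤ × ℤ} {x0 y0 : ℤ}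
    (g1 : q.1 ≤ x0 - p) (g2 : x0 + p ≤ q.1 + LB) (g3 : q.2 ≤ y0 - p) (g4 : y0 + p ≤ q.2 + LB) :
    nG (blk q LB) (pyr x0 y0 p) / 2 *
      (stiff (p * 2 ^ m * (2 ^ d + 2)) b * (1 - η - η1 - η2) - b / (p * η1) - 2 * b / (2 ^ d * η2) -
        8 * b * (((2 * (p * k) : ℕ) : ℝ) + 1) / (η * N) - 8 * b * N / ((p * 2 ^ m : ℕ) : ℝ)) ≤
      qG b (blk q LB) (pyr x0 y0 p) := by
  have h5 := pyrf_core hb hp hn hk hN m d hη h1 h2
  have h6 := pyr_rot hb hp (H := ((2 * (p * k) : ℕ) : ℤ)) g1 g2 g3 g4 (by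
    push_cast
    have : ((LB + 1 : ℕ) : ℤ) ≤ ((p * k : ℕ) : ℤ) := by exact_mod_cast hLB
    push_cast at this
    linarith)
  rw [h6.2] at h5
  exact h5.trans h6.1

theorem clog_lt {x : ℕ} (hx : 1 ≤ x) : 2 ^ Nat.clog 2 x ≤ 2 * x := by
  rcases Nat.lt_or_ge 1 x with h | h
  · have h1 := Nat.pow_pred_clog_lt_self (b := 2) (by norm_num) h
    have h2 : 1 ≤ Nat.clog 2 x := Nat.clog_pos (by norm_num) h
    obtain ⟨c, hc⟩ : ∃ c, Nat.clog 2 x = c + 1 := ⟨Nat.clog 2 x - 1, by omega⟩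
    rw [hc] at h1 ⊢
    simp only [Nat.pred_succ] at h1
    rw [pow_succ]
    omega
  · have : x = 1 := le_antisymm h hx
    subst this
    simp

theorem arith_fin {S SL b rp rL P N X H r L3 L : ℝ} (hb : 0 ≤ b) (hS0 : 0 ≤ S) (hSb : S ≤ b)
    (hrp : 1 ≤ rp) (hrL : 1 ≤ rL) (hH : 1 ≤ H) (hN : rL ^ 2 * H ≤ N) (hX : rL ^ 2 * N ≤ X)
    (hr : rL ^ 2 ≤ r) (hL3 : 0 ≤ L3) (hL : rL ^ 2 * L3 ≤ L) (hL0 : 0 < L)
    (hSL : SL ≤ S + 2 * b * L3 / L) :
    SL - 40 * b * (1 / rL + 1 / rp) ≤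
      S * (1 - 1 / rL - 1 / rp - 1 / rL) - b / (rp ^ 2 * (1 / rp)) - 2 * b / (r * (1 / rL)) -
        8 * b * (H + 1) / (1 / rL * N) - 8 * b * N / X := by
  have hrp0 : 0 < rp := by linarith
  have hrL0 : 0 < rL := by linarith
  have hN0 : 0 < N := lt_of_lt_of_le (by positivity) hN
  have hX0 : 0 < X := lt_of_lt_of_le (by positivity) hX
  have hr0 : 0 < r := lt_of_lt_of_le (by positivity) hr
  have hq : rL ≤ rL ^ 2 := by nlinarith only [hrL]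
  have e1 : b / (rp ^ 2 * (1 / rp)) = b * (1 / rp) := by field_simp
  have e2 : 2 * b / (r * (1 / rL)) ≤ 2 * b * (1 / rL) := by
    rw [div_le_iff₀ (by positivity)]
    have : 2 * b * (1 / rL) * (r * (1 / rL)) = 2 * b * (r / rL ^ 2) := by field_simp
    rw [this]
    have h1 : 1 ≤ r / rL ^ 2 := by rw [le_div_iff₀ (by positivity)]; linarith
    nlinarith only [h1, hb]
  have e3 : 8 * b * (H + 1) / (1 / rL * N) ≤ 16 * b * (1 / rL) := by
    rw [div_le_iff₀ (by positivity)]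
    have : 16 * b * (1 / rL) * (1 / rL * N) = 16 * b * (N / rL ^ 2) := by field_simp
    rw [this]
    have h1 : H ≤ N / rL ^ 2 := by rw [le_div_iff₀ (by positivity)]; linarith
    have h2 : H + 1 ≤ 2 * (N / rL ^ 2) := by linarith
    nlinarith only [h2, hb]
  have e4 : 8 * b * N / X ≤ 8 * b * (1 / rL) := by
    rw [div_le_iff₀ hX0]
    have h1 : N ≤ 1 / rL * X := by
      have h2 : rL * N ≤ X := le_trans (mul_le_mul_of_nonneg_right hq hN0.le) hX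
      calc N = 1 / rL * (rL * N) := by field_simp
        _ ≤ 1 / rL * X := mul_le_mul_of_nonneg_left h2 (by positivity)
    nlinarith only [h1, hb]
  have e5 : 2 * b * L3 / L ≤ 2 * b * (1 / rL) := by
    rw [div_le_iff₀ hL0]
    have h1 : L3 ≤ 1 / rL * L := by
      have h2 : rL * L3 ≤ L := le_trans (mul_le_mul_of_nonneg_right hq hL3) hL
      calc L3 = 1 / rL * (rL * L3) := by field_simp
        _ ≤ 1 / rL * L := mul_le_mul_of_nonneg_left h2 (by positivity)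
    nlinarith only [h1, hb]
  have i1 : 0 ≤ 1 / rL := by positivity
  have i2 : 0 ≤ 1 / rp := by positivity
  have e6 : S * (1 / rL + 1 / rp + 1 / rL) ≤ b * (1 / rL + 1 / rp + 1 / rL) :=
    mul_le_mul_of_nonneg_right hSb (by positivity)
  have i3 : 0 ≤ b * (1 / rL) := by positivity
  have i4 : 0 ≤ b * (1 / rp) := by positivity
  rw [e1]
  nlinarith only [e2, e3, e4, e5, e6, hSL, i3, i4]

/-- **PYRF: the finite size pyramid inequality.** -/
theorem pyrf {b : ℝ} (hb : 0 < b) {p Λ : ℕ} (hp : 1 ≤ p) (hΛ : 1 ≤ Λ) {LB L : ℕ} {q : ℤ × ℤ}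
    {x0 y0 : ℤ} (g1 : q.1 ≤ x0 - p) (g2 : x0 + p ≤ q.1 + LB) (g3 : q.2 ≤ y0 - p)
    (g4 : y0 + p ≤ q.2 + LB) (hL : 96 * Λ ^ 4 * LB ≤ L) :
    nG (blk q LB) (pyr x0 y0 p) / 2 *
      (stiff L b - 40 * b * (1 / Real.sqrt Λ + 1 / Real.sqrt p)) ≤
      qG b (blk q LB) (pyr x0 y0 p) := by
  have hLB2 : 2 * p ≤ LB := by omega
  -- the margin
  set k : ℕ := LB / p + 2 with hk
  have hk1 : 1 ≤ k := Nat.succ_le_of_lt (Nat.add_pos_right _ (by norm_num))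
  have hpk : LB + 1 ≤ p * k := by
    have h1 := Nat.div_add_mod LB p
    have h2 := Nat.mod_lt LB (show p > 0 by omega)
    have h3 : p * k = p * (LB / p) + p * 2 := by rw [hk]; ring
    omega
  have hpk2 : p * k ≤ 2 * LB := by
    have h1 := Nat.mul_div_le LB p
    have h3 : p * k = p * (LB / p) + p * 2 := by rw [hk]; ring
    omega
  -- the array
  set n : ℕ := Nat.clog 2 (2 * k * Λ) with hn
  have hkL : 2 ≤ 2 * k * Λ := by nlinarith
  have hn1 : 1 ≤ n := Nat.clog_pos (by norm_num) (by omega)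
  have hn2 : 2 * k * Λ ≤ 2 ^ n := Nat.le_pow_clog (by norm_num) _
  have hn3 : 2 ^ n ≤ 2 * (2 * k * Λ) := clog_lt (by omega)
  set N : ℕ := p * 2 ^ n + 2 * (p * k) with hN
  have hN1 : Λ * (2 * (p * k)) ≤ N := by
    calc Λ * (2 * (p * k)) = p * (2 * k * Λ) := by ring
      _ ≤ p * 2 ^ n := Nat.mul_le_mul_left p hn2
      _ ≤ N := Nat.le_add_right _ _
  have hN2 : N ≤ 12 * Λ * LB := by
    have h1 : p * 2 ^ n ≤ 4 * Λ * (p * k) := by
      calc p * 2 ^ n ≤ p * (2 * (2 * k * Λ)) := Nat.mul_le_mul_left p hn3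
        _ = 4 * Λ * (p * k) := by ring
    have h2 : 2 * (p * k) ≤ 2 * Λ * (p * k) := by nlinarith
    calc N ≤ 4 * Λ * (p * k) + 2 * Λ * (p * k) := Nat.add_le_add h1 h2
      _ = 6 * Λ * (p * k) := by ring
      _ ≤ 6 * Λ * (2 * LB) := Nat.mul_le_mul_left _ hpk2
      _ = 12 * Λ * LB := by ring
  -- the square
  set m : ℕ := Nat.clog 2 (Λ * (2 ^ n + 2 * k)) with hm
  have hm0 : 1 ≤ Λ * (2 ^ n + 2 * k) := Nat.mul_pos hΛ (by omega)
  have hm2 : Λ * (2 ^ n + 2 * k) ≤ 2 ^ m := Nat.le_pow_clog (by norm_num) _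
  have hm3 : 2 ^ m ≤ 2 * (Λ * (2 ^ n + 2 * k)) := clog_lt hm0
  have hNp : N = p * (2 ^ n + 2 * k) := by rw [hN]; ring
  have hX1 : Λ * N ≤ p * 2 ^ m := by
    calc Λ * N = p * (Λ * (2 ^ n + 2 * k)) := by rw [hNp]; ring
      _ ≤ _ := Nat.mul_le_mul_left p hm2
  have hX2 : p * 2 ^ m ≤ 2 * Λ * N := by
    calc p * 2 ^ m ≤ p * (2 * (Λ * (2 ^ n + 2 * k))) := Nat.mul_le_mul_left p hm3
      _ = 2 * Λ * N := by rw [hNp]; ring
  -- the long side
  set d : ℕ := Nat.clog 2 Λ with hd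
  have hd2 : Λ ≤ 2 ^ d := Nat.le_pow_clog (by norm_num) _
  have hd3 : 2 ^ d ≤ 2 * Λ := clog_lt hΛ
  set L3 : ℕ := p * 2 ^ m * (2 ^ d + 2) with hL3
  have hL3' : L3 ≤ 96 * Λ ^ 3 * LB := by
    have h1 : 2 ^ d + 2 ≤ 4 * Λ := by omega
    calc L3 ≤ (2 * Λ * N) * (4 * Λ) := Nat.mul_le_mul hX2 h1
      _ ≤ (2 * Λ * (12 * Λ * LB)) * (4 * Λ) := by gcongr
      _ = 96 * Λ ^ 3 * LB := by ring
  have hL3L : Λ * L3 ≤ L := by
    calc Λ * L3 ≤ Λ * (96 * Λ ^ 3 * LB) := Nat.mul_le_mul_left Λ hL3'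
      _ = 96 * Λ ^ 4 * LB := by ring
      _ ≤ L := hL
  have hL31 : 1 ≤ L3 := Nat.mul_pos (Nat.mul_pos hp (by positivity)) (by positivity)
  have hL3le : L3 ≤ L := le_trans (Nat.le_mul_of_pos_left L3 hΛ) hL3L
  have hL1 : 1 ≤ L := le_trans hL31 hL3le
  -- real numbers
  set rL : ℝ := Real.sqrt Λ with hrL
  set rp : ℝ := Real.sqrt p with hrp
  have hrL2 : rL ^ 2 = Λ := Real.sq_sqrt (Nat.cast_nonneg _)
  have hrp2 : rp ^ 2 = p := Real.sq_sqrt (Nat.cast_nonneg _)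
  have hrL1 : 1 ≤ rL := by
    rw [hrL, Real.one_le_sqrt]
    exact_mod_cast hΛ
  have hrp1 : 1 ≤ rp := by
    rw [hrp, Real.one_le_sqrt]
    exact_mod_cast hp
  have key := pyrf_exp hb.le hp hn1 hk1 hN m d (η := 1 / rL) (η1 := 1 / rp) (η2 := 1 / rL)
    (by positivity) (by positivity) (by positivity) hpk g1 g2 g3 g4
  rw [← hL3] at key
  have hstep := H177.stiff_le_rate hb.le hL31 hL3le
  have hfin := arith_fin (S := stiff L3 b) (SL := stiff L b) (b := b) (rp := rp) (rL := rL)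
    (N := (N : ℝ)) (X := ((p * 2 ^ m : ℕ) : ℝ)) (H := ((2 * (p * k) : ℕ) : ℝ)) (r := 2 ^ d)
    (L3 := (L3 : ℝ)) (L := (L : ℝ)) (P := 0) hb.le (UJ.stiff_nonneg' hb.le hL31)
    (h3_stiff_le hb hL31) hrp1 hrL1
    (by
      have : 1 ≤ 2 * (p * k) := by omega
      exact_mod_cast this)
    (by rw [hrL2]; exact_mod_cast hN1)
    (by rw [hrL2]; exact_mod_cast hX1)
    (by rw [hrL2]; exact_mod_cast hd2)
    (Nat.cast_nonneg _)
    (by rw [hrL2]; exact_mod_cast hL3L)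
    (by exact_mod_cast hL1) hstep
  rw [hrp2] at hfin
  refine le_trans ?_ key
  have hn00 : 0 ≤ nG (blk q LB) (pyr x0 y0 p) / 2 := by
    have := nG_nonneg (blk q LB) (pyr x0 y0 p)
    linarith
  exact mul_le_mul_of_nonneg_left hfin hn00

end

end Vale.Agent.P159.H856
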