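import Vale.Agent.P159.T1.NC.Props
import Vale.Agent.P159.H873.Mono
import Vale.Agent.P159.H170.Final

/-!
P159 (helper856), EXIT, the two last steps: below `2 / π - d` the correlation length is at most a
power of the scale (uniformly in `b < bCrit`), and the stiffness at `b < bCrit` is smaller than
the stiffness at `bCrit` by at least `c (bCrit - b)` (uniformly in the scale).
-/

namespace Vale.Agent.P159.H856

open Vale.Agent.P159

/-- **the end of the exit**: if the stiffness at the scale `L` is at most `2 / π - d`, then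
`log ξ ≤ 2 log L + K`, uniformly in `b < bCrit` -/
theorem nc_exit_of (H : NC.SharpNC) (hhel : helicity bCrit = 2 / Real.pi) {d : ℝ} (hd : 0 < d) :
    ∃ K : ℝ, ∀ b : ℝ, 0 < b → b < bCrit → ∀ L : ℕ, 1 ≤ L → stiff L b ≤ 2 / Real.pi - d →
      Real.log (corrLength b) ≤ 2 * Real.log L + K := by
  obtain ⟨K, hK, h⟩ := H (d / 2) (by positivity)
  refine ⟨2 * K / d, fun b hb hbc L hL hS => ?_⟩
  have hL1 : (1 : ℝ) ≤ L := by exact_mod_cast hL
  have hlL : 0 ≤ Real.log L := Real.log_nonneg hL1
  have hKd : 0 ≤ 2 * K / d := by positivity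
  by_cases hxi : (L : ℝ) ≤ corrLength b
  · have h1 := h b hb hbc L hL hxi
    rw [hhel, sub_self, zero_mul, zero_add] at h1
    have h2 : Real.log L ≤ Real.log (corrLength b) := Real.log_le_log (by linarith) hxi
    have h3 : d * (Real.log (corrLength b) - Real.log L) ≤
        (2 / Real.pi - stiff L b) * (Real.log (corrLength b) - Real.log L) :=
      mul_le_mul_of_nonneg_right (by linarith) (by linarith)
    have h4 : d / 2 * Real.log (corrLength b) ≤ d * Real.log L + K := by linarith
    have e : 2 * Real.log L + 2 * K / d = (d * Real.log L + K) / (d / 2) := by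
      field_simp
    rw [e, le_div_iff₀ (by positivity)]
    linarith
  · push Not at hxi
    have hm : 0 < mass b := XY.mass_pos_of_lt_bCrit hb hbc
    have hx : 0 < corrLength b := by
      unfold corrLength
      positivity
    have h2 := Real.log_le_log hx hxi.le
    linarith

/-- **transversality** -/
theorem transv : ∃ c : ℝ, 0 < c ∧ ∀ b : ℝ, 0 < b → b ≤ bCrit → ∀ L : ℕ, 1 ≤ L →
    stiff L b ≤ stiff L bCrit - c * (bCrit - b) := by
  have hbc : 0 < bCrit := H170.bCrit_pos
  have hpi := Real.pi_pos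
  have h2p : 0 < 2 / Real.pi := by positivity
  refine ⟨(2 / Real.pi) ^ 2 / (2 * bCrit ^ 2), by positivity, fun b hb hbb L hL => ?_⟩
  have h1 := H873.stiff_ren hL hb hbb
  have hS : 0 < stiff L b := H873.stiff_pos hL hb
  have hSc : 0 < stiff L bCrit := H873.stiff_pos hL hbc
  have hSc2 : 2 / Real.pi ≤ stiff L bCrit :=
    (H873.hel_crit hbc).trans (H873.hel_le hbc.le hL)
  have hScb : stiff L bCrit ≤ bCrit := UJ.h3_stiff_le hbc hL
  have hmono : stiff L b ≤ stiff L bCrit :=
    H873.stiff_monotoneOn hL (Set.mem_Ici.2 hb.le) (Set.mem_Ici.2 hbc.le) hbb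
  -- `S_c - S ≥ S S_c (1/b - 1/b_c)`
  have h3 : stiff L b * stiff L bCrit * (1 / b - 1 / bCrit) ≤ stiff L bCrit - stiff L b := by
    have h4 : 1 / b - 1 / bCrit ≤ 1 / stiff L b - 1 / stiff L bCrit := by linarith
    have h5 := mul_le_mul_of_nonneg_left h4 (mul_pos hS hSc).le
    have e : stiff L b * stiff L bCrit * (1 / stiff L b - 1 / stiff L bCrit) =
        stiff L bCrit - stiff L b := by
      field_simp
    rw [e] at h5
    exact h5
  have h6 : (bCrit - b) / bCrit ^ 2 ≤ 1 / b - 1 / bCrit := by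
    have e : 1 / b - 1 / bCrit = (bCrit - b) / (b * bCrit) := by
      field_simp
    rw [e]
    refine div_le_div_of_nonneg_left (by linarith) (by positivity) ?_
    nlinarith
  have hx : 0 ≤ (bCrit - b) / bCrit ^ 2 := div_nonneg (by linarith) (by positivity)
  by_cases hh : stiff L bCrit / 2 ≤ stiff L b
  · have h7 : stiff L bCrit / 2 * stiff L bCrit * ((bCrit - b) / bCrit ^ 2) ≤
        stiff L b * stiff L bCrit * (1 / b - 1 / bCrit) :=
      mul_le_mul (mul_le_mul_of_nonneg_right hh hSc.le) h6 hx (by positivity)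
    have h8 : (2 / Real.pi) ^ 2 / 2 * ((bCrit - b) / bCrit ^ 2) ≤
        stiff L bCrit / 2 * stiff L bCrit * ((bCrit - b) / bCrit ^ 2) := by
      refine mul_le_mul_of_nonneg_right ?_ hx
      nlinarith
    have e : (2 / Real.pi) ^ 2 / (2 * bCrit ^ 2) * (bCrit - b) =
        (2 / Real.pi) ^ 2 / 2 * ((bCrit - b) / bCrit ^ 2) := by
      field_simp
    rw [e]
    linarith
  · push Not at hh
    have h9 : (2 / Real.pi) ^ 2 / (2 * bCrit ^ 2) * (bCrit - b) ≤ stiff L bCrit / 2 := by
      have h10 : (2 / Real.pi) ^ 2 ≤ stiff L bCrit * bCrit := by nlinarith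
      rw [div_mul_eq_mul_div, div_le_iff₀ (by positivity)]
      have h11 : (2 / Real.pi) ^ 2 * (bCrit - b) ≤ stiff L bCrit * bCrit * bCrit :=
        mul_le_mul h10 (by linarith) (by linarith) (by positivity)
      calc (2 / Real.pi) ^ 2 * (bCrit - b) ≤ stiff L bCrit * bCrit * bCrit := h11
        _ = stiff L bCrit / 2 * (2 * bCrit ^ 2) := by ring
    linarith

end Vale.Agent.P159.H856
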