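import Vale.Agent.P159.H856.Fin2

/-!
P159 (helper856), RP bound for the blocks, part 10: **the theorem**. For every diamond inside a wired
block the quadratic form of the block on the gradient field of the diamond pyramid is at least the
helicity modulus times half of the norm: no loss at the boundary of the block.
-/

set_option linter.unusedSectionVars false

namespace Vale.Agent.P159.H856

open Filter Topology
open Vale.Agent.P159 Vale.Agent.P159.H353 Vale.Agent.P159.R2.H254
open Vale.Agent.P159.H950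
open Vale.Agent.P159.UJ
open Vale.Agent.P159.UJ.H282 (uc rs)

noncomputable section

theorem An_zero (p : ℕ) : An p 0 = arr p p p := by
  unfold An
  rw [pow_zero, mul_one]
  congr 1 <;> ring

/-- the diamond in the letters of the block -/
theorem pyr_sh (x0 y0 : ℤ) {p : ℕ} (hp : 1 ≤ p) :
    pyr x0 y0 p = shF (-(x0, y0)) (An p 0) := by
  rw [pyr_eq x0 y0 p (by exact_mod_cast hp), An_zero]

/-- two cases for the helicity modulus -/
theorem hel_cases {b : ℝ} (hb : 0 < b) : 2 / Real.pi ≤ helicity b ∨ helicity b = 0 := by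
  rcases eq_or_ne (mass b) 0 with hm | hm
  · exact Or.inl (UJ.helicity_massless hb hm)
  · right
    have h0 : 0 ≤ mass b := XY.mass_nonneg hb
    exact UJ.helicity_massive hb (lt_of_le_of_ne h0 (Ne.symm hm))

/-- **RP bound for the blocks**: the quadratic form of the wired block `[0, L]²` on the field of a
diamond pyramid inside the block -/
theorem pyr_le {b : ℝ} (hb : 0 < b) {L p : ℕ} {x0 y0 : ℤ} (hp : 1 ≤ p) (hx0 : (p : ℤ) ≤ x0)
    (hx1 : x0 + p ≤ L) (hy0 : (p : ℤ) ≤ y0) (hy1 : y0 + p ≤ L) :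
    helicity b * (1 / 2 * ∑ z ∈ uc L 0, ∑ t : Bool × Bool, pyr x0 y0 p t z ^ 2) ≤
      qc b L 0 (rs L 0 (pyr x0 y0 p)) 0 := by
  rw [← qG_blk_qc, uc_eq_blk, ← nG_blk]
  rcases hel_cases hb with hY | hY
  · -- pass to the coordinates of the array
    have e1 : nG (blk 0 L) (pyr x0 y0 p) = nG (blk (-(x0, y0)) L) (An p 0) := by
      rw [pyr_sh x0 y0 hp, nG_tr (-(x0, y0)) L (An p 0)]
    have e2 : qG b (blk 0 L) (pyr x0 y0 p) = qG b (blk (-(x0, y0)) L) (An p 0) := by
      rw [pyr_sh x0 y0 hp, qG_tr b (-(x0, y0)) L (An p 0)]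
    rw [e1, e2]
    have hsup : ∀ c, c ∉ blk (-(x0, y0)) L → ∀ t, An p 0 t c = 0 := by
      intro c hc t
      by_contra h2
      have h3 := An_supp p 0 h2
      apply hc
      rw [mem_blk]
      simp only [Prod.fst_neg, Prod.snd_neg, pow_zero, mul_one] at h3 ⊢
      omega
    have hinc : (-(p : ℤ) - (L : ℕ) ≤ (-(x0, y0) : ℤ × ℤ).1 ∧
        -((L + 2 * (p * 2 ^ 0) : ℕ) : ℤ) ≤ (-(x0, y0) : ℤ × ℤ).2 ∧
        (-(x0, y0) : ℤ × ℤ).1 + L ≤
          -(p : ℤ) - (L : ℕ) + ((2 * (L + 2 * (p * 2 ^ 0)) : ℕ) : ℤ) ∧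
        (-(x0, y0) : ℤ × ℤ).2 + L ≤
          -((L + 2 * (p * 2 ^ 0) : ℕ) : ℤ) + ((2 * (L + 2 * (p * 2 ^ 0)) : ℕ) : ℤ)) := by
      simp only [Prod.fst_neg, Prod.snd_neg, pow_zero, mul_one]
      push_cast
      omega
    have h1 := start_arr L hp hb hY
    have hL : 1 ≤ L := by omega
    have h2 : qG b (Bn p L 0) (An p 0) ≤ qG b (blk (-(x0, y0)) L) (An p 0) := by
      unfold Bn
      exact qG_mono hb.le hL hinc _ hsup
    have h3 : nG (Bn p L 0) (An p 0) = nG (blk (-(x0, y0)) L) (An p 0) := by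
      refine nG_supp ?_ _ hsup
      intro c hc
      unfold Bn
      rw [mem_blk] at hc ⊢
      simp only at hinc ⊢
      omega
    rw [h3] at h1
    linarith
  · rw [hY, zero_mul]
    exact qG_nonneg hb.le _ _

end

end Vale.Agent.P159.H856
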