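import Vale.Agent.P159.H856.Brg
import Vale.Agent.P159.H856.Arr

/-!
P159 (helper856), RP bound for the blocks, part 5: the form inequality for the block and a stream
function on the faces of the block.
-/

set_option linter.unusedSectionVars false

namespace Vale.Agent.P159.H856

open Vale.Agent.P159 Vale.Agent.P159.H353 Vale.Agent.P159.R2.H254
open Vale.Agent.P159.H950
open Vale.Agent.P159.UJ
open Vale.Agent.P159.H37 (Zs wM qf re Gm wt Ev)
open Vale.Agent.P159.TM.H764 (Gh cN sN dt ch EE frm grd hatu)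
open Vale.Agent.P159.TM.Spec (V)
open Vale.Agent.P159.H30 (gB gW JW nL)

noncomputable section

/-- horizontal components of the field with stream function `f` (on faces) -/
def aS (f : ℤ × ℤ → ℝ) (v : ℤ × ℤ) : ℝ := f v - f (v - (0, 1))

/-- vertical components of the field with stream function `f` -/
def bS (f : ℤ × ℤ → ℝ) (v : ℤ × ℤ) : ℝ := f (v - (1, 0)) - f v

/-- the field with stream function `f` -/
def sF (f : ℤ × ℤ → ℝ) : HF := bF (aS f) (bS f)

/-- mixed difference -/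
def D12 (f : ℤ × ℤ → ℝ) (c : ℤ × ℤ) : ℝ :=
  f (c + (1, 1)) - f (c + (1, 0)) - f (c + (0, 1)) + f c

/-- the function vanishes near the boundary of the block -/
def Van (N : ℕ) (f : ℤ × ℤ → ℝ) : Prop :=
  ∀ c : ℤ × ℤ, ¬ (0 < c.1 ∧ c.1 < N ∧ 0 < c.2 ∧ c.2 < N) → f c = 0

/-- the function on the torus -/
def tu (N : ℕ) (f : ℤ × ℤ → ℝ) (x : V (N + 1)) : ℝ := f ((x.1.val : ℤ), (x.2.val : ℤ))

lemma val_add_one (N : ℕ) (a : ZMod (N + 1)) :
    (((a + 1).val : ℤ) = a.val + 1 ∧ a.val < N) ∨ ((a + 1).val = 0 ∧ a.val = N) := by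
  have h1 : (a + 1).val = (a.val + 1) % (N + 1) := by
    rw [ZMod.val_add, ZMod.val_one_eq_one_mod, Nat.add_mod_mod]
  have h2 := ZMod.val_lt a
  rcases Nat.lt_or_ge a.val N with h | h
  · left
    rw [h1, Nat.mod_eq_of_lt (by omega)]
    exact ⟨by push_cast; ring, h⟩
  · right
    have h3 : a.val = N := by omega
    refine ⟨?_, h3⟩
    rw [h1, h3, Nat.mod_self]

lemma tu_e1 {N : ℕ} {f : ℤ × ℤ → ℝ} (hf : Van N f) (x : V (N + 1)) :
    tu N f (x + (1, 0)) = f ((x.1.val : ℤ) + 1, (x.2.val : ℤ)) := by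
  unfold tu
  have e2 : (x + (1, 0)).2 = x.2 := by simp
  have e1 : (x + (1, 0)).1 = x.1 + 1 := rfl
  rw [e1, e2]
  rcases val_add_one N x.1 with ⟨h, _⟩ | ⟨h, h'⟩
  · rw [h]
  · rw [h, h', hf _ (by simp), hf _ (by simp)]

lemma tu_e2 {N : ℕ} {f : ℤ × ℤ → ℝ} (hf : Van N f) (x : V (N + 1)) :
    tu N f (x + (0, 1)) = f ((x.1.val : ℤ), (x.2.val : ℤ) + 1) := by
  unfold tu
  have e2 : (x + (0, 1)).2 = x.2 + 1 := rfl
  have e1 : (x + (0, 1)).1 = x.1 := by simp
  rw [e1, e2]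
  rcases val_add_one N x.2 with ⟨h, _⟩ | ⟨h, h'⟩
  · rw [h]
  · rw [h, h', hf _ (by simp), hf _ (by simp)]

lemma tu_e12 {N : ℕ} {f : ℤ × ℤ → ℝ} (hf : Van N f) (x : V (N + 1)) :
    tu N f (x + (1, 1)) = f ((x.1.val : ℤ) + 1, (x.2.val : ℤ) + 1) := by
  unfold tu
  have e2 : (x + (1, 1)).2 = x.2 + 1 := rfl
  have e1 : (x + (1, 1)).1 = x.1 + 1 := rfl
  rw [e1, e2]
  rcases val_add_one N x.1 with ⟨h, _⟩ | ⟨h, h'⟩
  · rcases val_add_one N x.2 with ⟨k, _⟩ | ⟨k, k'⟩
    · rw [h, k]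
    · rw [h, k, k', hf _ (by simp), hf _ (by simp)]
  · rw [h, h', hf _ (by simp), hf _ (by simp)]

/-- sums over the torus -/
lemma sum_tor (N : ℕ) (F : ℤ × ℤ → ℝ) :
    ∑ x : V (N + 1), F ((x.1.val : ℤ), (x.2.val : ℤ)) = ∑ c ∈ blk 0 (N + 1), F c := by
  rw [sum_blk, Fintype.sum_prod_type]
  have h1 : ∀ G : ℕ → ℝ, ∑ a : ZMod (N + 1), G a.val = ∑ i ∈ Finset.range (N + 1), G i :=
    fun G => Fin.sum_univ_eq_sum_range G (N + 1)
  rw [← h1 fun i => ∑ j ∈ Finset.range (N + 1), F ((i : ℤ), (j : ℤ))]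
  exact Finset.sum_congr rfl fun a _ => h1 fun j => F ((a.val : ℤ), (j : ℤ))

lemma nl_eq {N : ℕ} [NeZero N] (u : V N → ℝ) : nL u = nl u := by
  funext x
  unfold H30.nL nl
  ring

lemma sum_sq_tu (N : ℕ) (f : ℤ × ℤ → ℝ) :
    ∑ x, tu N f x ^ 2 = ∑ c ∈ blk 0 (N + 1), f c ^ 2 := sum_tor N fun c => f c ^ 2

lemma sum_d12_tu {N : ℕ} {f : ℤ × ℤ → ℝ} (hf : Van N f) :
    ∑ x, d12 (tu N f) x ^ 2 = ∑ c ∈ blk 0 (N + 1), D12 f c ^ 2 := by
  rw [← sum_tor N fun c => D12 f c ^ 2]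
  refine Finset.sum_congr rfl fun x _ => ?_
  unfold d12 D12
  rw [tu_e1 hf, tu_e2 hf, tu_e12 hf]
  simp only [Prod.mk_add_mk, add_zero]
  rfl

/-- the norm of the field is twice the Dirichlet energy -/
lemma nG_tu {N : ℕ} {f : ℤ × ℤ → ℝ} (hf : Van N f) :
    nG (blk 0 (N + 1)) (sF f) = 2 * grd (tu N f) := by
  have h1 : nG (blk 0 (N + 1)) (sF f) = ∑ c ∈ blk 0 (N + 1),
      ((f (c + (0, 1)) - f c) ^ 2 + (f (c + (1, 0)) - f c) ^ 2 +
        ((f c - f (c - (0, 1))) ^ 2 + (f c - f (c - (1, 0))) ^ 2)) := by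
    rw [nG_blk]
    refine Finset.sum_congr rfl fun c _ => ?_
    rw [Fintype.sum_prod_type]
    simp only [Fintype.sum_bool]
    have e1 : sF f (true, true) c = f c - f (c + (1, 0)) := by
      show bS f (hu c (true, true)) = _
      unfold bS
      have : hu c (true, true) = c + (1, 0) := by
        unfold hu; ext <;> simp
      rw [this, add_sub_cancel_right]
    have e2 : sF f (true, false) c = f (c - (1, 0)) - f c := by
      show bS f (hu c (true, false)) = _
      unfold bS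
      have : hu c (true, false) = c := by
        unfold hu; ext <;> simp
      rw [this]
    have e3 : sF f (false, true) c = f (c + (0, 1)) - f c := by
      show aS f (hu c (false, true)) = _
      unfold aS
      have : hu c (false, true) = c + (0, 1) := by
        unfold hu; ext <;> simp
      rw [this, add_sub_cancel_right]
    have e4 : sF f (false, false) c = f c - f (c - (0, 1)) := by
      show aS f (hu c (false, false)) = _
      unfold aS
      have : hu c (false, false) = c := by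
        unfold hu; ext <;> simp
      rw [this]
    rw [e1, e2, e3, e4]
    ring
  rw [h1, ← sum_tor N fun c => ((f (c + (0, 1)) - f c) ^ 2 + (f (c + (1, 0)) - f c) ^ 2 +
        ((f c - f (c - (0, 1))) ^ 2 + (f c - f (c - (1, 0))) ^ 2))]
  have h2 : ∀ x : V (N + 1), tu N f x = f ((x.1.val : ℤ), (x.2.val : ℤ)) := fun _ => rfl
  -- backward differences on the torus
  have b1 : ∀ x : V (N + 1), tu N f (x - (1, 0)) = f ((x.1.val : ℤ) - 1, (x.2.val : ℤ)) := by
    intro x
    obtain ⟨y, rfl⟩ : ∃ y : V (N + 1), x = y + (1, 0) := ⟨x - (1, 0), (sub_add_cancel _ _).symm⟩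
    rw [add_sub_cancel_right, h2]
    have e2 : (y + (1, 0)).2 = y.2 := by simp
    have e1 : (y + (1, 0)).1 = y.1 + 1 := rfl
    rw [e1, e2]
    rcases val_add_one N y.1 with ⟨h, _⟩ | ⟨h, h'⟩
    · rw [h, add_sub_cancel_right]
    · rw [h, h', hf _ (by simp), hf _ (by simp)]
  have b2 : ∀ x : V (N + 1), tu N f (x - (0, 1)) = f ((x.1.val : ℤ), (x.2.val : ℤ) - 1) := by
    intro x
    obtain ⟨y, rfl⟩ : ∃ y : V (N + 1), x = y + (0, 1) := ⟨x - (0, 1), (sub_add_cancel _ _).symm⟩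
    rw [add_sub_cancel_right, h2]
    have e2 : (y + (0, 1)).2 = y.2 + 1 := rfl
    have e1 : (y + (0, 1)).1 = y.1 := by simp
    rw [e1, e2]
    rcases val_add_one N y.2 with ⟨h, _⟩ | ⟨h, h'⟩
    · rw [h, add_sub_cancel_right]
    · rw [h, h', hf _ (by simp), hf _ (by simp)]
  have s1 : ∀ e : V (N + 1), ∑ x, (tu N f x - tu N f (x - e)) ^ 2 =
      ∑ x, (tu N f (x + e) - tu N f x) ^ 2 := by
    intro e
    rw [← Equiv.sum_comp (Equiv.addRight e) fun x => (tu N f x - tu N f (x - e)) ^ 2]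
    refine Finset.sum_congr rfl fun x _ => ?_
    simp only [Equiv.coe_addRight, add_sub_cancel_right]
  have s2 : ∑ x : V (N + 1), ((f (((x.1.val : ℤ), (x.2.val : ℤ)) + (0, 1)) -
        f ((x.1.val : ℤ), (x.2.val : ℤ))) ^ 2 +
      (f (((x.1.val : ℤ), (x.2.val : ℤ)) + (1, 0)) - f ((x.1.val : ℤ), (x.2.val : ℤ))) ^ 2 +
        ((f ((x.1.val : ℤ), (x.2.val : ℤ)) - f (((x.1.val : ℤ), (x.2.val : ℤ)) - (0, 1))) ^ 2 +
        (f ((x.1.val : ℤ), (x.2.val : ℤ)) - f (((x.1.val : ℤ), (x.2.val : ℤ)) - (1, 0))) ^ 2)) =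
      ∑ x, ((tu N f (x + (0, 1)) - tu N f x) ^ 2 + (tu N f (x + (1, 0)) - tu N f x) ^ 2 +
        ((tu N f x - tu N f (x - (0, 1))) ^ 2 + (tu N f x - tu N f (x - (1, 0))) ^ 2)) := by
    refine Finset.sum_congr rfl fun x _ => ?_
    rw [b1, b2, tu_e1 hf, tu_e2 hf]
    simp only [Prod.mk_add_mk, Prod.mk_sub_mk, add_zero, sub_zero]
    rfl
  rw [s2, Finset.sum_add_distrib, Finset.sum_add_distrib, Finset.sum_add_distrib, s1, s1]
  unfold TM.H764.grd TM.H764.Q
  ring

/-- **the form inequality for the block** -/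
theorem blk_form {N : ℕ} {b t Y e : ℝ} (hb : 0 < b) (ht : 0 < t) (hY : 0 < Y) (he : 0 ≤ e)
    (h : Win (N + 1) b t Y e) {j : ZMod (N + 1)} {W : ℝ} (hW : W = 2 * (1 - cN j)) (hW0 : 0 < W)
    {f : ℤ × ℤ → ℝ} (hf : Van N f) :
    Y * (1 - (Y * t / W + e * W / (t * Y))) * (nG (blk 0 (N + 1)) (sF f) / 2) -
      2 * Y / W * ∑ c ∈ blk 0 (N + 1), D12 f c ^ 2 -
      2 * Y * W * ∑ c ∈ blk 0 (N + 1), f c ^ 2 ≤ qG b (blk 0 (N + 1)) (sF f) := by
  have h1 := tor_form hb ht hY he h hW hW0 (tu N f)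
  have h2 := blk_ge_tor (N := N) hb ht (aS f) (bS f)
    (fun i => by
      unfold aS
      rw [hf _ (by simp), hf _ (by simp), sub_zero])
    (fun i => by
      unfold aS
      rw [hf _ (by simp), hf _ (by simp), sub_zero])
    (fun i => by
      unfold bS
      rw [hf _ (by simp), hf _ (by simp), sub_zero])
    (fun i => by
      unfold bS
      rw [hf _ (by simp), hf _ (by simp), sub_zero])
    (tu N f)
    (fun g => by
      rcases g with i | i
      · show tu N f (0, i) - tu N f (Fin.last N, i) = 0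
        have e1 : tu N f ((0 : ZMod (N + 1)), i) = 0 := by
          unfold tu
          refine hf _ ?_
          simp
        have e2 : tu N f ((Fin.last N : ZMod (N + 1)), i) = 0 := by
          unfold tu
          refine hf _ ?_
          have hl : @ZMod.val (N + 1) (Fin.last N) = N := rfl
          simp only [hl]
          omega
        rw [e1, e2, sub_zero]
      · show tu N f (i, 0) - tu N f (i, Fin.last N) = 0
        have e1 : tu N f (i, (0 : ZMod (N + 1))) = 0 := by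
          unfold tu
          refine hf _ ?_
          simp
        have e2 : tu N f (i, (Fin.last N : ZMod (N + 1))) = 0 := by
          unfold tu
          refine hf _ ?_
          have hl : @ZMod.val (N + 1) (Fin.last N) = N := rfl
          simp only [hl]
          omega
        rw [e1, e2, sub_zero])
    (fun g => by
      rcases g with q | q
      · show f (((q.1.castSucc : Fin (N + 1)) : ℕ), ((q.2 : Fin (N + 1)) : ℕ)) -
          f (((q.1.succ : Fin (N + 1)) : ℕ), ((q.2 : Fin (N + 1)) : ℕ)) =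
          bS f ((q.1.1 : ℤ) + 1, (q.2.1 : ℤ))
        unfold bS
        simp only [Fin.val_castSucc, Fin.val_succ, Prod.mk_sub_mk, sub_zero, add_sub_cancel_right]
        push_cast
        rfl
      · show f (((q.1 : Fin (N + 1)) : ℕ), ((q.2.succ : Fin (N + 1)) : ℕ)) -
          f (((q.1 : Fin (N + 1)) : ℕ), ((q.2.castSucc : Fin (N + 1)) : ℕ)) =
          aS f ((q.1.1 : ℤ), (q.2.1 : ℤ) + 1)
        unfold aS
        simp only [Fin.val_castSucc, Fin.val_succ, Prod.mk_sub_mk, sub_zero, add_sub_cancel_right]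
        push_cast
        rfl)
  have h3 : qG b (blk 0 (N + 1)) (sF f) = Qform muInf (fun _ : KR (blk 0 (N + 1)) => b / 2)
      (chiR (blk 0 (N + 1))) (tG (aS f) (bS f) (N + 1)) := rfl
  rw [h3]
  rw [nl_eq] at h2
  refine le_trans (le_of_eq ?_) (h1.trans h2)
  rw [nG_tu hf, sum_d12_tu hf, sum_sq_tu]
  ring

end

end Vale.Agent.P159.H856
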