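import Vale.Agent.P159.H856.Dlb

/-!
P159 (helper856), DELTA, part 12: the price of the cores of a far pair against the massless ratio of
the same torus: `mm b ρ ^ 2 ≤ exp (α log (R / ρ) + C) * CT N b η`.
-/

set_option linter.unusedSectionVars false

namespace Vale.Agent.P159.H856.Dl

open Finset Matrix MeasureTheory
open Vale.Agent.P159 Vale.Agent.P159.TM.H331 Vale.Agent.P159.H773 Vale.Agent.P159.H253.Rec
open Vale.Agent.P159.TM.H104 (EM)
open Vale.Agent.P159.TM.Spec (V)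
open Vale.Agent.P159.H770 (GWF Ed wTD)
open Vale.Agent.P159.H817 (gr nrm eF sz bD CG)
open Vale.Agent.P159.H963 (pin)
open Vale.Agent.P159.H883
open Vale.Agent.P159.H253.Sm (cz dsp dsp_spec nm_dsp)

noncomputable section

/-- the two letters of the massless ratio -/
theorem CW_wTD (N : ℕ) [NeZero N] (b : ℝ) (η : Ed N → ℤ) :
    CW (wTD N b) (0 : V N) η = CT N b η := rfl

/-- a larger price -/
theorem EXD.mono_K {N : ℕ} [NeZero N] {b : ℝ} {η : Ed N → ℤ} {S : Finset (V N)} {K K' : ℝ}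
    (h : EXD N b η S K) (hb : 0 < b) (hK : K ≤ K') : EXD N b η S K' := by
  intro j hj
  obtain ⟨h1, h2⟩ := h j hj
  refine ⟨h1, h2.trans ?_⟩
  have hZ : 0 ≤ Zp (wTD N b 0) (0 : V N) := ((H883.bw_wTD (N := N) hb 0).Zp_pos 0).le
  exact mul_le_mul_of_nonneg_right (mul_le_mul_of_nonneg_right hK (Real.exp_pos _).le) hZ

/-- **the price of the cores of a far pair** -/
theorem mm_le_CT {b α C1 : ℝ} (hb : 0 < b) (hα0 : 0 ≤ α) (hα1 : α ≤ 1) (hC1 : 1 ≤ C1) :
    ∃ C A0 : ℝ, 1 ≤ C ∧ 16 ≤ A0 ∧ ∀ (N : ℕ) [NeZero N] (L ρ R : ℕ)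
      (η : Ed N → ℤ) (p q : V N), RecAt b α C1 R → 32 ≤ R →
      R ≤ 2 * sz (q - p) → sz (q - p) ≤ 4 * R → A0 * R ≤ N →
      H817.IsPath p q (H817.v1 p q) (H817.v2 p q) L η → 1 ≤ ρ → 8 * ρ ≤ R →
      0 < CT N b η ∧
      -Real.log (CT N b η) ≤ C - Real.log (ga b R) ∧
      mm b ρ ^ 2 ≤ Real.exp (α * Real.log ((R : ℝ) / ρ) + C) * CT N b η ∧
      EXD N b η (cS p q (ρ + 1)) (mm b ρ ^ 2) ∧
      EXD N b η (cS p q (ρ + 1)) (Real.exp (α * Real.log ((R : ℝ) / ρ) + C) * CT N b η) := by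
  set k : ℝ := (12 * C1) ^ (-(8 * (4 : ℝ) + 1)) / 2 with hk
  have hpw : (0 : ℝ) < (12 * C1) ^ (-(8 * (4 : ℝ) + 1)) := Real.rpow_pos_of_pos (by linarith) _
  have hpw1 : (12 * C1) ^ (-(8 * (4 : ℝ) + 1)) ≤ 1 :=
    Real.rpow_le_one_of_one_le_of_nonpos (by linarith) (by norm_num)
  have hk0 : 0 < k := half_pos hpw
  have hk1 : k ≤ 1 := (half_le_self hpw.le).trans hpw1
  obtain ⟨A1, hA1, hCT⟩ := H37.Fp.far_CT (α := α) (C1 := C1) hb.le hα0 hα1 hC1
    (B := 4) (by norm_num)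
  have hlk : Real.log k ≤ 0 := Real.log_nonpos hk0.le hk1
  have hlC : 0 ≤ Real.log C1 := Real.log_nonneg hC1
  refine ⟨1 + Real.log C1 - Real.log k, max A1 16, by linarith, le_max_right _ _, ?_⟩
  intro N _ L ρ R η p q hrec hR32 hfar1 hfar2 hAN hpath hρ1 hρR
  have hRpos : (0 : ℝ) < R := by
    have : 0 < R := by omega
    exact_mod_cast this
  have hAN16 : 16 * R ≤ N := by
    have h1 : (16 : ℝ) * R ≤ N := (mul_le_mul_of_nonneg_right (le_max_right A1 16) hRpos.le).trans hAN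
    exact_mod_cast h1
  have hAN1 : A1 * R ≤ N := (mul_le_mul_of_nonneg_right (le_max_left A1 16) hRpos.le).trans hAN
  obtain ⟨M, hM⟩ : ∃ M, N = M + 2 := ⟨N - 2, by omega⟩
  subst hM
  have hnm : XY.nm (dsp p q) = sz (q - p) := nm_dsp p q
  have b1 : 8 * (4 : ℝ) ≤ R := by
    have : (32 : ℝ) ≤ R := by exact_mod_cast hR32
    linarith
  have b2 : (XY.nm (dsp p q) : ℝ) ≤ 4 * R := by rw [hnm]; exact_mod_cast hfar2
  have b3 : (R : ℝ) ≤ 4 * XY.nm (dsp p q) := by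
    have h1 : (R : ℝ) ≤ 2 * XY.nm (dsp p q) := by rw [hnm]; exact_mod_cast hfar1
    have h2 : (0 : ℝ) ≤ XY.nm (dsp p q) := Nat.cast_nonneg _
    linarith
  have b4 : A1 * R ≤ (M : ℝ) + 2 := by
    have := hAN1
    push_cast at this
    exact this
  have hlow : k * ga b R ≤ CT (M + 2) b η :=
    (hCT M R L p q (H817.v1 p q) (H817.v2 p q) η hpath b1 hrec b2 b3 b4).1
  have hga0 : 0 < ga b R := hrec.1
  have hct0 : 0 < CT (M + 2) b η := CT_pos hb η
  have hρ0 : (0 : ℝ) < ρ := by exact_mod_cast hρ1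
  have hzero : 0 < (mm b ρ) ^ 2 := pow_pos (H253.Sm.mm_pos hb ρ) 2
  have hlogct : -Real.log (CT (M + 2) b η) ≤ -Real.log k - Real.log (ga b R) := by
    have h1 := Real.log_le_log (mul_pos hk0 hga0) hlow
    rw [Real.log_mul hk0.ne' hga0.ne'] at h1
    linarith
  have x1 : EXD (M + 2) b η (cS p q (ρ + 1)) (mm b ρ ^ 2) :=
    exd_pair0 (d := dsp p q) hb.le hpath (dsp_spec p q) (by rw [hnm]; omega) (by rw [hnm]; omega)
  have hmm : mm b ρ ^ 2 ≤
      Real.exp (α * Real.log ((R : ℝ) / ρ) + (1 + Real.log C1 - Real.log k)) *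
        CT (M + 2) b η := by
    have h1 : ua b ρ ≤ C1 * ((R : ℝ) / ρ) ^ α * ga b R := hrec.2 ρ hρ1 (by omega)
    have h2 : Real.log (mm b ρ ^ 2) ≤ Real.log C1 + α * Real.log ((R : ℝ) / ρ) +
        Real.log (ga b R) := by
      have h3 := Real.log_le_log hzero h1
      rw [Real.log_mul (by positivity) hga0.ne', Real.log_mul (by positivity) (by positivity),
        Real.log_rpow (by positivity)] at h3
      exact h3
    calc mm b ρ ^ 2 = Real.exp (Real.log (mm b ρ ^ 2)) := (Real.exp_log hzero).symm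
      _ ≤ Real.exp (α * Real.log ((R : ℝ) / ρ) + (1 + Real.log C1 - Real.log k) +
            Real.log (CT (M + 2) b η)) := Real.exp_le_exp.2 (by linarith)
      _ = _ := by rw [Real.exp_add, Real.exp_log hct0]
  refine ⟨hct0, by linarith, hmm, x1, x1.mono_K hb hmm⟩

end

end Vale.Agent.P159.H856.Dl
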