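import Vale.Agent.P159.H856.Dla

/-!
P159 / S list, 270's Ed4 (helper856), part 11: the zero background number of every far pair, with a
constant amplitude `s` (the smeared Ginibre inequality at the radius `R / 8`).
-/

set_option linter.unusedSectionVars false

namespace Vale.Agent.P159.H856.Dl

open Finset Matrix MeasureTheory
open Vale.Agent.P159 Vale.Agent.P159.TM.H331 Vale.Agent.P159.H773 Vale.Agent.P159.H253.Rec
open Vale.Agent.P159.TM.H104 (EM)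
open Vale.Agent.P159.TM.H764 (EE)
open Vale.Agent.P159.TM.Spec (V)
open Vale.Agent.P159.H770 (GWF Ed wTD)
open Vale.Agent.P159.H817 (gr nrm eF sz bD CG)
open Vale.Agent.P159.H963 (pin MF GW An ntr Pin)
open Vale.Agent.P159.H883
open Vale.Agent.P159.H552.Sm
open Vale.Agent.P159.H253.Sm (cz dsp dsp_spec nm_dsp wU dU wU_nonneg wU_sum CX_eq SS_far_exp)
open Vale.Agent.P159.H764.Evq (trX)

noncomputable section

/-- **DELTA**, with the constants in the hypotheses and any price `K ≤ s` of the symmetric moment -/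
theorem delta_pair' {M : ℕ} {b t α C1 CA k K C n s δ : ℝ} (hb : 0 < b) (ht : 0 < t)
    (hα0 : 0 ≤ α) (hα1 : α ≤ 1) (hC1 : 1 ≤ C1) (hCA : 0 < CA) (hk0 : 0 < k) (hk1 : k ≤ 1)
    (hCa : 324 * (4 * CA * ((4 * (1 + Real.log C1 - Real.log k) *
      ((1 + Real.log C1 - Real.log k) + 2 * b) + 2 * (6 + 768 * CG ^ 2)) +
      144 * (4 * (1 - Real.log k) * ((1 - Real.log k) + 2 * b) + 2 * (6 + 768 * CG ^ 2))) +
      4 * (4 * (1 - Real.log k) * ((1 - Real.log k) + 2 * b) + 2 * (6 + 768 * CG ^ 2))) + 27 ≤ C)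
    (hCb : 16 * (CA * (48 * (1 + Real.log 2 + b + (1 - Real.log k)) ^ 2 +
      4 * (6 + 768 * CG ^ 2)) + 16) ≤ C) (hCc : 8 ≤ C)
    {L ρ r R : ℕ} {η : Ed (M + 2) → ℤ} {p q : V (M + 2)} {φ : V (M + 2) → ℝ}
    (hrec : RecAt b α C1 R)
    (hfar1 : R ≤ 2 * sz (q - p)) (hfar2 : sz (q - p) ≤ 4 * R) (hN : 16 * R ≤ M + 2)
    (hpath : H817.IsPath p q (H817.v1 p q) (H817.v2 p q) L η) (hφ : ∀ e, eF η φ e = bD p q e)
    (hPin : ∀ k : V (M + 2), k ≠ 0 → Pin (M + 2) b t k ≤ CA * EE k)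
    (hρ1 : 1 ≤ ρ) (hρR : 8 * ρ ≤ R)
    (hlow : k * ga b R ≤ CT (M + 2) b η) (hn : 1 ≤ n) (hga : -Real.log (ga b R) ≤ n)
    (hlogN : Real.log (1 + ((M + 2 : ℕ) : ℝ)) ≤ n)
    (hs4 : 4 ≤ s) (hKs : K ≤ s)
    (hρr : ρ * n ≤ r) (hrN : r ≤ M + 2) (htr : t * (r : ℝ) ^ 2 * n ^ 2 ≤ 1)
    (hδ0 : 0 < δ) (hδ : C * n ^ 2 * δ ≤ 1)
    (i1 : IntegrableOn (ES (wTD (M + 2) b) (t • (1 : Matrix (V (M + 2)) (V (M + 2)) ℝ)) t 0 (η, φ) s)
        (Ag (wTD (M + 2) b) (t • (1 : Matrix (V (M + 2)) (V (M + 2)) ℝ)) t 0 s 1)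
        (nuM (wTD (M + 2) b 0) (t • (1 : Matrix (V (M + 2)) (V (M + 2)) ℝ)) 0))
    (i2 : ∫ F in Ag (wTD (M + 2) b) (t • (1 : Matrix (V (M + 2)) (V (M + 2)) ℝ)) t 0 s 1,
          ES (wTD (M + 2) b) (t • (1 : Matrix (V (M + 2)) (V (M + 2)) ℝ)) t 0 (η, φ) s F
          ∂(nuM (wTD (M + 2) b 0) (t • (1 : Matrix (V (M + 2)) (V (M + 2)) ℝ)) 0) ≤
        CT (M + 2) b η ^ 2 * Real.exp K)
    (hQ : ∫ F in (Ag (wTD (M + 2) b) (t • (1 : Matrix (V (M + 2)) (V (M + 2)) ℝ)) t 0 s 1)ᶜ,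
          Psi (wTD (M + 2) b 0) (wTD (M + 2) b η)
            (t • (1 : Matrix (V (M + 2)) (V (M + 2)) ℝ)) φ F
          ∂(nuM (wTD (M + 2) b 0) (t • (1 : Matrix (V (M + 2)) (V (M + 2)) ℝ)) 0) ≤
        δ * CT (M + 2) b η) :
    Del (wTD (M + 2) b) (t • (1 : Matrix (V (M + 2)) (V (M + 2)) ℝ)) t 0 η φ ≤
      C * (1 + Real.log (((M + 2 : ℕ) : ℝ) / ρ)) ^ 2 := by
  have hlk : Real.log k ≤ 0 := Real.log_nonpos hk0.le hk1
  have hlC : 0 ≤ Real.log C1 := Real.log_nonneg hC1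
  obtain ⟨x1, hzero, k00, k0, k10, k1⟩ := kap_pair (M := M) hb hα0 hα1 hC1 hk0 hk1 hrec hfar1 hfar2
    hN hpath hρ1 hρR hlow hn hga
  obtain ⟨hB0, hB1⟩ := en_pair p q hφ hρ1 (by omega) hn hlogN
  have hρ0 : (0 : ℝ) < ρ := by exact_mod_cast hρ1
  have hρR' : (ρ : ℝ) ≤ R := by
    have : ρ ≤ R := by omega
    exact_mod_cast this
  have hRN' : (R : ℝ) ≤ ((M + 2 : ℕ) : ℝ) := by
    have : R ≤ M + 2 := by omega
    exact_mod_cast this
  have hR0 : (0 : ℝ) < R := by linarith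
  have hRρ : Real.log ((R : ℝ) / ρ) ≤ Real.log (((M + 2 : ℕ) : ℝ) / ρ) :=
    Real.log_le_log (by positivity) (div_le_div_of_nonneg_right hRN' hρ0.le)
  have hRρ0 : 0 ≤ Real.log ((R : ℝ) / ρ) :=
    Real.log_nonneg (by rw [one_le_div hρ0]; exact hρR')
  set ℓ : ℝ := 1 + Real.log (((M + 2 : ℕ) : ℝ) / ρ) with hℓ
  have hℓ1 : 1 ≤ ℓ := by rw [hℓ]; linarith
  have hmA := meas_Ag (x₀ := (0 : V (M + 2))) (H770.gwf_wTD (N := M + 2) hb)
    (fun (e : Ed (M + 2) → ℤ) (x : V (M + 2)) => em_pin_wTD (N := M + 2) hb e x)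
    (mf_scalar (N := M + 2) ht) s 1
  have hδ8 : δ ≤ 1 / 8 := by
    have hn2 : 1 ≤ n ^ 2 := one_le_pow₀ hn
    have h1 : 8 * (n ^ 2 * δ) ≤ C * (n ^ 2 * δ) :=
      mul_le_mul_of_nonneg_right (by linarith) (by positivity)
    have h2 : 1 * δ ≤ n ^ 2 * δ := mul_le_mul_of_nonneg_right hn2 hδ0.le
    linarith
  have hr1 : 1 ≤ r := by
    have h1 : (1 : ℝ) ≤ ρ * n := by
      have : (1 : ℝ) ≤ ρ := by exact_mod_cast hρ1
      nlinarith
    have h2 : (1 : ℝ) ≤ r := h1.trans hρr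
    exact_mod_cast h2
  have hr0 : (0 : ℝ) < r := by exact_mod_cast hr1
  have hUq := num_U (κ0 := Real.log (1 / CT (M + 2) b η)) hb hCA (by linarith : 0 ≤ 1 - Real.log k)
    (by positivity : (0 : ℝ) ≤ 6 + 768 * CG ^ 2) hn k00 k0 hδ0 hCb hδ
  have hfin := delta_tor (N := M + 2) hb ht η φ hmA (s := s)
    (K := K) hs4 hKs i1 i2 hδ0 hQ hδ8 hCA hPin one_pos hzero
    (exd_one (M := M) hb.le η) x1 hB0 hB1 hUq hr1 hrN
  refine hfin.trans ?_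
  have hS : ((cS p q (ρ + 1)).card : ℝ) ≤ 144 * (ρ : ℝ) ^ 2 := by
    refine (card_cS p q (ρ + 1)).trans ?_
    have h2 : (1 + ((ρ + 1 : ℕ) : ℝ)) ^ 2 ≤ (3 * (ρ : ℝ)) ^ 2 := by
      refine pow_le_pow_left₀ (by positivity) ?_ 2
      push_cast
      have : (1 : ℝ) ≤ ρ := by exact_mod_cast hρ1
      linarith
    linarith
  have h := num_fin (CA := CA) (t := t) (κ0 := Real.log (1 / CT (M + 2) b η))
    (κ1 := Real.log (mm b ρ ^ 2 / CT (M + 2) b η)) hb hCA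
    (by linarith : 0 ≤ 1 - Real.log k) (by linarith : 0 ≤ 1 + Real.log C1 - Real.log k)
    (by positivity : (0 : ℝ) ≤ 6 + 768 * CG ^ 2) hn hℓ1 k00 k0 k10 k1 ht hρ0 hr0 hS hρr htr
  refine h.trans ?_
  exact mul_le_mul_of_nonneg_right hCa (sq_nonneg _)

/-- **DELTA**: the zero background number of every far pair, constant amplitude -/
theorem delta_far' {b α C1 CA : ℝ} (hb : 0 < b) (hα : 1 / 4 ≤ α) (hα2 : α < 1 / 2) (hC1 : 1 ≤ C1)
    (hCA : 0 < CA) :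
    ∃ C A0 : ℝ, 1 ≤ C ∧ 16 ≤ A0 ∧ ∀ (N : ℕ) [NeZero N] (L ρ r R : ℕ) (t s δ n : ℝ)
      (η : Ed N → ℤ) (p q : V N) (φ : V N → ℝ), 0 < t → RecAt b α C1 R → 32 ≤ R →
      R ≤ 2 * sz (q - p) → sz (q - p) ≤ 4 * R → A0 * R ≤ N →
      H817.IsPath p q (H817.v1 p q) (H817.v2 p q) L η → (∀ e, eF η φ e = bD p q e) →
      (∀ k : V N, k ≠ 0 → Pin N b t k ≤ CA * EE k) → 1 ≤ ρ → 8 * ρ ≤ R →
      C ≤ s → 1 ≤ n → -Real.log (ga b R) ≤ n →
      Real.log (1 + N) ≤ n → ρ * n ≤ r → r ≤ N → t * (r : ℝ) ^ 2 * n ^ 2 ≤ 1 →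
      0 < δ → C * n ^ 2 * δ ≤ 1 →
      ∫ F in (Ag (wTD N b) (t • (1 : Matrix (V N) (V N) ℝ)) t 0 s 1)ᶜ,
          Psi (wTD N b 0) (wTD N b η) (t • (1 : Matrix (V N) (V N) ℝ)) φ F
          ∂(nuM (wTD N b 0) (t • (1 : Matrix (V N) (V N) ℝ)) 0) ≤ δ * CT N b η →
      Del (wTD N b) (t • (1 : Matrix (V N) (V N) ℝ)) t 0 η φ ≤ C * (1 + Real.log (N / ρ)) ^ 2 := by
  set k : ℝ := (12 * C1) ^ (-(8 * (4 : ℝ) + 1)) / 2 with hk
  have hpw : (0 : ℝ) < (12 * C1) ^ (-(8 * (4 : ℝ) + 1)) := Real.rpow_pos_of_pos (by linarith) _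
  have hpw1 : (12 * C1) ^ (-(8 * (4 : ℝ) + 1)) ≤ 1 :=
    Real.rpow_le_one_of_one_le_of_nonpos (by linarith) (by norm_num)
  have hk0 : 0 < k := half_pos hpw
  have hk1 : k ≤ 1 := (half_le_self hpw.le).trans hpw1
  obtain ⟨A1, hA1, hCT⟩ := H37.Fp.far_CT (α := α) (C1 := C1) hb.le (by linarith) (by linarith) hC1
    (B := 4) (by norm_num)
  obtain ⟨CS, hCS, hSM⟩ := sm_far (α := α) (C1 := C1) hb hα hα2 (by linarith) hk0
  have hlk : Real.log k ≤ 0 := Real.log_nonpos hk0.le hk1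
  have hlC : 0 ≤ Real.log C1 := Real.log_nonneg hC1
  set X1 : ℝ := 324 * (4 * CA * ((4 * (1 + Real.log C1 - Real.log k) *
      ((1 + Real.log C1 - Real.log k) + 2 * b) + 2 * (6 + 768 * CG ^ 2)) +
      144 * (4 * (1 - Real.log k) * ((1 - Real.log k) + 2 * b) + 2 * (6 + 768 * CG ^ 2))) +
      4 * (4 * (1 - Real.log k) * ((1 - Real.log k) + 2 * b) + 2 * (6 + 768 * CG ^ 2))) + 27
    with hX1
  set X2 : ℝ := 16 * (CA * (48 * (1 + Real.log 2 + b + (1 - Real.log k)) ^ 2 +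
      4 * (6 + 768 * CG ^ 2)) + 16) with hX2
  set X3 : ℝ := Real.log 16 + CS + 8 with hX3
  have hl16 : 0 ≤ Real.log 16 := Real.log_nonneg (by norm_num)
  refine ⟨max X1 (max X2 X3), max A1 16, ?_, le_max_right _ _, ?_⟩
  · exact (by linarith : (1 : ℝ) ≤ X3).trans ((le_max_right _ _).trans (le_max_right _ _))
  intro N _ L ρ r R t s δ n η p q φ ht hrec hR32 hfar1 hfar2 hAN hpath hφ hPin hρ1 hρR hs hn1 hga
    hlogN hρr hrN htr hδ0 hδ hQ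
  have hRpos : (0 : ℝ) < R := by
    have : 0 < R := by omega
    exact_mod_cast this
  have hAN16 : 16 * R ≤ N := by
    have h1 : (16 : ℝ) * R ≤ N := (mul_le_mul_of_nonneg_right (le_max_right A1 16) hRpos.le).trans hAN
    exact_mod_cast h1
  have hAN1 : A1 * R ≤ N := (mul_le_mul_of_nonneg_right (le_max_left A1 16) hRpos.le).trans hAN
  obtain ⟨M, hM⟩ : ∃ M, N = M + 2 := ⟨N - 2, by omega⟩
  subst hM
  have hnm : XY.nm (dsp p q) = sz (q - p) := nm_dsp p q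
  have b1 : 8 * (4 : ℝ) ≤ R := by
    have : (32 : ℝ) ≤ R := by exact_mod_cast hR32
    linarith
  have b2 : (XY.nm (dsp p q) : ℝ) ≤ 4 * R := by rw [hnm]; exact_mod_cast hfar2
  have b3 : (R : ℝ) ≤ 4 * XY.nm (dsp p q) := by
    have h1 : (R : ℝ) ≤ 2 * XY.nm (dsp p q) := by rw [hnm]; exact_mod_cast hfar1
    have h2 : (0 : ℝ) ≤ XY.nm (dsp p q) := Nat.cast_nonneg _
    linarith
  have b4 : A1 * R ≤ (M : ℝ) + 2 := by
    have := hAN1
    push_cast at this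
    exact this
  have hlow : k * ga b R ≤ CT (M + 2) b η :=
    (hCT M R L p q (H817.v1 p q) (H817.v2 p q) η hpath b1 hrec b2 b3 b4).1
  obtain ⟨i1, i2⟩ := hSM (M + 2) L (R / 8) R t s 1 η p q φ ht hrec hfar1 hfar2 hAN16 hpath
    (by omega) (by omega) hlow
  have hX3s : X3 ≤ s := ((le_max_right _ _).trans (le_max_right _ _)).trans hs
  have hR8 : Real.log ((R : ℝ) / ((R / 8 : ℕ) : ℝ)) ≤ Real.log 16 := by
    have h8 : (0 : ℝ) < ((R / 8 : ℕ) : ℝ) := by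
      have : 0 < R / 8 := by omega
      exact_mod_cast this
    refine Real.log_le_log (by positivity) ?_
    rw [div_le_iff₀ h8]
    have : R ≤ 16 * (R / 8) := by omega
    exact_mod_cast this
  have hX38 : 8 ≤ X3 := by linarith
  exact delta_pair' hb ht (by linarith) (by linarith) hC1 hCA hk0 hk1 (le_max_left _ _)
    ((le_max_left _ _).trans (le_max_right _ _))
    (hX38.trans ((le_max_right _ _).trans (le_max_right _ _)))
    hrec hfar1 hfar2 hAN16 hpath hφ hPin hρ1 hρR hlow hn1 hga hlogN (by linarith) (by linarith)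
    hρr hrN htr hδ0 hδ i1 i2 hQ

end

end Vale.Agent.P159.H856.Dl
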