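import Vale.Agent.P159.H37.RPf
import Vale.Agent.P159.H864.Fou2

/-!
P159 (helper856), RP bound for the blocks, part 1: a form inequality on the torus.
`<Lap u, G Lap u> >= Y (1 - δ) |grad u|^2 - (2 Y / W) |d1 d2 u|^2 - 2 Y W |u|^2`
from the concavity of the inverse of the Fourier transform of the covariance on the lines parallel
to the axes and the window of the start.
-/

set_option linter.unusedSectionVars false

namespace Vale.Agent.P159.H856

open Finset Matrix
open Vale.Agent.P159.TM.H764 (Gh cN sN dt ch EE frm grd hatu)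
open Vale.Agent.P159.H37
open Vale.Agent.P159.H864
open Vale.Agent.P159.TM.Spec (V)

noncomputable section

variable {N : ℕ} [NeZero N] {b : ℝ}

/-- `- Laplacian` of a function on the torus -/
def nl (u : V N → ℝ) : V N → ℝ := fun x =>
  (u x - u (x + (1, 0))) + (u x - u (x - (1, 0))) + (u x - u (x + (0, 1))) + (u x - u (x - (0, 1)))

/-- mixed difference -/
def d12 (u : V N → ℝ) : V N → ℝ := fun x =>
  u (x + (1, 1)) - u (x + (1, 0)) - u (x + (0, 1)) + u x

lemma hatu_shift (u : V N → ℝ) (e k : V N) :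
    hatu (fun x => u (x + e)) k = ch (-(dt k e)) * hatu u k := by
  unfold TM.H764.hatu
  rw [← Equiv.sum_comp (Equiv.subRight e) (fun x => ((u (x + e) : ℝ) : ℂ) * ch (dt k x)),
    Finset.mul_sum]
  refine Finset.sum_congr rfl fun x _ => ?_
  simp only [Equiv.subRight_apply, sub_add_cancel]
  rw [TM.H764.dt_sub, sub_eq_add_neg, TM.H764.ch_add]
  ring

lemma hatu_nl (u : V N → ℝ) (k : V N) : hatu (nl u) k = (EE k : ℂ) * hatu u k := by
  have h0 : hatu (nl u) k = 4 * hatu u k - hatu (fun x => u (x + (1, 0))) k -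
      hatu (fun x => u (x + (-(1, 0)))) k - hatu (fun x => u (x + (0, 1))) k -
      hatu (fun x => u (x + (-(0, 1)))) k := by
    unfold TM.H764.hatu nl
    simp only [Finset.mul_sum, ← Finset.sum_sub_distrib]
    refine Finset.sum_congr rfl fun x _ => ?_
    simp only [sub_eq_add_neg]
    push_cast
    ring
  rw [h0, hatu_shift, hatu_shift, hatu_shift, hatu_shift]
  have e1 : dt k ((1, 0) : V N) = k.1 := by simp [dt]
  have e2 : dt k ((0, 1) : V N) = k.2 := by simp [dt]
  have e3 : dt k (-((1, 0) : V N)) = -k.1 := by rw [dt_neg, e1]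
  have e4 : dt k (-((0, 1) : V N)) = -k.2 := by rw [dt_neg, e2]
  rw [e1, e2, e3, e4, neg_neg, neg_neg]
  have h1 : ∀ a : ZMod N, ch a + ch (-a) = ((2 * cN a : ℝ) : ℂ) := by
    intro a
    apply Complex.ext
    · rw [Complex.add_re, TM.H764.ch_re, TM.H764.ch_re, TM.H764.cN_neg, Complex.ofReal_re]
      ring
    · have h2 := TM.H764.ch_conj a
      rw [← h2, Complex.add_im, Complex.conj_im, Complex.ofReal_im]
      ring
  have h3 := h1 k.1
  have h4 := h1 k.2
  unfold EE
  push_cast at h3 h4 ⊢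
  linear_combination (-(hatu u k)) * h3 - (hatu u k) * h4

lemma normSq_ch_sub (a : ZMod N) : Complex.normSq (ch (-a) - 1) = 2 * (1 - cN a) := by
  have h1 : ch (-a) = (starRingEnd ℂ) (ch a) := (TM.H764.ch_conj a).symm
  have h2 : Complex.normSq (ch a) = 1 := by
    have h3 := TM.H764.ch_add a (-a)
    rw [add_neg_cancel, h1, Complex.mul_conj] at h3
    have h4 : ch (0 : ZMod N) = 1 := by
      have := TM.H764.ch_add (0 : ZMod N) 0
      have h5 := TM.H764.ch_re (0 : ZMod N)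
      rw [TM.H764.cN_zero] at h5
      have h6 := TM.H764.ch_conj (0 : ZMod N)
      rw [neg_zero] at h6
      have h7 : (ch (0 : ZMod N)).im = 0 := Complex.conj_eq_iff_im.1 h6
      exact Complex.ext (by rw [h5, Complex.one_re]) (by rw [h7, Complex.one_im])
    rw [h4] at h3
    exact_mod_cast h3.symm
  rw [Complex.normSq_apply] at h2
  rw [h1, Complex.normSq_apply]
  simp only [Complex.sub_re, Complex.conj_re, Complex.one_re, Complex.sub_im, Complex.conj_im,
    Complex.one_im, sub_zero]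
  have h8 := TM.H764.ch_re a
  rw [← h8]
  linear_combination h2

lemma hsq_nl (u : V N → ℝ) (k : V N) : hsq (nl u) k = EE k ^ 2 * hsq u k := by
  unfold hsq
  rw [hatu_nl, Complex.normSq_mul, Complex.normSq_ofReal]
  ring

lemma hsq_d12 (u : V N → ℝ) (k : V N) :
    hsq (d12 u) k = (2 * (1 - cN k.1)) * (2 * (1 - cN k.2)) * hsq u k := by
  have h0 : hatu (d12 u) k = hatu (fun x => u (x + (1, 1))) k - hatu (fun x => u (x + (1, 0))) k -
      hatu (fun x => u (x + (0, 1))) k + hatu u k := by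
    unfold TM.H764.hatu d12
    simp only [← Finset.sum_sub_distrib, ← Finset.sum_add_distrib]
    refine Finset.sum_congr rfl fun x _ => ?_
    push_cast
    ring
  have e1 : dt k ((1, 0) : V N) = k.1 := by simp [dt]
  have e2 : dt k ((0, 1) : V N) = k.2 := by simp [dt]
  have e3 : dt k ((1, 1) : V N) = k.1 + k.2 := by simp [dt]
  rw [hatu_shift, hatu_shift, hatu_shift, e1, e2, e3, neg_add, TM.H764.ch_add] at h0
  have h1 : hatu (d12 u) k = (ch (-k.1) - 1) * (ch (-k.2) - 1) * hatu u k := by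
    rw [h0]; ring
  unfold hsq
  rw [h1, Complex.normSq_mul, Complex.normSq_mul, normSq_ch_sub, normSq_ch_sub]

/-- `λ₁ Ĝ` is nondecreasing on the lines parallel to the first axis -/
lemma line_mono {t : ℝ} (hb : 0 < b) (ht : 0 < t) {j k : ZMod N} (q : ZMod N) (hj : cN j < 1)
    (h : cN k ≤ cN j) : (1 - cN j) * Ght N b t (j, q) ≤ (1 - cN k) * Ght N b t (k, q) := by
  have h1 := RP.rp_slope (N := N) hb ht 0 hj h q
  have p0 : 0 < Ght N b t (0, q) := Ght_pos hb ht _
  have pj : 0 < Ght N b t (j, q) := Ght_pos hb ht _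
  have pk : 0 < Ght N b t (k, q) := Ght_pos hb ht _
  have h2 : ((Ght N b t (k, q))⁻¹ - (Ght N b t (0, q))⁻¹) * (1 - cN j) ≤
      ((Ght N b t (j, q))⁻¹ - (Ght N b t (0, q))⁻¹) * (1 - cN k) := h1
  have h3 : 0 ≤ (Ght N b t (0, q))⁻¹ := inv_nonneg.2 p0.le
  have h4 : (1 - cN j) * (Ght N b t (k, q))⁻¹ ≤ (1 - cN k) * (Ght N b t (j, q))⁻¹ := by
    nlinarith [mul_nonneg h3 (sub_nonneg.2 h)]
  have h5 : (1 - cN j) * (Ght N b t (k, q))⁻¹ * (Ght N b t (k, q) * Ght N b t (j, q)) ≤
      (1 - cN k) * (Ght N b t (j, q))⁻¹ * (Ght N b t (k, q) * Ght N b t (j, q)) :=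
    mul_le_mul_of_nonneg_right h4 (by positivity)
  have e1 : (1 - cN j) * (Ght N b t (k, q))⁻¹ * (Ght N b t (k, q) * Ght N b t (j, q)) =
      (1 - cN j) * Ght N b t (j, q) := by field_simp
  have e2 : (1 - cN k) * (Ght N b t (j, q))⁻¹ * (Ght N b t (k, q) * Ght N b t (j, q)) =
      (1 - cN k) * Ght N b t (k, q) := by field_simp
  rw [e1, e2] at h5
  exact h5

/-- the window of the start: lower bound of the Fourier transform of the covariance -/
def Win (N : ℕ) [NeZero N] (b t Y e : ℝ) : Prop :=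
  ∀ k : V N, 1 / (t + EE k / Y) - e / t ≤ Ght N b t k

lemma mode1 {t Y e : ℝ} (hb : 0 < b) (ht : 0 < t) (hY : 0 < Y) (he : 0 ≤ e)
    (h : Win N b t Y e) {j : ZMod N} {W : ℝ} (hW : W = 2 * (1 - cN j)) (hW0 : 0 < W) (k q : ZMod N) :
    Y * (1 - (Y * t / W + e * W / (t * Y))) * (2 * (1 - cN k)) -
        Y * (2 * (1 - cN k)) * (2 * (1 - cN q)) / W - Y * W ≤
      (2 * (1 - cN k)) * (EE ((k, q) : V N) * Ght N b t (k, q)) := by
  set l1 : ℝ := 2 * (1 - cN k) with hl1
  set l2 : ℝ := 2 * (1 - cN q) with hl2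
  have l10 : 0 ≤ l1 := by have := TM.H764.cN_le_one k; linarith
  have l20 : 0 ≤ l2 := by have := TM.H764.cN_le_one q; linarith
  have hE : EE ((k, q) : V N) = l1 + l2 := rfl
  have pk : 0 < Ght N b t (k, q) := Ght_pos hb ht _
  have d0 : 0 ≤ Y * t / W + e * W / (t * Y) := by positivity
  rw [hE]
  rcases le_or_gt W l1 with hk | hk
  · -- the bulk
    have hj1 : cN j < 1 := by linarith
    have hkj : cN k ≤ cN j := by linarith
    have h1 := line_mono (b := b) (t := t) hb ht q hj1 hkj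
    have h2 := h (j, q)
    have hEj : EE ((j, q) : V N) = W + l2 := by rw [hW, hl2]; rfl
    rw [hEj] at h2
    have h3 : Y * (1 - (Y * t + l2) / W) - e * W / t ≤ W * Ght N b t (j, q) := by
      have h4 : W * (1 / (t + (W + l2) / Y) - e / t) ≤ W * Ght N b t (j, q) :=
        mul_le_mul_of_nonneg_left h2 hW0.le
      have h5 : Y * (1 - (Y * t + l2) / W) ≤ W * (1 / (t + (W + l2) / Y)) := by
        have e1 : W * (1 / (t + (W + l2) / Y)) = W * Y / (Y * t + (W + l2)) := by
          field_simp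
        have e2 : Y * (1 - (Y * t + l2) / W) = Y * (W - (Y * t + l2)) / W := by
          field_simp
        rw [e1, e2, div_le_div_iff₀ hW0 (by positivity)]
        have h6 : 0 ≤ (Y * t + l2) ^ 2 := sq_nonneg _
        nlinarith [mul_nonneg hY.le h6]
      have e3 : W * (1 / (t + (W + l2) / Y) - e / t) = W * (1 / (t + (W + l2) / Y)) - e * W / t := by
        ring
      linarith
    have h7 : Y * (1 - (Y * t + l2) / W) - e * W / t ≤ l1 * Ght N b t (k, q) := by
      refine h3.trans ?_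
      have : W * Ght N b t (j, q) = 2 * ((1 - cN j) * Ght N b t (j, q)) := by rw [hW]; ring
      have h8 : l1 * Ght N b t (k, q) = 2 * ((1 - cN k) * Ght N b t (k, q)) := by rw [hl1]; ring
      rw [this, h8]
      linarith
    have h9 : Y * (1 - (Y * t + l2) / W) - e * W / t ≤ (l1 + l2) * Ght N b t (k, q) :=
      h7.trans (mul_le_mul_of_nonneg_right (by linarith) pk.le)
    have h10 := mul_le_mul_of_nonneg_left h9 l10
    have e4 : l1 * (Y * (1 - (Y * t + l2) / W) - e * W / t) =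
        Y * (1 - (Y * t / W + e * W / (t * Y))) * l1 - Y * l1 * l2 / W := by
      field_simp
      ring
    rw [e4] at h10
    have : 0 ≤ Y * W := by positivity
    linarith
  · have h1 : 0 ≤ l1 * ((l1 + l2) * Ght N b t (k, q)) := by positivity
    have h2 : Y * (1 - (Y * t / W + e * W / (t * Y))) * l1 ≤ Y * W := by
      have h3 : Y * (1 - (Y * t / W + e * W / (t * Y))) * l1 ≤ Y * 1 * l1 := by
        gcongr
        linarith
      have h4 : Y * 1 * l1 ≤ Y * W := by
        rw [mul_one]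
        gcongr
      linarith
    have h5 : 0 ≤ Y * l1 * l2 / W := by positivity
    linarith

/-- **the form inequality** -/
theorem tor_form {t Y e : ℝ} (hb : 0 < b) (ht : 0 < t) (hY : 0 < Y) (he : 0 ≤ e)
    (h : Win N b t Y e) {j : ZMod N} {W : ℝ} (hW : W = 2 * (1 - cN j)) (hW0 : 0 < W)
    (u : V N → ℝ) :
    Y * (1 - (Y * t / W + e * W / (t * Y))) * grd u - 2 * Y / W * ∑ x, d12 u x ^ 2 -
      2 * Y * W * ∑ x, u x ^ 2 ≤ qf (Gm (wt N b t)) (nl u) := by
  have hTI := ti_Gm_wt (N := N) (b := b) t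
  rw [qf_eq_sum hTI, ← qf_lapM, qf_eq_sum ti_lapM, ← sum_hsq (d12 u), ← sum_hsq u]
  have hN : 0 ≤ ((N : ℝ) ^ 2)⁻¹ := inv_nonneg.2 N_pos.le
  set δ : ℝ := Y * t / W + e * W / (t * Y) with hδ
  have key : ∑ k : V N, (Y * (1 - δ) * (sym lapM k * hsq u k) - 2 * Y / W * hsq (d12 u) k -
      2 * Y * W * hsq u k) ≤ ∑ k, sym (Gm (wt N b t)) k * hsq (nl u) k := by
    refine Finset.sum_le_sum fun k _ => ?_
    rw [sym_lapM, sym_Gm_wt, hsq_d12, hsq_nl]
    have h1 := mode1 hb ht hY he h hW hW0 k.1 k.2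
    have h2 := mode1 hb ht hY he h hW hW0 k.2 k.1
    have e1 : Ght N b t ((k.2, k.1) : V N) = Ght N b t k := Ght_swp t k
    have e2 : EE ((k.2, k.1) : V N) = EE k := by unfold EE; ring
    have e3 : ((k.1, k.2) : V N) = k := rfl
    rw [e1, e2] at h2
    rw [e3] at h1
    have hE : EE k = 2 * (1 - cN k.1) + 2 * (1 - cN k.2) := rfl
    have h3 : Y * (1 - δ) * EE k - 2 * Y / W * ((2 * (1 - cN k.1)) * (2 * (1 - cN k.2))) -
        2 * Y * W ≤ EE k ^ 2 * Ght N b t k := by
      have e4 : EE k ^ 2 * Ght N b t k = (2 * (1 - cN k.1)) * (EE k * Ght N b t k) +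
        (2 * (1 - cN k.2)) * (EE k * Ght N b t k) := by rw [hE]; ring
      rw [e4]
      have e5 : Y * (1 - δ) * EE k - 2 * Y / W * ((2 * (1 - cN k.1)) * (2 * (1 - cN k.2))) -
        2 * Y * W = (Y * (1 - δ) * (2 * (1 - cN k.1)) -
        Y * (2 * (1 - cN k.1)) * (2 * (1 - cN k.2)) / W - Y * W) +
        (Y * (1 - δ) * (2 * (1 - cN k.2)) -
        Y * (2 * (1 - cN k.2)) * (2 * (1 - cN k.1)) / W - Y * W) := by
        rw [hE]; ring
      rw [e5]
      exact add_le_add h1 h2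
    have h4 := mul_le_mul_of_nonneg_right h3 (hsq_nonneg u k)
    linarith
  have h5 := mul_le_mul_of_nonneg_left key hN
  refine le_trans (le_of_eq ?_) h5
  rw [Finset.sum_sub_distrib, Finset.sum_sub_distrib, ← Finset.mul_sum, ← Finset.mul_sum,
    ← Finset.mul_sum]
  ring

/-- the window from the form version -/
theorem win_of_form {t Y e : ℝ} (ht : 0 < t) (hY : 0 < Y)
    (h : ∀ u v : V N → ℝ, t * ∑ x, u x ^ 2 - t ^ 2 * qf (Gm (wt N b t)) u ≤
      e * t * ∑ x, u x ^ 2 + t * ∑ x, (u x - v x) ^ 2 + 1 / Y * grd v) : Win N b t Y e := by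
  intro k
  have hTI := ti_Gm_wt (N := N) (b := b) t
  set lam : ℝ := EE k with hl
  have l0 : 0 ≤ lam := TM.H764.EE_nonneg k
  set r : ℝ := t / (t + lam / Y) with hr
  have hp : 0 < t + lam / Y := by positivity
  have h1 := h (fun x => cN (dt k x)) (fun x => r * cN (dt k x))
  have h2 := h (fun x => sN (dt k x)) (fun x => r * sN (dt k x))
  have w1 := qf_wave hTI k
  rw [sym_Gm_wt] at w1
  have w2 := qf_wave (ti_lapM (N := N)) k
  rw [sym_lapM] at w2
  have w3 := TM.H764.sq_wave k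
  have g1 : ∀ f : V N → ℝ, grd (fun x => r * f x) = r ^ 2 * grd f := by
    intro f
    unfold grd TM.H764.Q
    rw [mul_add, Finset.mul_sum, Finset.mul_sum]
    congr 1
    · exact Finset.sum_congr rfl fun x _ => by ring
    · exact Finset.sum_congr rfl fun x _ => by ring
  have g2 : ∀ f : V N → ℝ, ∑ x, (f x - r * f x) ^ 2 = (1 - r) ^ 2 * ∑ x, f x ^ 2 := by
    intro f
    rw [Finset.mul_sum]
    exact Finset.sum_congr rfl fun x _ => by ring
  rw [g1, g2] at h1 h2
  rw [← qf_lapM] at h1 h2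
  set A1 := ∑ x : V N, cN (dt k x) ^ 2
  set A2 := ∑ x : V N, sN (dt k x) ^ 2
  have hN2 := N_pos (N := N)
  have h3 : t * (N : ℝ) ^ 2 - t ^ 2 * ((N : ℝ) ^ 2 * Ght N b t k) ≤
      e * t * (N : ℝ) ^ 2 + t * ((1 - r) ^ 2 * (N : ℝ) ^ 2) + 1 / Y * (r ^ 2 * ((N : ℝ) ^ 2 * lam)) := by
    rw [← w1, ← w2, ← w3]
    nlinarith [h1, h2]
  have h4 : (N : ℝ) ^ 2 * (t - t ^ 2 * Ght N b t k) ≤
      (N : ℝ) ^ 2 * (e * t + t * (1 - r) ^ 2 + 1 / Y * (r ^ 2 * lam)) := by nlinarith [h3]
  have h5 := le_of_mul_le_mul_left h4 hN2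
  have e6 : t * (1 - r) ^ 2 + 1 / Y * (r ^ 2 * lam) = t - t ^ 2 / (t + lam / Y) := by
    rw [hr]
    field_simp
    ring
  have h6 : t ^ 2 / (t + lam / Y) - e * t ≤ t ^ 2 * Ght N b t k := by linarith
  have h7 : t ^ 2 * (1 / (t + lam / Y) - e / t) ≤ t ^ 2 * Ght N b t k := by
    refine le_trans (le_of_eq ?_) h6
    field_simp
  exact le_of_mul_le_mul_left h7 (by positivity)

end

end Vale.Agent.P159.H856
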