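import Vale.Agent.P159.H30.Tor
import Vale.Agent.P159.H856.Tor

/-!
P159 (helper856), RP bound for the blocks, part 2: the quadratic form of the wired block for a
divergence free field dominates the variance on the massive torus.
-/

set_option linter.unusedSectionVars false

open MeasureTheory Filter Topology

namespace Vale.Agent.P159.H856

open Vale.Agent.P159 Vale.Agent.P159.H353 Vale.Agent.P159.R2.H254
open Vale.Agent.P159.H950
open Vale.Agent.P159.UJ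
open Vale.Agent.P159.H37 (Zs wM qf re Gm wt Ev)
open Vale.Agent.P159.TM.H104 (EM Ex Cv Lg li nh Gr)
open Vale.Agent.P159.H30 (gB gW JW nL)

noncomputable section

section abstract

variable {V : Type*} [Fintype V] [DecidableEq V] {μ : (V → ℤ) → ℝ}

lemma Zs_eq_T (u : V → ℝ) : Zs μ u = TM.H104.T μ 0 fun h => Real.exp (li u h) := by
  unfold H37.Zs TM.H104.T
  refine tsum_congr fun h => ?_
  rw [TM.H104.li_zero, Real.exp_zero]
  ring

lemma Zs_negv (he : Ev μ) (u : V → ℝ) : Zs μ (-u) = Zs μ u := by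
  unfold H37.Zs TM.H104.T
  rw [← (Equiv.neg (V → ℤ)).tsum_eq]
  refine tsum_congr fun h => ?_
  simp only [Equiv.neg_apply]
  rw [he h]
  congr 2
  unfold TM.H104.li
  refine Finset.sum_congr rfl fun x _ => ?_
  simp

/-- the second moment at source zero -/
lemma qf_le_T (hμ : EM μ) (u : V → ℝ) :
    qf (Gm μ) u * Zs μ 0 ≤ TM.H104.T μ 0 fun h => li u h * li u h := by
  have h1 : qf (Gm μ) u = Cv μ 0 (li u) (li u) := H37.RP.qf_Cm_eq hμ 0 u
  have hZ : 0 < TM.H104.T μ 0 fun _ => 1 := TM.H104.T_one_pos hμ 0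
  have h2 : Zs μ 0 = TM.H104.T μ 0 fun _ => 1 := rfl
  rw [h1, h2]
  unfold TM.H104.Cv TM.H104.Ex
  have h3 : 0 ≤ TM.H104.T μ 0 (li u) / (TM.H104.T μ 0 fun _ => 1) *
      (TM.H104.T μ 0 (li u) / (TM.H104.T μ 0 fun _ => 1)) := mul_self_nonneg _
  have h4 : (TM.H104.T μ 0 (fun h => li u h * li u h) / (TM.H104.T μ 0 fun _ => 1) -
      TM.H104.T μ 0 (li u) / (TM.H104.T μ 0 fun _ => 1) *
      (TM.H104.T μ 0 (li u) / (TM.H104.T μ 0 fun _ => 1))) ≤
      TM.H104.T μ 0 (fun h => li u h * li u h) / (TM.H104.T μ 0 fun _ => 1) := by linarith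
  refine (mul_le_mul_of_nonneg_right h4 hZ.le).trans (le_of_eq ?_)
  exact div_mul_cancel₀ _ hZ.ne'

lemma Zs_ge (hμ : EM μ) (he : Ev μ) (u : V → ℝ) :
    (1 + qf (Gm μ) u / 2) * Zs μ 0 ≤ Zs μ u := by
  have h1 := Zs_negv he u
  have g1 : Gr fun h : V → ℤ => Real.exp (li u h) := Gr.exp_li u
  have g2 : Gr fun h : V → ℤ => Real.exp (li (-u) h) := Gr.exp_li (-u)
  have g3 : Gr fun h : V → ℤ => li u h * li u h := (Gr.li u).mul (Gr.li u)
  have h2 : TM.H104.T μ 0 (fun h => 2 * 1 + li u h * li u h) ≤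
      TM.H104.T μ 0 fun h => Real.exp (li u h) + Real.exp (li (-u) h) := by
    refine TM.H104.T_mono hμ (((Gr.const 1).cmul 2).add g3) (g1.add g2) (fun h => ?_) 0
    rw [TM.H104.li_neg]
    have h3 := TM.H968.half_sq_le_cosh (li u h)
    rw [Real.cosh_eq] at h3
    nlinarith
  rw [TM.H104.T_add hμ ((Gr.const 1).cmul 2) g3, TM.H104.T_add hμ g1 g2, TM.H104.T_cmul,
    ← Zs_eq_T, ← Zs_eq_T, h1] at h2
  have h3 := qf_le_T hμ u
  have h4 : Zs μ 0 = TM.H104.T μ 0 fun _ => 1 := rfl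
  rw [← h4] at h2
  linarith

lemma qf_smulv (M : Matrix V V ℝ) (s : ℝ) (u : V → ℝ) : qf M (s • u) = s ^ 2 * qf M u := by
  unfold H37.qf
  rw [Finset.mul_sum]
  refine Finset.sum_congr rfl fun x _ => ?_
  rw [Finset.mul_sum]
  refine Finset.sum_congr rfl fun z _ => ?_
  simp only [Pi.smul_apply, smul_eq_mul]
  ring

/-- comparison of exponential moments gives comparison of the quadratic forms -/
lemma form_le_of_exp (hμ : EM μ) (he : Ev μ) (J : V → ℝ)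
    {G : Type*} [AddCommGroup G] [TopologicalSpace G] [IsTopologicalAddGroup G]
    [CompactSpace G] [SecondCountableTopology G] [MeasurableSpace G] [BorelSpace G]
    (ν : Measure G) [ν.IsAddHaarMeasure] [IsProbabilityMeasure ν]
    {κ : Type*} [Fintype κ] (Jc : κ → ℝ) (χ : κ → Chr G) (hJ0 : ∀ e, 0 ≤ Jc e) (y : κ → ℝ)
    (h : ∀ s : ℝ, 0 < s → Zs μ (s • J) ≤ rho ν Jc χ ((-s) • y) * Zs μ 0) :
    qf (Gm μ) J ≤ Qform ν Jc χ y := by
  obtain ⟨Q, hQ⟩ : ∃ Q, Q = Qform ν Jc χ y := ⟨_, rfl⟩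
  rw [← hQ]
  obtain ⟨S, hS⟩ : ∃ S, ∑ e, Jc e = S := ⟨_, rfl⟩
  have hS0 : 0 ≤ S := by rw [← hS]; exact Finset.sum_nonneg fun e _ => hJ0 e
  obtain ⟨M, hM1, hM⟩ : ∃ M : ℝ, 1 ≤ M ∧ ∀ e, |y e| ≤ M := by
    refine ⟨1 + ∑ e, |y e|, ?_, fun e => ?_⟩
    · have : 0 ≤ ∑ e, |y e| := Finset.sum_nonneg fun e _ => abs_nonneg _
      linarith
    · have := Finset.single_le_sum (f := fun e => |y e|) (fun e _ => abs_nonneg _)
        (Finset.mem_univ e)
      linarith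
  have hZ0 : 0 < Zs μ 0 := TM.H104.T_one_pos hμ 0
  obtain ⟨K, hK⟩ : ∃ K, K = S + 6 * S ^ 2 + 4 * S ^ 3 + 16 * S ^ 4 := ⟨_, rfl⟩
  have hK0 : 0 ≤ K := by rw [hK]; positivity
  have key : ∀ u : ℝ, 0 < u → u * M ≤ 1 → 2 * S * (u * M) ≤ 1 →
      qf (Gm μ) J ≤ Q + 2 * K * M ^ 4 * u ^ 2 := by
    intro u hu c1 c2
    have l1 := Zs_ge hμ he (u • J)
    rw [qf_smulv] at l1
    have l3 := h u hu
    have l4 := rho_second ν Jc χ hJ0 hS ((-u) • y) (Y := u * M)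
      c1 c2 (fun e => by
        rw [Pi.smul_apply, smul_eq_mul, abs_mul, abs_neg, abs_of_pos hu]
        exact mul_le_mul_of_nonneg_left (hM e) hu.le) (by positivity)
    rw [Qform_smul, ← hQ, ← hK] at l4
    have l5 : (1 + u ^ 2 * qf (Gm μ) J / 2) * Zs μ 0 ≤
        (1 + (-u) ^ 2 * Q / 2 + K * (u * M) ^ 4) * Zs μ 0 :=
      l1.trans (l3.trans (mul_le_mul_of_nonneg_right l4 hZ0.le))
    have l6 := le_of_mul_le_mul_right l5 hZ0
    have hu2 : 0 < u ^ 2 := by positivity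
    have l7 : u ^ 2 * qf (Gm μ) J ≤ u ^ 2 * (Q + 2 * K * M ^ 4 * u ^ 2) := by
      nlinarith only [l6]
    exact le_of_mul_le_mul_left l7 hu2
  have htend : Tendsto (fun n : ℕ => (2 : ℝ)⁻¹ ^ n) atTop (𝓝 0) :=
    tendsto_pow_atTop_nhds_zero_of_lt_one (by norm_num) (by norm_num)
  have hlim : Tendsto (fun n : ℕ => Q + 2 * K * M ^ 4 * ((2 : ℝ)⁻¹ ^ n) ^ 2) atTop
      (𝓝 (Q + 2 * K * M ^ 4 * 0 ^ 2)) :=
    tendsto_const_nhds.add (tendsto_const_nhds.mul (htend.pow 2))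
  have c1 := (htend.mul_const M).eventually (ge_mem_nhds (by norm_num : (0:ℝ) * M < 1))
  have c2 := ((htend.mul_const M).const_mul (2 * S)).eventually
    (ge_mem_nhds (by norm_num : 2 * S * ((0:ℝ) * M) < 1))
  have := ge_of_tendsto hlim (by
    filter_upwards [c1, c2] with n h1 h2
    exact key _ (by positivity) h1 h2)
  simpa using this

end abstract

/-! ### the free box and the wired block -/

/-- the free box of heights and the wired block of spins -/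
lemma hE_eq_rho {N : ℕ} {b : ℝ} (hb : 0 < b) (α β : ℤ × ℤ → ℝ)
    (h1 : ∀ i : ℤ, α (i, 0) = 0) (h2 : ∀ i : ℤ, α (i, ((N + 1 : ℕ) : ℤ)) = 0)
    (h3 : ∀ j : ℤ, β (0, j) = 0) (h4 : ∀ j : ℤ, β (((N + 1 : ℕ) : ℤ), j) = 0) (s : ℝ) :
    TM.H968.hE N b (fun h => Real.exp (TM.H968.lin (s • (tE α β : Eb N → ℝ)) h)) =
      rho muInf (fun _ : KR (blk 0 (N + 1)) => b / 2) (chiR (blk 0 (N + 1)))
        ((-s) • tG α β (N + 1)) := by
  have hbd : ∀ w : ℂ, bdE (N + 1) b α β w = bdE (N + 1) b α β 0 := by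
    intro w
    unfold bdE
    refine Finset.sum_congr rfl fun i _ => ?_
    rw [h1, h2, h3, h4]
    simp
  have hZl := Zl_imag muInf (fun _ : KR (blk 0 (N + 1)) => b / 2) (chiR (blk 0 (N + 1))) G_div2
    (half_nonneg' hb.le (blk 0 (N + 1))) (tG α β (N + 1)) (-s)
  have hZ0 := Zl_zero muInf (fun _ : KR (blk 0 (N + 1)) => b / 2) (chiR (blk 0 (N + 1)))
    (tG α β (N + 1))
  rw [← hZ0, Zl_gauge, Zl_gauge, gaugeZC_eq, gaugeZC_eq, hbd (((-s : ℝ) : ℂ) * Complex.I),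
    mul_div_mul_left _ _ (Complex.exp_ne_zero _)] at hZl
  have e0 : (fun e : Eb N => (0 : ℂ) * ((tE α β e : ℝ) : ℂ)) = 0 := by
    funext e; simp
  have es : (fun e : Eb N => ((-s : ℝ) : ℂ) * Complex.I * ((tE α β e : ℝ) : ℂ)) =
      fun e => -Complex.I * (((s • (tE α β : Eb N → ℝ)) e : ℝ) : ℂ) := by
    funext e
    simp only [Pi.smul_apply, smul_eq_mul]
    push_cast
    ring
  rw [e0, TM.H968.ZC_zero, es] at hZl
  unfold TM.H968.hE
  rw [(TM.H968.hasSum_lin hb.le (s • (tE α β : Eb N → ℝ))).tsum_eq, TM.H968.tsum_hWt_eq N hb.le]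
  have h5 := congrArg Complex.re hZl
  rw [Complex.div_ofReal_re, Complex.ofReal_re] at h5
  exact h5

/-- the torus with the source `s • (- Laplacian u)` -/
lemma Zs_nL (N : ℕ) {b t : ℝ} (hb : 0 < b) (ht : 0 < t) (u : ZMod (N + 1) × ZMod (N + 1) → ℝ)
    (hw : ∀ f, gW u f = 0) {s : ℝ} (hs : 0 < s) :
    Zs (wt (N + 1) b t) (s • nL u) ≤
      TM.H968.hE N b (fun h => Real.exp (TM.H968.lin (s • (gB u : Eb N → ℝ)) h)) *
        Zs (wt (N + 1) b t) (0 : TM.SpecC.Tor (N + 1) → ℝ) := by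
  have h := H30.torus_le N hb ht (fun x => 0 * u x) (fun e => (s⁻¹)⁻¹ * gB u e)
    fun f => (s⁻¹)⁻¹ * gW u f
  have eJ : (s • nL u) = JW 0 s⁻¹ u := by
    funext x
    unfold H30.JW
    rw [inv_inv, Pi.smul_apply, smul_eq_mul]
    ring
  have e2 : ∑' h : Fa N → ℤ, H30.wtor N b t h * Real.exp (TM.H22.lin (0 : Fa N → ℝ) h) =
      ∑' h, H30.wtor N b t h := tsum_congr fun h => by rw [TM.H22.lin_zero, Real.exp_zero, mul_one]
  have g1 : Zs (wt (N + 1) b t) (JW 0 s⁻¹ u) = ∑' h, H30.wtor N b t h *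
      Real.exp (TM.H22.lin (fun x => 0 * u x) h +
        TM.H22.lin (fun e => (s⁻¹)⁻¹ * gB u e) (H30.curH N h) +
        TM.H22.lin (fun f => (s⁻¹)⁻¹ * gW u f) (H30.wrapH N h)) := by
    refine (H30.Zs_eq N b t _).trans (tsum_congr fun h => ?_)
    exact congrArg (fun z => H30.wtor N b t h * Real.exp z) (H30.lin_JW N 0 s⁻¹ u h)
  have g0 : Zs (wt (N + 1) b t) (0 : TM.SpecC.Tor (N + 1) → ℝ) = ∑' h, H30.wtor N b t h :=
    (H30.Zs_eq N b t _).trans e2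
  have e5 : (∑ x : Fa N, (0 * u x) ^ 2) / (2 * t) = 0 := by simp
  have e6 : ∑ f : H30.Ew N, b * (Real.cosh ((s⁻¹)⁻¹ * gW u f) - 1) = 0 := by
    refine Finset.sum_eq_zero fun f _ => ?_
    rw [hw f, mul_zero, Real.cosh_zero, sub_self, mul_zero]
  have e7 : (fun e : Eb N => (s⁻¹)⁻¹ * gB u e) = s • (gB u : Eb N → ℝ) := by
    funext e
    rw [inv_inv, Pi.smul_apply, smul_eq_mul]
  rw [e5, e6, Real.exp_zero, one_mul, mul_one] at h
  rw [eJ, g1, g0]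
  rw [e7] at h ⊢
  exact h

/-- the block dominates the torus -/
theorem blk_ge_tor {N : ℕ} {b t : ℝ} (hb : 0 < b) (ht : 0 < t) (α β : ℤ × ℤ → ℝ)
    (h1 : ∀ i : ℤ, α (i, 0) = 0) (h2 : ∀ i : ℤ, α (i, ((N + 1 : ℕ) : ℤ)) = 0)
    (h3 : ∀ j : ℤ, β (0, j) = 0) (h4 : ∀ j : ℤ, β (((N + 1 : ℕ) : ℤ), j) = 0)
    (u : ZMod (N + 1) × ZMod (N + 1) → ℝ) (hw : ∀ f, gW u f = 0)
    (hu : ∀ e : Eb N, gB u e = tE α β e) :
    qf (Gm (wt (N + 1) b t)) (nL u) ≤
      Qform muInf (fun _ : KR (blk 0 (N + 1)) => b / 2) (chiR (blk 0 (N + 1)))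
        (tG α β (N + 1)) := by
  have hμ : EM (wt (N + 1) b t) := H864.em_wt hb.le ht
  have hev : Ev (wt (N + 1) b t) := H864.ev_wt t
  refine form_le_of_exp hμ hev (nL u) muInf (fun _ : KR (blk 0 (N + 1)) => b / 2)
    (chiR (blk 0 (N + 1))) (half_nonneg' hb.le _) (tG α β (N + 1)) fun s hs => ?_
  have h5 := Zs_nL N hb ht u hw hs
  have e : (gB u : Eb N → ℝ) = tE α β := funext hu
  rw [e, hE_eq_rho hb α β h1 h2 h3 h4 s] at h5
  exact h5

end

end Vale.Agent.P159.H856
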