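import Vale.Agent.P159.H856.Arr
import Vale.Agent.P159.H856.Emb

/-!
P159 (helper856), RP bound for the blocks, part 6: the smooth cut-off of the array of diamonds.
-/

set_option linter.all false

open scoped BigOperators

namespace Vale.Agent.P159.H856

open Vale.Agent.P159 Vale.Agent.P159.UJ Vale.Agent.P159.H950

noncomputable section

/-! ### the triangle wave -/

/-- one period of the triangle wave -/
def G0 (p r : ℤ) : ℝ := if r < p then (p : ℝ) / 2 - (r + 1 / 2) else (r + 1 / 2) - 3 * p / 2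

/-- the triangle wave -/
def tri (p x : ℤ) : ℝ := G0 p (x % (2 * p))

theorem tri_of {p r : ℤ} (k : ℤ) (h0 : 0 ≤ r) (h1 : r < 2 * p) :
    tri p (r + 2 * p * k) = G0 p r := by
  unfold tri
  rw [Int.add_mul_emod_self_left, Int.emod_eq_of_lt h0 h1]

theorem tri_sub {p : ℤ} (hp : 0 < p) (x : ℤ) : tri p (x - 1) - tri p x = sqw p x := by
  obtain ⟨r, k, h0, h1, rfl⟩ := wave_rep hp x
  rw [sqw_of k h0 h1, tri_of k h0 h1]
  by_cases hr : r = 0
  · subst hr
    rw [show 0 + 2 * p * k - 1 = (2 * p - 1) + 2 * p * (k - 1) by ring,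
      tri_of (k - 1) (by omega) (by omega)]
    unfold G0 g0
    rw [if_neg (by omega), if_pos hp, if_pos (by omega)]
    push_cast
    ring
  · rw [show r + 2 * p * k - 1 = (r - 1) + 2 * p * k by ring, tri_of k (by omega) (by omega)]
    unfold G0 g0
    by_cases h : r = p
    · subst h
      rw [if_pos (by omega), if_neg (by omega), if_pos (by omega)]
      push_cast
      ring
    · by_cases h2 : r < p
      · rw [if_pos (by omega), if_pos (by omega), if_neg (by omega), if_pos h2]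
        push_cast
        ring
      · rw [if_neg (by omega), if_neg (by omega), if_neg (by omega), if_neg h2]
        push_cast
        ring

theorem tri_abs {p : ℤ} (hp : 0 < p) (x : ℤ) : |tri p x| ≤ (p : ℝ) / 2 := by
  obtain ⟨r, k, h0, h1, rfl⟩ := wave_rep hp x
  rw [tri_of k h0 h1]
  have r0 : (0 : ℝ) ≤ r := by exact_mod_cast h0
  unfold G0
  rw [abs_le]
  by_cases h : r < p
  · rw [if_pos h]
    have : (r : ℝ) + 1 ≤ p := by exact_mod_cast h
    constructor <;> linarith
  · rw [if_neg h]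
    have h3 : (p : ℝ) ≤ r := by exact_mod_cast (not_lt.1 h)
    have h4 : (r : ℝ) + 1 ≤ 2 * p := by exact_mod_cast h1
    constructor <;> linarith

/-- stream function of the infinite array -/
def Tri (p : ℤ) (c : ℤ × ℤ) : ℝ := tri p c.1 + tri p c.2

theorem Tri_abs {p : ℤ} (hp : 0 < p) (c : ℤ × ℤ) : |Tri p c| ≤ p := by
  have h1 := tri_abs hp c.1
  have h2 := tri_abs hp c.2
  have h3 := abs_add_le (tri p c.1) (tri p c.2)
  unfold Tri
  linarith

/-! ### the cut-off -/

/-- distance of the face from the boundary of the rotated square -/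
def rh (p s : ℤ) (c : ℤ × ℤ) : ℤ :=
  min (min (c.1 + c.2 + 1 + p) (s - (c.1 + c.2 + 1))) (min (c.1 - c.2 + p) (s - (c.1 - c.2)))

/-- the cut-off -/
def chz (p s K : ℤ) (c : ℤ × ℤ) : ℤ := max 0 (min K (rh p s c))

/-- the cut-off, real valued -/
def chi (p s K : ℤ) (c : ℤ × ℤ) : ℝ := (chz p s K c : ℝ) / K

theorem chz_lip (p s K : ℤ) (c d : ℤ × ℤ) {m : ℤ} (h1 : |c.1 + c.2 - (d.1 + d.2)| ≤ m)
    (h2 : |c.1 - c.2 - (d.1 - d.2)| ≤ m) : |chz p s K c - chz p s K d| ≤ m := by
  rw [abs_le] at h1 h2 ⊢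
  unfold chz rh
  omega

theorem chi_lip {p s K : ℤ} (hK : 0 < K) (c d : ℤ × ℤ) {m : ℤ}
    (h1 : |c.1 + c.2 - (d.1 + d.2)| ≤ m) (h2 : |c.1 - c.2 - (d.1 - d.2)| ≤ m) :
    |chi p s K c - chi p s K d| ≤ (m : ℝ) / K := by
  have h := chz_lip p s K c d h1 h2
  have hK' : (0 : ℝ) < K := by exact_mod_cast hK
  unfold chi
  rw [← sub_div, abs_div, abs_of_pos hK']
  have h3 : |(chz p s K c : ℝ) - (chz p s K d : ℝ)| ≤ m := by exact_mod_cast h
  gcongr

theorem chi_nonneg {p s K : ℤ} (hK : 0 < K) (c : ℤ × ℤ) : 0 ≤ chi p s K c := by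
  have hK' : (0 : ℝ) < K := by exact_mod_cast hK
  unfold chi chz
  have : (0 : ℤ) ≤ max 0 (min K (rh p s c)) := le_max_left _ _
  have h2 : (0 : ℝ) ≤ ((max 0 (min K (rh p s c)) : ℤ) : ℝ) := by exact_mod_cast this
  positivity

theorem chi_le_one {p s K : ℤ} (hK : 0 < K) (c : ℤ × ℤ) : chi p s K c ≤ 1 := by
  have hK' : (0 : ℝ) < K := by exact_mod_cast hK
  unfold chi
  rw [div_le_one hK']
  have : chz p s K c ≤ K := by unfold chz; omega
  exact_mod_cast this

theorem chi_zero {p s K : ℤ} {c : ℤ × ℤ} (h : rh p s c ≤ 0) : chi p s K c = 0 := by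
  have : chz p s K c = 0 := by unfold chz; omega
  unfold chi
  rw [this]
  simp

theorem chi_one {p s K : ℤ} (hK : 0 < K) {c : ℤ × ℤ} (h : K ≤ rh p s c) : chi p s K c = 1 := by
  have hK' : (0 : ℝ) < K := by exact_mod_cast hK
  have : chz p s K c = K := by unfold chz; omega
  unfold chi
  rw [this]
  exact div_self hK'.ne'

/-- stream function of the cut array -/
def psi (p s K : ℤ) (c : ℤ × ℤ) : ℝ := chi p s K c * Tri p c

theorem psi_abs {p s K : ℤ} (hp : 0 < p) (hK : 0 < K) (c : ℤ × ℤ) : |psi p s K c| ≤ p := by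
  unfold psi
  rw [abs_mul, abs_of_nonneg (chi_nonneg hK c)]
  have h1 := chi_le_one (p := p) (s := s) hK c
  have h2 := Tri_abs hp c
  have h3 := chi_nonneg (p := p) (s := s) hK c
  have h4 := abs_nonneg (Tri p c)
  nlinarith

theorem psi_supp {p s K : ℤ} {c : ℤ × ℤ} (h : psi p s K c ≠ 0) : 0 < rh p s c := by
  by_contra h1
  apply h
  unfold psi
  rw [chi_zero (by omega), zero_mul]

theorem psi_D12 {p s K : ℤ} (hp : 0 < p) (hK : 0 < K) (c : ℤ × ℤ) :
    |D12 (psi p s K) c| ≤ 4 * p / K := by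
  have hK' : (0 : ℝ) < K := by exact_mod_cast hK
  have hp' : (0 : ℝ) < p := by exact_mod_cast hp
  have e0 : Tri p (c + (1, 1)) - Tri p (c + (1, 0)) - Tri p (c + (0, 1)) + Tri p c = 0 := by
    unfold Tri
    simp only [Prod.fst_add, Prod.snd_add, add_zero]
    ring
  have e1 : D12 (psi p s K) c = (chi p s K (c + (1, 1)) - chi p s K c) * Tri p (c + (1, 1)) -
      (chi p s K (c + (1, 0)) - chi p s K c) * Tri p (c + (1, 0)) -
      (chi p s K (c + (0, 1)) - chi p s K c) * Tri p (c + (0, 1)) := by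
    unfold D12 psi
    linear_combination chi p s K c * e0
  have l1 : |chi p s K (c + (1, 1)) - chi p s K c| ≤ ((2 : ℤ) : ℝ) / K := by
    refine chi_lip hK _ _ ?_ ?_
    · simp only [Prod.fst_add, Prod.snd_add]
      rw [abs_le]; omega
    · simp only [Prod.fst_add, Prod.snd_add]
      rw [abs_le]; omega
  have l2 : |chi p s K (c + (1, 0)) - chi p s K c| ≤ ((1 : ℤ) : ℝ) / K := by
    refine chi_lip hK _ _ ?_ ?_
    · simp only [Prod.fst_add, Prod.snd_add]
      rw [abs_le]; omega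
    · simp only [Prod.fst_add, Prod.snd_add]
      rw [abs_le]; omega
  have l3 : |chi p s K (c + (0, 1)) - chi p s K c| ≤ ((1 : ℤ) : ℝ) / K := by
    refine chi_lip hK _ _ ?_ ?_
    · simp only [Prod.fst_add, Prod.snd_add]
      rw [abs_le]; omega
    · simp only [Prod.fst_add, Prod.snd_add]
      rw [abs_le]; omega
  have t : ∀ d, |Tri p d| ≤ p := Tri_abs hp
  have m1 := mul_le_mul l1 (t (c + (1, 1))) (abs_nonneg _) (by positivity)
  have m2 := mul_le_mul l2 (t (c + (1, 0))) (abs_nonneg _) (by positivity)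
  have m3 := mul_le_mul l3 (t (c + (0, 1))) (abs_nonneg _) (by positivity)
  rw [← abs_mul] at m1 m2 m3
  rw [e1]
  have a1 := abs_sub ((chi p s K (c + (1, 1)) - chi p s K c) * Tri p (c + (1, 1)) -
      (chi p s K (c + (1, 0)) - chi p s K c) * Tri p (c + (1, 0)))
      ((chi p s K (c + (0, 1)) - chi p s K c) * Tri p (c + (0, 1)))
  have a2 := abs_sub ((chi p s K (c + (1, 1)) - chi p s K c) * Tri p (c + (1, 1)))
      ((chi p s K (c + (1, 0)) - chi p s K c) * Tri p (c + (1, 0)))
  have e2 : (4 : ℝ) * p / K = ((2 : ℤ) : ℝ) / K * p + ((1 : ℤ) : ℝ) / K * p +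
      ((1 : ℤ) : ℝ) / K * p := by
    push_cast
    ring
  rw [e2]
  linarith

/-- the rim -/
def rimI (p s K : ℤ) (v : ℤ × ℤ) : ℝ := if 0 ≤ rh p s v ∧ rh p s v < K then 1 else 0

theorem rimI_nonneg (p s K : ℤ) (v : ℤ × ℤ) : 0 ≤ rimI p s K v := by
  unfold rimI; split_ifs <;> norm_num

theorem sq_two {x y a d : ℝ} (hx : x ^ 2 ≤ a) (hy : y ^ 2 ≤ d) : (x + y) ^ 2 ≤ 2 * a + 2 * d := by
  nlinarith [sq_nonneg (x - y)]

theorem diff_h {p s K : ℤ} (hp : 0 < p) (hK : 0 < K) (v : ℤ × ℤ) :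
    (aS (psi p s K) v - aH p s s v) ^ 2 ≤ 2 * rimI p s K v + 2 * ((p : ℝ) / K) ^ 2 := by
  have hK' : (0 : ℝ) < K := by exact_mod_cast hK
  have hp' : (0 : ℝ) < p := by exact_mod_cast hp
  have e0 : Tri p v - Tri p (v - (0, 1)) = -sqw p v.2 := by
    have h := tri_sub hp v.2
    unfold Tri
    simp only [Prod.fst_sub, Prod.snd_sub, sub_zero]
    linarith
  set I : ℝ := if (-p ≤ v.1 + v.2 ∧ v.1 + v.2 < s) ∧ (-p ≤ v.1 - v.2 ∧ v.1 - v.2 < s) then 1 else 0
    with hI
  have e1 : aH p s s v = I * (-sqw p v.2) := by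
    unfold aH
    rw [hI]
    split_ifs <;> simp
  have e2 : aS (psi p s K) v - aH p s s v = (chi p s K v - I) * (-sqw p v.2) +
      (chi p s K v - chi p s K (v - (0, 1))) * Tri p (v - (0, 1)) := by
    rw [e1]
    unfold aS psi
    linear_combination chi p s K v * e0
  rw [e2]
  refine sq_two ?_ ?_
  · rw [mul_pow, neg_sq]
    have h1 : (chi p s K v - I) ^ 2 ≤ rimI p s K v := by
      have c0 := chi_nonneg (p := p) (s := s) hK v
      have c1 := chi_le_one (p := p) (s := s) hK v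
      unfold rimI
      by_cases h : (-p ≤ v.1 + v.2 ∧ v.1 + v.2 < s) ∧ (-p ≤ v.1 - v.2 ∧ v.1 - v.2 < s)
      · have hI1 : I = 1 := by rw [hI, if_pos h]
        have h3 : 0 ≤ rh p s v := by unfold rh; omega
        by_cases h4 : rh p s v < K
        · rw [if_pos ⟨h3, h4⟩, hI1]
          nlinarith
        · rw [if_neg (by omega), hI1, chi_one hK (by omega)]
          norm_num
      · have hI0 : I = 0 := by rw [hI, if_neg h]
        rw [hI0, chi_zero (by unfold rh; omega)]
        split_ifs <;> norm_num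
    have h2 := sqw_sq p v.2
    have h3 := sq_nonneg (chi p s K v - I)
    have h4 := sq_nonneg (sqw p v.2)
    have h5 := rimI_nonneg p s K v
    calc (chi p s K v - I) ^ 2 * sqw p v.2 ^ 2 ≤ rimI p s K v * 1 := by gcongr
      _ = _ := mul_one _
  · have l1 : |chi p s K v - chi p s K (v - (0, 1))| ≤ ((1 : ℤ) : ℝ) / K := by
      refine chi_lip hK _ _ ?_ ?_
      · simp only [Prod.fst_sub, Prod.snd_sub]
        rw [abs_le]; omega
      · simp only [Prod.fst_sub, Prod.snd_sub]
        rw [abs_le]; omega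
    have m1 := mul_le_mul l1 (Tri_abs hp (v - (0, 1))) (abs_nonneg _) (by positivity)
    rw [← abs_mul] at m1
    rw [← sq_abs]
    have e3 : ((1 : ℤ) : ℝ) / K * p = (p : ℝ) / K := by push_cast; ring
    rw [e3] at m1
    gcongr

theorem diff_v {p s K : ℤ} (hp : 0 < p) (hK : 0 < K) (v : ℤ × ℤ) :
    (bS (psi p s K) v - aV p s s v) ^ 2 ≤ 2 * rimI p s K v + 2 * ((p : ℝ) / K) ^ 2 := by
  have hK' : (0 : ℝ) < K := by exact_mod_cast hK
  have hp' : (0 : ℝ) < p := by exact_mod_cast hp
  have e0 : Tri p (v - (1, 0)) - Tri p v = sqw p v.1 := by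
    have h := tri_sub hp v.1
    unfold Tri
    simp only [Prod.fst_sub, Prod.snd_sub, sub_zero]
    linarith
  set I : ℝ := if (-p ≤ v.1 + v.2 ∧ v.1 + v.2 < s) ∧ (-p < v.1 - v.2 ∧ v.1 - v.2 ≤ s) then 1 else 0
    with hI
  have e1 : aV p s s v = I * sqw p v.1 := by
    unfold aV
    rw [hI]
    split_ifs <;> simp
  have e2 : bS (psi p s K) v - aV p s s v = (chi p s K v - I) * sqw p v.1 +
      (chi p s K (v - (1, 0)) - chi p s K v) * Tri p (v - (1, 0)) := by
    rw [e1]
    unfold bS psi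
    linear_combination chi p s K v * e0
  rw [e2]
  refine sq_two ?_ ?_
  · rw [mul_pow]
    have h1 : (chi p s K v - I) ^ 2 ≤ rimI p s K v := by
      have c0 := chi_nonneg (p := p) (s := s) hK v
      have c1 := chi_le_one (p := p) (s := s) hK v
      unfold rimI
      by_cases h : (-p ≤ v.1 + v.2 ∧ v.1 + v.2 < s) ∧ (-p < v.1 - v.2 ∧ v.1 - v.2 ≤ s)
      · have hI1 : I = 1 := by rw [hI, if_pos h]
        have h3 : 0 ≤ rh p s v := by unfold rh; omega
        by_cases h4 : rh p s v < K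
        · rw [if_pos ⟨h3, h4⟩, hI1]
          nlinarith
        · rw [if_neg (by omega), hI1, chi_one hK (by omega)]
          norm_num
      · have hI0 : I = 0 := by rw [hI, if_neg h]
        rw [hI0, chi_zero (by unfold rh; omega)]
        split_ifs <;> norm_num
    have h2 := sqw_sq p v.1
    have h3 := sq_nonneg (chi p s K v - I)
    have h4 := sq_nonneg (sqw p v.1)
    have h5 := rimI_nonneg p s K v
    calc (chi p s K v - I) ^ 2 * sqw p v.1 ^ 2 ≤ rimI p s K v * 1 := by gcongr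
      _ = _ := mul_one _
  · have l1 : |chi p s K (v - (1, 0)) - chi p s K v| ≤ ((1 : ℤ) : ℝ) / K := by
      refine chi_lip hK _ _ ?_ ?_
      · simp only [Prod.fst_sub, Prod.snd_sub]
        rw [abs_le]; omega
      · simp only [Prod.fst_sub, Prod.snd_sub]
        rw [abs_le]; omega
    have m1 := mul_le_mul l1 (Tri_abs hp (v - (1, 0))) (abs_nonneg _) (by positivity)
    rw [← abs_mul] at m1
    rw [← sq_abs]
    have e3 : ((1 : ℤ) : ℝ) / K * p = (p : ℝ) / K := by push_cast; ring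
    rw [e3] at m1
    gcongr

/-! ### counting -/

theorem strip_count (q : ℤ × ℤ) (M : ℕ) (K : ℕ) (g : ℤ × ℤ → ℤ)
    (hg : ∀ c d : ℤ × ℤ, c.1 = d.1 → g c = g d → c.2 = d.2) :
    ∑ c ∈ blk q M, (if 0 ≤ g c ∧ g c < K then (1 : ℝ) else 0) ≤ K * M := by
  classical
  rw [Finset.sum_ite, Finset.sum_const_zero, add_zero, Finset.sum_const, nsmul_eq_mul, mul_one]
  have h : ((blk q M).filter fun c => 0 ≤ g c ∧ g c < K).card ≤
      (Finset.Ico q.1 (q.1 + M) ×ˢ Finset.Ico (0 : ℤ) K).card := by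
    refine Finset.card_le_card_of_injOn (fun c => (c.1, g c)) ?_ ?_
    · intro c hc
      have hc' := Finset.mem_filter.1 (Finset.mem_coe.1 hc)
      have h1 := mem_blk.1 hc'.1
      refine Finset.mem_coe.2 (Finset.mem_product.2 ⟨Finset.mem_Ico.2 ?_, Finset.mem_Ico.2 ?_⟩)
      · exact ⟨h1.1, h1.2.1⟩
      · exact hc'.2
    · intro c _ d _ h1
      simp only [Prod.mk.injEq] at h1
      exact Prod.ext h1.1 (hg c d h1.1 h1.2)
  rw [Finset.card_product, Int.card_Ico, Int.card_Ico] at h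
  simp only [add_sub_cancel_left, Int.toNat_natCast, sub_zero] at h
  have h2 : (((blk q M).filter fun c => 0 ≤ g c ∧ g c < K).card : ℝ) ≤ ((M * K : ℕ) : ℝ) := by
    exact_mod_cast h
  push_cast at h2
  linarith

theorem rim_count (p s : ℤ) (K : ℕ) (q o : ℤ × ℤ) (M : ℕ) :
    ∑ c ∈ blk q M, rimI p s K (c + o) ≤ 4 * (K * M) := by
  classical
  have h1 : ∀ c : ℤ × ℤ, rimI p s K (c + o) ≤
      (if 0 ≤ (c + o).1 + (c + o).2 + 1 + p ∧ (c + o).1 + (c + o).2 + 1 + p < K then (1 : ℝ) else 0) +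
      (if 0 ≤ s - ((c + o).1 + (c + o).2 + 1) ∧ s - ((c + o).1 + (c + o).2 + 1) < K then (1 : ℝ) else 0) +
      (if 0 ≤ (c + o).1 - (c + o).2 + p ∧ (c + o).1 - (c + o).2 + p < K then (1 : ℝ) else 0) +
      (if 0 ≤ s - ((c + o).1 - (c + o).2) ∧ s - ((c + o).1 - (c + o).2) < K then (1 : ℝ) else 0) := by
    intro c
    unfold rimI rh
    generalize (c + o).1 = x
    generalize (c + o).2 = y
    split_ifs <;> first | (exfalso; omega) | norm_num
  refine (Finset.sum_le_sum fun c _ => h1 c).trans ?_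
  rw [Finset.sum_add_distrib, Finset.sum_add_distrib, Finset.sum_add_distrib]
  have s1 := strip_count q M K (fun c => (c + o).1 + (c + o).2 + 1 + p) (by
    intro c d e1 e2
    simp only [Prod.fst_add, Prod.snd_add] at e2
    omega)
  have s2 := strip_count q M K (fun c => s - ((c + o).1 + (c + o).2 + 1)) (by
    intro c d e1 e2
    simp only [Prod.fst_add, Prod.snd_add] at e2
    omega)
  have s3 := strip_count q M K (fun c => (c + o).1 - (c + o).2 + p) (by
    intro c d e1 e2
    simp only [Prod.fst_add, Prod.snd_add] at e2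
    omega)
  have s4 := strip_count q M K (fun c => s - ((c + o).1 - (c + o).2)) (by
    intro c d e1 e2
    simp only [Prod.fst_add, Prod.snd_add] at e2
    omega)
  beta_reduce at s1 s2 s3 s4
  linarith

/-- the cut array is close to the array -/
theorem nG_diff {p s : ℤ} (hp : 0 < p) {K : ℕ} (hK : 0 < K) (q : ℤ × ℤ) (M : ℕ) :
    nG (blk q M) (sF (psi p s K) - arr p s s) ≤ 32 * (K * M) + 8 * ((p : ℝ) / K) ^ 2 * (M : ℝ) ^ 2 := by
  have hKz : (0 : ℤ) < (K : ℤ) := by exact_mod_cast hK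
  rw [nG_blk]
  have h1 : ∀ z ∈ blk q M, ∑ t : Bool × Bool, (sF (psi p s K) - arr p s s) t z ^ 2 ≤
      2 * (rimI p s K (z + (0, 0)) + rimI p s K (z + (0, 1)) + rimI p s K (z + (0, 0)) +
        rimI p s K (z + (1, 0))) + 8 * ((p : ℝ) / K) ^ 2 := by
    intro z _
    rw [Fintype.sum_prod_type]
    simp only [Fintype.sum_bool]
    have a1 : (sF (psi p s K) - arr p s s) (false, false) z ^ 2 ≤
        2 * rimI p s K (z + (0, 0)) + 2 * ((p : ℝ) / K) ^ 2 := by
      have h := diff_h (s := s) hp hKz (hu z (false, false))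
      have e : hu z (false, false) = z + (0, 0) := by unfold hu; ext <;> simp
      rw [← e]
      push_cast at h
      exact h
    have a2 : (sF (psi p s K) - arr p s s) (false, true) z ^ 2 ≤
        2 * rimI p s K (z + (0, 1)) + 2 * ((p : ℝ) / K) ^ 2 := by
      have h := diff_h (s := s) hp hKz (hu z (false, true))
      have e : hu z (false, true) = z + (0, 1) := by unfold hu; ext <;> simp
      rw [← e]
      push_cast at h
      exact h
    have a3 : (sF (psi p s K) - arr p s s) (true, false) z ^ 2 ≤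
        2 * rimI p s K (z + (0, 0)) + 2 * ((p : ℝ) / K) ^ 2 := by
      have h := diff_v (s := s) hp hKz (hu z (true, false))
      have e : hu z (true, false) = z + (0, 0) := by unfold hu; ext <;> simp
      rw [← e]
      push_cast at h
      exact h
    have a4 : (sF (psi p s K) - arr p s s) (true, true) z ^ 2 ≤
        2 * rimI p s K (z + (1, 0)) + 2 * ((p : ℝ) / K) ^ 2 := by
      have h := diff_v (s := s) hp hKz (hu z (true, true))
      have e : hu z (true, true) = z + (1, 0) := by unfold hu; ext <;> simp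
      rw [← e]
      push_cast at h
      exact h
    linarith
  refine (Finset.sum_le_sum h1).trans ?_
  rw [Finset.sum_add_distrib, ← Finset.mul_sum, Finset.sum_add_distrib, Finset.sum_add_distrib,
    Finset.sum_add_distrib, Finset.sum_const, card_blk, nsmul_eq_mul]
  have r1 := rim_count p s K q (0, 0) M
  have r2 := rim_count p s K q (0, 1) M
  have r3 := rim_count p s K q (1, 0) M
  push_cast
  linarith

end

end Vale.Agent.P159.H856
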