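import Mathlib

/-!
P159 / S list, 270's Ed4 (helper856), part 1: the abstract lemma for the zero background number
`Δ = log C + E(D)`.  `ν` = law of the field, `W = Psi / C`, `l` = linear functional, `X` = the
symmetric part at amplitude `s`.
-/

namespace Vale.Agent.P159.H856

open MeasureTheory

noncomputable section

lemma exp_div_le {x K s : ℝ} (hs : 1 ≤ s) :
    Real.exp (x / s) ≤ Real.exp (K / s) * ((1 - 1 / s) + (1 / s) * Real.exp (x - K)) := by
  have h0 : 0 ≤ 1 / s := by positivity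
  have h1 : 0 ≤ 1 - 1 / s := sub_nonneg.2 ((div_le_one (by positivity)).2 hs)
  have h := convexOn_exp.2 (Set.mem_univ (0 : ℝ)) (Set.mem_univ (x - K)) h1 h0 (by ring)
  simp only [smul_eq_mul, mul_zero, zero_add, Real.exp_zero, mul_one] at h
  have e : x / s = K / s + 1 / s * (x - K) := by ring
  rw [e, Real.exp_add]
  exact mul_le_mul_of_nonneg_left h (Real.exp_pos _).le

/-- `l⁻ e^{l} ≤ 1` for negative `l` -/
lemma neg_mul_exp_le (x : ℝ) : max (-x) 0 * Real.exp x ≤ Real.exp (-1) := by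
  rcases le_or_gt 0 x with h | h
  · rw [max_eq_right (by linarith), zero_mul]
    exact (Real.exp_pos _).le
  · rw [max_eq_left (by linarith)]
    have h1 := Real.add_one_le_exp (-x - 1)
    have h2 : -x ≤ Real.exp (-x - 1) := by linarith
    calc -x * Real.exp x ≤ Real.exp (-x - 1) * Real.exp x :=
          mul_le_mul_of_nonneg_right h2 (Real.exp_pos _).le
      _ = Real.exp (-1) := by rw [← Real.exp_add]; congr 1; ring

theorem delta_abs2 {Ω : Type*} [MeasurableSpace Ω] {ν : Measure Ω} [IsProbabilityMeasure ν]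
    {good : Set Ω} (hg : MeasurableSet good) {W l X : Ω → ℝ} {Δ s K0 m q U : ℝ}
    (hs : 4 ≤ s) (hK : K0 ≤ s) (hm : 0 ≤ m)
    (W0 : ∀ ω, 0 ≤ W ω) (Wi : Integrable W ν) (W1 : ∫ ω, W ω ∂ν = 1)
    (hW : ∀ ω ∈ good, W ω ≤ Real.exp (-Δ + l ω + (X ω + 2 * Δ) / s))
    (Xi : IntegrableOn (fun ω => Real.exp (X ω)) good ν)
    (hX : ∫ ω in good, Real.exp (X ω) ∂ν ≤ Real.exp K0)
    (li : Integrable (fun ω => W ω * l ω) ν) (hl : ∫ ω, W ω * l ω ∂ν ≤ m)
    (l2i : Integrable (fun ω => W ω * l ω ^ 2) ν) (hl2 : ∫ ω, W ω * l ω ^ 2 ∂ν ≤ Δ * U)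
    (hq0 : 0 < q) (hq : ∫ ω in goodᶜ, W ω ∂ν ≤ q) (hUq : U * q ≤ 1 / 16) (hq8 : q ≤ 1 / 8) :
    Δ ≤ 11 * m + 20 := by
  by_contra hcon
  push Not at hcon
  have hΔ : 20 < Δ := by linarith
  have hs0 : 0 < s := by linarith
  -- the function `e^{X/s}`
  have hXm : AEStronglyMeasurable (fun ω => Real.exp (X ω / s)) (ν.restrict good) := by
    have h1 : AEStronglyMeasurable (fun ω => Real.exp (X ω)) (ν.restrict good) := Xi.1
    have h2 := (Real.measurable_log.comp_aemeasurable h1.aemeasurable)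
    have h3 : AEMeasurable X (ν.restrict good) := by
      refine h2.congr (Filter.Eventually.of_forall fun ω => ?_)
      simp
    exact (Real.measurable_exp.comp_aemeasurable (h3.div_const s)).aestronglyMeasurable
  have hdom : IntegrableOn (fun ω => Real.exp (K0 / s) *
      ((1 - 1 / s) + (1 / s) * (Real.exp (-K0) * Real.exp (X ω)))) good ν := by
    refine Integrable.const_mul ?_ _
    refine (integrable_const _).add ?_
    exact Integrable.const_mul (Integrable.const_mul Xi _) _
  have hptX : ∀ ω, Real.exp (X ω / s) ≤ Real.exp (K0 / s) *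
      ((1 - 1 / s) + (1 / s) * (Real.exp (-K0) * Real.exp (X ω))) := by
    intro ω
    have h := exp_div_le (x := X ω) (K := K0) (s := s) (by linarith)
    rw [← Real.exp_add, neg_add_eq_sub]
    exact h
  have Ei : IntegrableOn (fun ω => Real.exp (X ω / s)) good ν :=
    hdom.mono' hXm (Filter.Eventually.of_forall fun ω => by
      rw [Real.norm_eq_abs, abs_of_pos (Real.exp_pos _)]
      exact hptX ω)
  have hE : ∫ ω in good, Real.exp (X ω / s) ∂ν ≤ Real.exp 1 := by
    have h1 : ∫ ω in good, Real.exp (X ω / s) ∂ν ≤ ∫ ω in good, Real.exp (K0 / s) *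
        ((1 - 1 / s) + (1 / s) * (Real.exp (-K0) * Real.exp (X ω))) ∂ν :=
      integral_mono Ei hdom hptX
    rw [integral_const_mul, integral_add (integrable_const _)
      (Integrable.const_mul (Integrable.const_mul Xi _) _), integral_const_mul,
      integral_const_mul, integral_const] at h1
    have h2 : (ν.restrict good).real Set.univ ≤ 1 := by
      rw [measureReal_restrict_apply MeasurableSet.univ, Set.univ_inter]
      exact measureReal_le_one
    have h3 : Real.exp (-K0) * ∫ ω in good, Real.exp (X ω) ∂ν ≤ 1 := by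
      calc Real.exp (-K0) * ∫ ω in good, Real.exp (X ω) ∂ν ≤ Real.exp (-K0) * Real.exp K0 :=
            mul_le_mul_of_nonneg_left hX (Real.exp_pos _).le
        _ = 1 := by rw [← Real.exp_add]; simp
    have h4 : 0 ≤ 1 - 1 / s := sub_nonneg.2 ((div_le_one hs0).2 (by linarith))
    have h5 : 0 ≤ 1 / s := by positivity
    have h6 : (ν.restrict good).real Set.univ • (1 - 1 / s) +
        1 / s * (Real.exp (-K0) * ∫ ω in good, Real.exp (X ω) ∂ν) ≤ 1 := by
      rw [smul_eq_mul]
      have := mul_le_mul_of_nonneg_right h2 h4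
      have := mul_le_mul_of_nonneg_left h3 h5
      linarith
    refine h1.trans ((mul_le_mul_of_nonneg_left h6 (Real.exp_pos _).le).trans ?_)
    rw [mul_one]
    exact Real.exp_le_exp.2 ((div_le_one hs0).2 hK)
  -- pointwise bound on `good`
  have hpt : ∀ ω ∈ good, W ω ≤ Real.exp (-Δ / 2) * (Real.exp (l ω) * Real.exp (X ω / s)) := by
    intro ω hω
    refine (hW ω hω).trans ?_
    rw [← Real.exp_add, ← Real.exp_add]
    refine Real.exp_le_exp.2 ?_
    have h1 : 2 * Δ / s ≤ Δ / 2 := by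
      rw [div_le_iff₀ hs0]
      nlinarith
    have h2 : (X ω + 2 * Δ) / s = X ω / s + 2 * Δ / s := by ring
    rw [h2]
    linarith
  -- measurability of `W * max (-l) 0`
  have Wm : ∀ ω, W ω * max (-l ω) 0 = max (-(W ω * l ω)) 0 := fun ω => by
    rw [mul_max_of_nonneg _ _ (W0 ω), mul_zero, mul_neg]
  have Wp : ∀ ω, W ω * max (l ω) 0 = max (W ω * l ω) 0 := fun ω => by
    rw [mul_max_of_nonneg _ _ (W0 ω), mul_zero]
  have ni : Integrable (fun ω => W ω * max (-l ω) 0) ν := by
    simp only [Wm]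
    exact li.neg.pos_part
  have pi : Integrable (fun ω => W ω * max (l ω) 0) ν := by
    simp only [Wp]
    exact li.pos_part
  have hsplit : ∫ ω, W ω * max (-l ω) 0 ∂ν =
      ∫ ω in good, W ω * max (-l ω) 0 ∂ν + ∫ ω in goodᶜ, W ω * max (-l ω) 0 ∂ν :=
    (integral_add_compl hg ni).symm
  have hgood : ∫ ω in good, W ω * max (-l ω) 0 ∂ν ≤ 1 := by
    have h1 : ∫ ω in good, W ω * max (-l ω) 0 ∂ν ≤
        ∫ ω in good, Real.exp (-Δ / 2) * (Real.exp (-1) * Real.exp (X ω / s)) ∂ν := by
      refine setIntegral_mono_on ni.integrableOn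
        (Integrable.const_mul (Integrable.const_mul Ei _) _) hg fun ω hω => ?_
      have h2 := hpt ω hω
      have h3 : 0 ≤ max (-l ω) 0 := le_max_right _ _
      calc W ω * max (-l ω) 0 ≤
            Real.exp (-Δ / 2) * (Real.exp (l ω) * Real.exp (X ω / s)) * max (-l ω) 0 :=
            mul_le_mul_of_nonneg_right h2 h3
        _ = Real.exp (-Δ / 2) * ((max (-l ω) 0 * Real.exp (l ω)) * Real.exp (X ω / s)) := by ring
        _ ≤ Real.exp (-Δ / 2) * (Real.exp (-1) * Real.exp (X ω / s)) :=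
            mul_le_mul_of_nonneg_left (mul_le_mul_of_nonneg_right (neg_mul_exp_le _)
              (Real.exp_pos _).le) (Real.exp_pos _).le
    refine h1.trans ?_
    rw [integral_const_mul, integral_const_mul]
    calc Real.exp (-Δ / 2) * (Real.exp (-1) * ∫ ω in good, Real.exp (X ω / s) ∂ν) ≤
          Real.exp (-Δ / 2) * (Real.exp (-1) * Real.exp 1) :=
          mul_le_mul_of_nonneg_left (mul_le_mul_of_nonneg_left hE (Real.exp_pos _).le)
            (Real.exp_pos _).le
      _ = Real.exp (-Δ / 2) := by rw [← Real.exp_add (-1) 1]; simp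
      _ ≤ 1 := Real.exp_le_one_iff.2 (by linarith)
  set r : ℝ := Real.sqrt Δ with hr
  have hr2 : r ^ 2 = Δ := Real.sq_sqrt (by linarith)
  have hr0 : 0 < r := Real.sqrt_pos.2 (by linarith)
  have hbad : ∫ ω in goodᶜ, W ω * max (-l ω) 0 ∂ν ≤ r / 4 := by
    set p : ℝ := 4 * q / r with hp
    have hp0 : 0 < p := by positivity
    have h1 : ∫ ω in goodᶜ, W ω * max (-l ω) 0 ∂ν ≤
        ∫ ω in goodᶜ, (p / 2 * (W ω * l ω ^ 2) + 1 / (2 * p) * W ω) ∂ν := by
      refine setIntegral_mono_on ni.integrableOn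
        ((Integrable.const_mul l2i.integrableOn _).add
          (Integrable.const_mul Wi.integrableOn _)) hg.compl fun ω _ => ?_
      have h2 : max (-l ω) 0 ≤ |l ω| := max_le (neg_le_abs _) (abs_nonneg _)
      have h3 : |l ω| ≤ p / 2 * l ω ^ 2 + 1 / (2 * p) := by
        have h4 : 0 ≤ (p * |l ω| - 1) ^ 2 := sq_nonneg _
        have h5 : |l ω| ^ 2 = l ω ^ 2 := sq_abs _
        have h6 : p / 2 * l ω ^ 2 + 1 / (2 * p) - |l ω| = (p * |l ω| - 1) ^ 2 / (2 * p) := by
          rw [← h5]
          field_simp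
          ring
        have h7 : 0 ≤ (p * |l ω| - 1) ^ 2 / (2 * p) := by positivity
        linarith
      calc W ω * max (-l ω) 0 ≤ W ω * (p / 2 * l ω ^ 2 + 1 / (2 * p)) :=
            mul_le_mul_of_nonneg_left (h2.trans h3) (W0 ω)
        _ = _ := by ring
    rw [integral_add (Integrable.const_mul l2i.integrableOn _)
      (Integrable.const_mul Wi.integrableOn _), integral_const_mul, integral_const_mul] at h1
    have h2 : ∫ ω in goodᶜ, W ω * l ω ^ 2 ∂ν ≤ Δ * U := by
      refine (setIntegral_le_integral l2i (Filter.Eventually.of_forall fun ω => ?_)).trans hl2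
      exact mul_nonneg (W0 ω) (sq_nonneg _)
    have h3 : p / 2 * ∫ ω in goodᶜ, W ω * l ω ^ 2 ∂ν ≤ r / 8 := by
      have h5 := mul_le_mul_of_nonneg_left h2 (by positivity : 0 ≤ p / 2)
      have h6 : p / 2 * (Δ * U) = 2 * r * (U * q) := by
        rw [hp, ← hr2]
        field_simp
        ring
      have h7 := mul_le_mul_of_nonneg_left hUq (by positivity : 0 ≤ 2 * r)
      linarith
    have h4 : 1 / (2 * p) * ∫ ω in goodᶜ, W ω ∂ν ≤ r / 8 := by
      have h5 := mul_le_mul_of_nonneg_left hq (by positivity : 0 ≤ 1 / (2 * p))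
      have h6 : 1 / (2 * p) * q = r / 8 := by
        rw [hp]
        field_simp
        ring
      linarith
    linarith
  have hplus : ∫ ω, W ω * max (l ω) 0 ∂ν ≤ m + 1 + r / 4 := by
    have h1 : ∫ ω, W ω * max (l ω) 0 ∂ν = ∫ ω, W ω * l ω ∂ν + ∫ ω, W ω * max (-l ω) 0 ∂ν := by
      rw [← integral_add li ni]
      refine integral_congr_ae (Filter.Eventually.of_forall fun ω => ?_)
      simp only
      have : max (l ω) 0 = l ω + max (-l ω) 0 := by
        rcases le_total 0 (l ω) with h | h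
        · rw [max_eq_left h, max_eq_right (by linarith), add_zero]
        · rw [max_eq_right h, max_eq_left (by linarith), add_neg_cancel]
      rw [this]
      ring
    rw [h1, hsplit]
    linarith
  -- final comparison
  set y : ℝ := 4 * m + 4 + r with hy
  have hy0 : 0 < y := by linarith
  have hfin : ∫ ω in good, W ω ∂ν ≤
      Real.exp (-Δ / 2 + y) * ∫ ω in good, Real.exp (X ω / s) ∂ν +
        y⁻¹ * ∫ ω in good, W ω * max (l ω) 0 ∂ν := by
    rw [← integral_const_mul, ← integral_const_mul, ← integral_add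
      (Integrable.const_mul Ei _) (Integrable.const_mul pi.integrableOn _)]
    refine setIntegral_mono_on Wi.integrableOn ((Integrable.const_mul Ei _).add
      (Integrable.const_mul pi.integrableOn _)) hg fun ω hω => ?_
    have h0 : 0 ≤ y⁻¹ * (W ω * max (l ω) 0) :=
      mul_nonneg (inv_nonneg.2 hy0.le) (mul_nonneg (W0 ω) (le_max_right _ _))
    rcases le_or_gt (l ω) y with h | h
    · have h1 := hpt ω hω
      have h2 : Real.exp (-Δ / 2) * (Real.exp (l ω) * Real.exp (X ω / s)) ≤
          Real.exp (-Δ / 2 + y) * Real.exp (X ω / s) := by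
        rw [← mul_assoc, ← Real.exp_add]
        exact mul_le_mul_of_nonneg_right (Real.exp_le_exp.2 (by linarith)) (Real.exp_pos _).le
      linarith
    · have h1 : W ω ≤ y⁻¹ * (W ω * max (l ω) 0) := by
        have h2 : 1 ≤ y⁻¹ * max (l ω) 0 := by
          rw [inv_mul_eq_div, le_div_iff₀ hy0, one_mul]
          exact h.le.trans (le_max_left _ _)
        calc W ω = W ω * 1 := (mul_one _).symm
          _ ≤ W ω * (y⁻¹ * max (l ω) 0) := mul_le_mul_of_nonneg_left h2 (W0 ω)
          _ = _ := by ring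
      have h3 : 0 ≤ Real.exp (-Δ / 2 + y) * Real.exp (X ω / s) := by positivity
      linarith
  have hmass : 7 / 8 ≤ ∫ ω in good, W ω ∂ν := by
    have h1 := integral_add_compl hg Wi
    linarith
  have h1 : ∫ ω in good, W ω * max (l ω) 0 ∂ν ≤ m + 1 + r / 4 := by
    refine (setIntegral_le_integral pi (Filter.Eventually.of_forall fun ω => ?_)).trans hplus
    exact mul_nonneg (W0 ω) (le_max_right _ _)
  have h2 : y⁻¹ * ∫ ω in good, W ω * max (l ω) 0 ∂ν ≤ 1 / 4 := by
    refine (mul_le_mul_of_nonneg_left h1 (inv_nonneg.2 hy0.le)).trans (le_of_eq ?_)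
    have e : m + 1 + r / 4 = y / 4 := by rw [hy]; ring
    rw [e]
    field_simp
  have h3 : Real.exp (-Δ / 2 + y) * ∫ ω in good, Real.exp (X ω / s) ∂ν ≤
      Real.exp (-Δ / 2 + y + 1) := by
    rw [Real.exp_add (-Δ / 2 + y) 1]
    exact mul_le_mul_of_nonneg_left hE (Real.exp_pos _).le
  have h4 : 5 / 8 ≤ Real.exp (-Δ / 2 + y + 1) := by linarith
  have h50 : r ≤ Δ / 8 + 2 := by nlinarith [sq_nonneg (r - 4)]
  have h5 : Real.exp (-Δ / 2 + y + 1) ≤ Real.exp (-1 / 2) := Real.exp_le_exp.2 (by linarith)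
  have h6 : Real.exp (-1 / 2) < 5 / 8 := by
    have h7 := Real.exp_one_gt_d9
    have h8 : Real.exp (-1 / 2) ^ 2 * Real.exp 1 = 1 := by
      rw [← Real.exp_nat_mul, ← Real.exp_add]
      norm_num
    by_contra hcon2
    push Not at hcon2
    have h9 : (5 / 8 : ℝ) ^ 2 ≤ Real.exp (-1 / 2) ^ 2 := by
      exact pow_le_pow_left₀ (by norm_num) hcon2 2
    nlinarith [Real.exp_pos (1 : ℝ)]
  linarith

/-- the quadratic inequality -/
theorem delta_quad {Δ A : ℝ} (hΔ : 0 ≤ Δ) (hA : 0 ≤ A)
    (h : Δ ≤ 11 * Real.sqrt (2 * Δ * A) + 20) : Δ ≤ 324 * A + 27 := by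
  have h1 : Real.sqrt (2 * Δ * A) ≤ (Δ / 22 + 22 * (2 * A)) / 2 := by
    rw [Real.sqrt_le_left (by positivity)]
    nlinarith [sq_nonneg (Δ / 22 - 22 * (2 * A))]
  nlinarith

end

end Vale.Agent.P159.H856
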