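import Vale.Agent.P159.H817.Ang5
import Vale.Agent.P159.H789.Bridge

/-!
P159 / S list, 270's Ed4 (helper856), part 4: moving averages on the torus in `L²` and the energy of
a field which is rough only near the cores.
-/

set_option linter.unusedSectionVars false

namespace Vale.Agent.P159.H856.Dl

open Finset Matrix
open Vale.Agent.P159.TM.Spec (V)
open Vale.Agent.P159.H37 (qf)
open Vale.Agent.P159.H817 (gr nrm sum_shift sum_edges)

noncomputable section

variable {N : ℕ} [NeZero N]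

/-- shift -/
def sf (u : ℕ × ℕ) : V N := ((u.1 : ZMod N), (u.2 : ZMod N))

/-- the index set of the moving average -/
def bxI (r : ℕ) : Finset (ℕ × ℕ) := range r ×ˢ range r

lemma card_bxI (r : ℕ) : ((bxI r).card : ℝ) = (r : ℝ) ^ 2 := by
  unfold bxI
  rw [Finset.card_product, Finset.card_range]
  push_cast
  ring

/-- moving average -/
def mv (r : ℕ) (f : V N → ℝ) (x : V N) : ℝ := ((r : ℝ) ^ 2)⁻¹ * ∑ u ∈ bxI r, f (x + sf u)

lemma sum_bxI_sq (r : ℕ) (f : V N → ℝ) :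
    ∑ x : V N, ∑ u ∈ bxI r, f (x + sf u) ^ 2 = (r : ℝ) ^ 2 * ∑ x, f x ^ 2 := by
  rw [Finset.sum_comm]
  have : ∀ u ∈ bxI r, ∑ x : V N, f (x + sf u) ^ 2 = ∑ x, f x ^ 2 := fun u _ =>
    sum_shift (fun x => f x ^ 2) (sf u)
  rw [Finset.sum_congr rfl this, Finset.sum_const, nsmul_eq_mul, card_bxI]

/-- the moving average is a contraction -/
lemma mv_sq {r : ℕ} (hr : 1 ≤ r) (f : V N → ℝ) : ∑ x, mv r f x ^ 2 ≤ ∑ x, f x ^ 2 := by
  have hr0 : (0 : ℝ) < (r : ℝ) ^ 2 := by positivity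
  have h1 : ∀ x, mv r f x ^ 2 ≤ ((r : ℝ) ^ 2)⁻¹ * ∑ u ∈ bxI r, f (x + sf u) ^ 2 := by
    intro x
    unfold mv
    have h2 := sq_sum_le_card_mul_sum_sq (s := bxI r) (f := fun u => f (x + sf u))
    rw [card_bxI] at h2
    rw [mul_pow]
    calc (((r : ℝ) ^ 2)⁻¹) ^ 2 * (∑ u ∈ bxI r, f (x + sf u)) ^ 2
        ≤ (((r : ℝ) ^ 2)⁻¹) ^ 2 * ((r : ℝ) ^ 2 * ∑ u ∈ bxI r, f (x + sf u) ^ 2) :=
          mul_le_mul_of_nonneg_left h2 (by positivity)
      _ = _ := by field_simp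
  refine (Finset.sum_le_sum fun x _ => h1 x).trans (le_of_eq ?_)
  rw [← Finset.mul_sum, sum_bxI_sq, ← mul_assoc, inv_mul_cancel₀ hr0.ne', one_mul]

lemma sf_inj {r : ℕ} (hr : r ≤ N) {u v : ℕ × ℕ} (hu : u ∈ bxI r) (hv : v ∈ bxI r)
    (h : (sf u : V N) = sf v) : u = v := by
  unfold bxI at hu hv
  rw [Finset.mem_product, Finset.mem_range, Finset.mem_range] at hu hv
  unfold sf at h
  have h1 := congrArg Prod.fst h
  have h2 := congrArg Prod.snd h
  simp only at h1 h2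
  rw [ZMod.natCast_eq_natCast_iff'] at h1 h2
  rw [Nat.mod_eq_of_lt (by omega), Nat.mod_eq_of_lt (by omega)] at h1 h2
  exact Prod.ext h1 h2

/-- the moving average of a function with small support -/
lemma mv_sq_supp {r : ℕ} (hr : 1 ≤ r) (hrN : r ≤ N) (S : Finset (V N)) (f : V N → ℝ)
    (hf : ∀ x, x ∉ S → f x = 0) :
    ∑ x, mv r f x ^ 2 ≤ (S.card : ℝ) / (r : ℝ) ^ 2 * ∑ x, f x ^ 2 := by
  have hr0 : (0 : ℝ) < (r : ℝ) ^ 2 := by positivity
  have h1 : ∀ x, mv r f x ^ 2 ≤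
      (S.card : ℝ) * ((((r : ℝ) ^ 2)⁻¹) ^ 2 * ∑ u ∈ bxI r, f (x + sf u) ^ 2) := by
    intro x
    set T := (bxI r).filter fun u => x + sf u ∈ S with hT
    have e1 : ∑ u ∈ bxI r, f (x + sf u) = ∑ u ∈ T, f (x + sf u) := by
      rw [hT, Finset.sum_filter]
      refine Finset.sum_congr rfl fun u _ => ?_
      by_cases h : x + sf u ∈ S
      · rw [if_pos h]
      · rw [if_neg h, hf _ h]
    have hc : T.card ≤ S.card := by
      refine Finset.card_le_card_of_injOn (fun u => x + sf u) (fun u hu => ?_) ?_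
      · exact (Finset.mem_filter.1 hu).2
      · intro u hu v hv h
        have hu' := (Finset.mem_filter.1 hu).1
        have hv' := (Finset.mem_filter.1 hv).1
        exact sf_inj hrN hu' hv' (add_left_cancel h)
    have h2 := sq_sum_le_card_mul_sum_sq (s := T) (f := fun u => f (x + sf u))
    have h3 : ∑ u ∈ T, f (x + sf u) ^ 2 ≤ ∑ u ∈ bxI r, f (x + sf u) ^ 2 :=
      Finset.sum_le_sum_of_subset_of_nonneg (Finset.filter_subset _ _) fun _ _ _ => sq_nonneg _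
    have h4 : (∑ u ∈ T, f (x + sf u)) ^ 2 ≤ (S.card : ℝ) * ∑ u ∈ bxI r, f (x + sf u) ^ 2 := by
      refine h2.trans (mul_le_mul (Nat.cast_le.2 hc) h3 (Finset.sum_nonneg fun _ _ => sq_nonneg _)
        (Nat.cast_nonneg _))
    unfold mv
    rw [e1, mul_pow]
    have h5 := mul_le_mul_of_nonneg_left h4 (sq_nonneg (((r : ℝ) ^ 2)⁻¹))
    calc _ ≤ _ := h5
      _ = _ := by ring
  refine (Finset.sum_le_sum fun x _ => h1 x).trans (le_of_eq ?_)
  rw [← Finset.mul_sum, ← Finset.mul_sum, sum_bxI_sq]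
  field_simp

/-- differences in one direction -/
lemma dir_dev (k : V N → ℝ) (a : V N) (n : ℕ) :
    ∑ x, (k (x + n • a) - k x) ^ 2 ≤ (n : ℝ) ^ 2 * ∑ x, (k (x + a) - k x) ^ 2 := by
  have h1 : ∀ x, k (x + n • a) - k x = ∑ i ∈ range n, (k (x + i • a + a) - k (x + i • a)) := by
    intro x
    have h := Finset.sum_range_sub (fun i => k (x + i • a)) n
    rw [zero_smul, add_zero] at h
    rw [← h]
    refine Finset.sum_congr rfl fun i _ => ?_
    rw [succ_nsmul, add_assoc]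
  have h2 : ∀ x, (k (x + n • a) - k x) ^ 2 ≤
      n * ∑ i ∈ range n, (k (x + i • a + a) - k (x + i • a)) ^ 2 := by
    intro x
    rw [h1]
    have := sq_sum_le_card_mul_sum_sq (s := range n)
      (f := fun i => k (x + i • a + a) - k (x + i • a))
    rwa [Finset.card_range] at this
  refine (Finset.sum_le_sum fun x _ => h2 x).trans (le_of_eq ?_)
  rw [← Finset.mul_sum, Finset.sum_comm]
  have h3 : ∀ i ∈ range n, ∑ x, (k (x + i • a + a) - k (x + i • a)) ^ 2 =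
      ∑ x, (k (x + a) - k x) ^ 2 := fun i _ =>
    sum_shift (fun x => (k (x + a) - k x) ^ 2) (i • a)
  rw [Finset.sum_congr rfl h3, Finset.sum_const, Finset.card_range, nsmul_eq_mul]
  ring

lemma sf_eq (u : ℕ × ℕ) : (sf u : V N) = u.1 • ((1, 0) : V N) + u.2 • ((0, 1) : V N) := by
  unfold sf
  ext <;> simp

lemma nrm_gr (k : V N → ℝ) : nrm (gr k) =
    ∑ x, (k (x + (1, 0)) - k x) ^ 2 + ∑ x, (k (x + (0, 1)) - k x) ^ 2 := by
  unfold H817.nrm
  rw [sum_edges]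
  rfl

lemma sf_dev {r : ℕ} (k : V N → ℝ) {u : ℕ × ℕ} (hu : u ∈ bxI r) :
    ∑ x, (k x - k (x + sf u)) ^ 2 ≤ 2 * (r : ℝ) ^ 2 * nrm (gr k) := by
  unfold bxI at hu
  rw [Finset.mem_product, Finset.mem_range, Finset.mem_range] at hu
  have h1 := dir_dev k ((1, 0) : V N) u.1
  have h2 := dir_dev k ((0, 1) : V N) u.2
  have h3 : ∑ x : V N, (k (x + u.1 • ((1, 0) : V N) + u.2 • ((0, 1) : V N)) -
      k (x + u.1 • ((1, 0) : V N))) ^ 2 = ∑ x, (k (x + u.2 • ((0, 1) : V N)) - k x) ^ 2 :=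
    sum_shift (fun x => (k (x + u.2 • ((0, 1) : V N)) - k x) ^ 2) (u.1 • ((1, 0) : V N))
  have h4 : ∀ x : V N, (k x - k (x + sf u)) ^ 2 ≤
      2 * (k (x + u.1 • ((1, 0) : V N)) - k x) ^ 2 +
      2 * (k (x + u.1 • ((1, 0) : V N) + u.2 • ((0, 1) : V N)) -
        k (x + u.1 • ((1, 0) : V N))) ^ 2 := by
    intro x
    rw [sf_eq, ← add_assoc]
    set a := k (x + u.1 • ((1, 0) : V N))
    set c := k (x + u.1 • ((1, 0) : V N) + u.2 • ((0, 1) : V N))
    nlinarith [sq_nonneg ((a - k x) - (c - a))]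
  refine (Finset.sum_le_sum fun x _ => h4 x).trans ?_
  rw [Finset.sum_add_distrib, ← Finset.mul_sum, ← Finset.mul_sum, h3, nrm_gr]
  have p1 : (0 : ℝ) ≤ ∑ x : V N, (k (x + (1, 0)) - k x) ^ 2 :=
    Finset.sum_nonneg fun _ _ => sq_nonneg _
  have p2 : (0 : ℝ) ≤ ∑ x : V N, (k (x + (0, 1)) - k x) ^ 2 :=
    Finset.sum_nonneg fun _ _ => sq_nonneg _
  have q1 : (u.1 : ℝ) ^ 2 ≤ (r : ℝ) ^ 2 :=
    pow_le_pow_left₀ (Nat.cast_nonneg _) (Nat.cast_le.2 hu.1.le) 2
  have q2 : (u.2 : ℝ) ^ 2 ≤ (r : ℝ) ^ 2 :=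
    pow_le_pow_left₀ (Nat.cast_nonneg _) (Nat.cast_le.2 hu.2.le) 2
  have r1 := mul_le_mul_of_nonneg_right q1 p1
  have r2 := mul_le_mul_of_nonneg_right q2 p2
  linarith

/-- distance between a function and its moving average -/
lemma mv_dev {r : ℕ} (hr : 1 ≤ r) (k : V N → ℝ) :
    ∑ x, (k x - mv r k x) ^ 2 ≤ 2 * (r : ℝ) ^ 2 * nrm (gr k) := by
  have hr0 : (0 : ℝ) < (r : ℝ) ^ 2 := by positivity
  have h1 : ∀ x, (k x - mv r k x) ^ 2 ≤
      ((r : ℝ) ^ 2)⁻¹ * ∑ u ∈ bxI r, (k x - k (x + sf u)) ^ 2 := by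
    intro x
    have e : k x - mv r k x = ((r : ℝ) ^ 2)⁻¹ * ∑ u ∈ bxI r, (k x - k (x + sf u)) := by
      unfold mv
      rw [Finset.sum_sub_distrib, Finset.sum_const, nsmul_eq_mul, card_bxI]
      field_simp
    have h2 := sq_sum_le_card_mul_sum_sq (s := bxI r) (f := fun u => k x - k (x + sf u))
    rw [card_bxI] at h2
    rw [e, mul_pow]
    calc (((r : ℝ) ^ 2)⁻¹) ^ 2 * (∑ u ∈ bxI r, (k x - k (x + sf u))) ^ 2
        ≤ (((r : ℝ) ^ 2)⁻¹) ^ 2 * ((r : ℝ) ^ 2 * ∑ u ∈ bxI r, (k x - k (x + sf u)) ^ 2) :=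
          mul_le_mul_of_nonneg_left h2 (by positivity)
      _ = _ := by field_simp
  refine (Finset.sum_le_sum fun x _ => h1 x).trans ?_
  rw [← Finset.mul_sum, Finset.sum_comm]
  have h3 : ∑ u ∈ bxI r, ∑ x, (k x - k (x + sf u)) ^ 2 ≤
      ∑ _u ∈ bxI r, 2 * (r : ℝ) ^ 2 * nrm (gr k) :=
    Finset.sum_le_sum fun u hu => sf_dev k hu
  rw [Finset.sum_const, nsmul_eq_mul, card_bxI] at h3
  calc ((r : ℝ) ^ 2)⁻¹ * ∑ u ∈ bxI r, ∑ x, (k x - k (x + sf u)) ^ 2
      ≤ ((r : ℝ) ^ 2)⁻¹ * ((r : ℝ) ^ 2 * (2 * (r : ℝ) ^ 2 * nrm (gr k))) :=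
        mul_le_mul_of_nonneg_left h3 (by positivity)
    _ = _ := by field_simp

lemma mv_add (r : ℕ) (f g : V N → ℝ) (x : V N) :
    mv r (fun y => f y + g y) x = mv r f x + mv r g x := by
  unfold mv
  rw [Finset.sum_add_distrib]
  ring

/-- the gradient commutes with the average -/
lemma gr_mv (r : ℕ) (k : V N → ℝ) (x : V N) (t : Bool) :
    gr (mv r k) (x, t) = mv r (fun y => gr k (y, t)) x := by
  cases t
  · simp only [H817.gr_false]
    unfold mv
    rw [Finset.sum_sub_distrib, mul_sub]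
    congr 2
    refine Finset.sum_congr rfl fun u _ => ?_
    rw [add_right_comm]
  · simp only [H817.gr_true]
    unfold mv
    rw [Finset.sum_sub_distrib, mul_sub]
    congr 2
    refine Finset.sum_congr rfl fun u _ => ?_
    rw [add_right_comm]

/-- the part of the energy near the cores -/
def nIn (S : Finset (V N)) (j : V N × Bool → ℝ) : ℝ := ∑ e, if e.1 ∈ S then j e ^ 2 else 0

/-- the part of the energy away from the cores -/
def nOff (S : Finset (V N)) (j : V N × Bool → ℝ) : ℝ := ∑ e, if e.1 ∈ S then 0 else j e ^ 2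

lemma nIn_nonneg (S : Finset (V N)) (j : V N × Bool → ℝ) : 0 ≤ nIn S j :=
  Finset.sum_nonneg fun e _ => by split_ifs <;> positivity

lemma nOff_nonneg (S : Finset (V N)) (j : V N × Bool → ℝ) : 0 ≤ nOff S j :=
  Finset.sum_nonneg fun e _ => by split_ifs <;> positivity

lemma nIn_le (S : Finset (V N)) (j : V N × Bool → ℝ) : nIn S j ≤ nrm j := by
  unfold nIn H817.nrm
  refine Finset.sum_le_sum fun e _ => ?_
  split_ifs
  · exact le_rfl
  · positivity

/-- energy of the gradient of the moving average -/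
lemma nrm_gr_mv {r : ℕ} (hr : 1 ≤ r) (hrN : r ≤ N) (S : Finset (V N)) (k : V N → ℝ) :
    nrm (gr (mv r k)) ≤
      2 * (nOff S (gr k) + (S.card : ℝ) / (r : ℝ) ^ 2 * nIn S (gr k)) := by
  have key : ∀ t : Bool, ∑ x, gr (mv r k) (x, t) ^ 2 ≤
      2 * (∑ x, (if x ∈ S then 0 else gr k (x, t) ^ 2)) +
        2 * ((S.card : ℝ) / (r : ℝ) ^ 2 * ∑ x, (if x ∈ S then gr k (x, t) ^ 2 else 0)) := by
    intro t
    set f : V N → ℝ := fun x => if x ∈ S then 0 else gr k (x, t) with hf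
    set g : V N → ℝ := fun x => if x ∈ S then gr k (x, t) else 0 with hg
    have e1 : (fun y => gr k (y, t)) = fun y => f y + g y := by
      funext y
      simp only [hf, hg]
      split_ifs <;> ring
    have h1 : ∀ x, gr (mv r k) (x, t) ^ 2 ≤ 2 * mv r f x ^ 2 + 2 * mv r g x ^ 2 := by
      intro x
      rw [gr_mv, e1, mv_add]
      nlinarith [sq_nonneg (mv r f x - mv r g x)]
    have h2 := mv_sq hr f
    have h3 := mv_sq_supp hr hrN S g fun x hx => by simp only [hg, if_neg hx]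
    refine (Finset.sum_le_sum fun x _ => h1 x).trans ?_
    rw [Finset.sum_add_distrib, ← Finset.mul_sum, ← Finset.mul_sum]
    have e2 : ∀ x, f x ^ 2 = if x ∈ S then 0 else gr k (x, t) ^ 2 := by
      intro x
      simp only [hf]
      split_ifs <;> ring
    have e3 : ∀ x, g x ^ 2 = if x ∈ S then gr k (x, t) ^ 2 else 0 := by
      intro x
      simp only [hg]
      split_ifs <;> ring
    simp only [e2] at h2
    simp only [e3] at h3
    linarith
  have h0 := key false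
  have h1 := key true
  unfold H817.nrm nOff nIn
  rw [sum_edges, sum_edges, sum_edges]
  simp only
  linarith

/-- **energy of a field which is rough only near the cores**: `A ≤ CA |∇|²` and `A ≤ t` -/
theorem qf_mol {A : Matrix (V N) (V N) ℝ} {CA t : ℝ} (h0 : ∀ F, 0 ≤ qf A F)
    (hC : ∀ F, qf A F ≤ CA * nrm (gr F)) (hCA : 0 ≤ CA) (ht : ∀ F, qf A F ≤ t * ∑ x, F x ^ 2)
    (ht0 : 0 ≤ t) {r : ℕ} (hr : 1 ≤ r) (hrN : r ≤ N) (S : Finset (V N)) (k : V N → ℝ) :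
    qf A k ≤ 4 * CA * (nOff S (gr k) + (S.card : ℝ) / (r : ℝ) ^ 2 * nIn S (gr k)) +
      4 * t * (r : ℝ) ^ 2 * nrm (gr k) := by
  set u := mv r k with hu
  have h1 := H789.qf_par A u (k - u)
  have e1 : u + (k - u) = k := by abel
  rw [e1] at h1
  have h2 := h0 (u - (k - u))
  have h3 := hC u
  have h4 := ht (k - u)
  have h5 := nrm_gr_mv hr hrN S k
  have h6 := mv_dev hr k
  have h7 := mul_le_mul_of_nonneg_left h5 hCA
  have h8 := mul_le_mul_of_nonneg_left h6 ht0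
  have e2 : ∑ x, (k - u) x ^ 2 = ∑ x, (k x - mv r k x) ^ 2 := rfl
  rw [e2] at h4
  linarith

end

end Vale.Agent.P159.H856.Dl
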