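import Vale.Agent.P159.H856.Dl3
import Vale.Agent.P159.H856.Dl4
import Vale.Agent.P159.H817.St12
import Vale.Agent.P159.H817.Ang2

/-!
P159 / S list, 270's Ed4 (helper856), part 5: consequences of the exponential inequality (EXP-D) by
Jensen; the zero background number on the torus.
-/

set_option linter.unusedSectionVars false

namespace Vale.Agent.P159.H856.Dl

open Finset Matrix
open Vale.Agent.P159.TM.Spec (V)
open Vale.Agent.P159.TM.H764 (EE)
open Vale.Agent.P159.TM.H104 (EM nh)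
open Vale.Agent.P159.H37 (qf bf re)
open Vale.Agent.P159.H864 (TI sym lapM ti_lapM sym_lapM mlt ti_mlt sym_mlt)
open Vale.Agent.P159.H817 (gr nrm sum_shift sum_edges eF)
open Vale.Agent.P159.H963 (pin Pn Anm ntr)
open Vale.Agent.P159.H770 (wTD Ed eS eT)
open Vale.Agent.P159.H883 (Zp CT)

noncomputable section

/-! ### weighted sums -/

section ws

variable {ι : Type*} {p X : ι → ℝ}

/-- Jensen -/
theorem jensen_w (hp : ∀ i, 0 ≤ p i) (hs : Summable p) (hZ : 0 < ∑' i, p i)
    (hX : Summable fun i => p i * X i) (hE : Summable fun i => p i * Real.exp (X i)) :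
    Real.exp ((∑' i, p i * X i) / ∑' i, p i) ≤ (∑' i, p i * Real.exp (X i)) / ∑' i, p i := by
  set a := (∑' i, p i * X i) / ∑' i, p i with ha
  have h1 : ∀ i, Real.exp a * (1 - a) * p i + Real.exp a * (p i * X i) ≤
      p i * Real.exp (X i) := by
    intro i
    have h2 := Real.add_one_le_exp (X i - a)
    have h3 : Real.exp a * (X i - a + 1) ≤ Real.exp (X i) := by
      calc Real.exp a * (X i - a + 1) ≤ Real.exp a * Real.exp (X i - a) :=
            mul_le_mul_of_nonneg_left h2 (Real.exp_pos _).le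
        _ = Real.exp (X i) := by rw [← Real.exp_add]; congr 1; ring
    have h4 := mul_le_mul_of_nonneg_left h3 (hp i)
    linarith
  have h5 := Summable.tsum_le_tsum h1 ((hs.mul_left _).add (hX.mul_left _)) hE
  rw [(hs.mul_left _).tsum_add (hX.mul_left _), tsum_mul_left, tsum_mul_left] at h5
  have h6 : ∑' i, p i * X i = a * ∑' i, p i := by rw [ha, div_mul_cancel₀ _ hZ.ne']
  rw [h6] at h5
  rw [le_div_iff₀ hZ]
  linarith

/-- second moment from the exponential moments -/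
theorem second_w (hp : ∀ i, 0 ≤ p i) (hs : Summable p)
    (h1 : Summable fun i => p i * Real.exp (X i)) (h2 : Summable fun i => p i * Real.exp (-X i))
    {Y : ℝ} (hY : 1 ≤ Y) (b1 : ∑' i, p i * Real.exp (X i) ≤ Y * ∑' i, p i)
    (b2 : ∑' i, p i * Real.exp (-X i) ≤ Y * ∑' i, p i) :
    (Summable fun i => p i * X i ^ 2) ∧
      ∑' i, p i * X i ^ 2 ≤ 12 * (1 + Real.log (2 * Y)) ^ 2 * ∑' i, p i := by
  set L := Real.log (2 * Y) with hL
  have hY2 : 0 < 2 * Y := by linarith
  have hL0 : 0 ≤ L := Real.log_nonneg (by linarith)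
  have heL : Real.exp (-L) = (2 * Y)⁻¹ := by rw [Real.exp_neg, hL, Real.exp_log hY2]
  have hpt : ∀ i, X i ^ 2 ≤ 4 * (1 + L) ^ 2 +
      8 * Real.exp (-L) * (Real.exp (X i) + Real.exp (-X i)) := by
    intro i
    have k1 : Real.exp |X i| ≤ Real.exp (X i) + Real.exp (-X i) := by
      rcases abs_cases (X i) with ⟨h, -⟩ | ⟨h, -⟩
      · rw [h]; linarith [Real.exp_pos (-X i)]
      · rw [h]; linarith [Real.exp_pos (X i)]
    have ha := abs_nonneg (X i)
    rw [← sq_abs]
    rcases le_or_gt |X i| (2 * (1 + L)) with h | h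
    · have h3 : |X i| ^ 2 ≤ (2 * (1 + L)) ^ 2 := pow_le_pow_left₀ ha h 2
      have h4 : 0 ≤ 8 * Real.exp (-L) * (Real.exp (X i) + Real.exp (-X i)) := by positivity
      nlinarith
    · have h3 := Real.quadratic_le_exp_of_nonneg (x := |X i| / 2) (by positivity)
      have h4 : |X i| ^ 2 ≤ 8 * Real.exp (|X i| / 2) := by nlinarith
      have h5 : Real.exp (|X i| / 2) ≤ Real.exp (-L) * Real.exp |X i| := by
        rw [← Real.exp_add]
        exact Real.exp_le_exp.2 (by linarith)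
      have h6 := mul_le_mul_of_nonneg_left k1 (Real.exp_pos (-L)).le
      have h7 : 0 ≤ 4 * (1 + L) ^ 2 := by positivity
      nlinarith
  have hdom : Summable fun i => p i * (4 * (1 + L) ^ 2) +
      8 * Real.exp (-L) * (p i * Real.exp (X i) + p i * Real.exp (-X i)) :=
    (hs.mul_right _).add ((h1.add h2).mul_left _)
  have hle : ∀ i, p i * X i ^ 2 ≤ p i * (4 * (1 + L) ^ 2) +
      8 * Real.exp (-L) * (p i * Real.exp (X i) + p i * Real.exp (-X i)) := by
    intro i
    have := mul_le_mul_of_nonneg_left (hpt i) (hp i)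
    linarith
  have hsum : Summable fun i => p i * X i ^ 2 :=
    Summable.of_nonneg_of_le (fun i => mul_nonneg (hp i) (sq_nonneg _)) hle hdom
  refine ⟨hsum, ?_⟩
  have h3 := Summable.tsum_le_tsum hle hsum hdom
  rw [(hs.mul_right _).tsum_add ((h1.add h2).mul_left _), tsum_mul_left, tsum_mul_right,
    h1.tsum_add h2] at h3
  have hZ0 : 0 ≤ ∑' i, p i := tsum_nonneg hp
  have h4 : 8 * Real.exp (-L) * (∑' i, p i * Real.exp (X i) + ∑' i, p i * Real.exp (-X i)) ≤
      8 * ∑' i, p i := by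
    have h5 : ∑' i, p i * Real.exp (X i) + ∑' i, p i * Real.exp (-X i) ≤
        2 * Y * ∑' i, p i := by linarith
    have h6 := mul_le_mul_of_nonneg_left h5 (by positivity : 0 ≤ 8 * Real.exp (-L))
    have h7 : 8 * Real.exp (-L) * (2 * Y * ∑' i, p i) = 8 * ∑' i, p i := by
      rw [heL]
      field_simp
    linarith
  have h8 : 8 * ∑' i, p i ≤ 8 * (1 + L) ^ 2 * ∑' i, p i := by
    have : 1 ≤ (1 + L) ^ 2 := by nlinarith
    nlinarith
  linarith

end ws

lemma cosh_sub_le {x : ℝ} (hx : |x| ≤ 1) : Real.cosh x - 1 ≤ x ^ 2 := by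
  have h1 := Real.cosh_le_exp_half_sq x
  have hx2 : x ^ 2 ≤ 1 := by
    rw [← sq_abs]
    have := abs_nonneg x
    nlinarith
  have h2 : Real.exp (x ^ 2 / 2) ≤ 1 + x ^ 2 := by
    have h3 := Real.one_sub_le_exp_neg (x ^ 2 / 2)
    have h4 : 0 < 1 - x ^ 2 / 2 := by linarith
    have h5 : Real.exp (x ^ 2 / 2) ≤ (1 - x ^ 2 / 2)⁻¹ := by
      rw [Real.exp_neg] at h3
      exact (le_inv_comm₀ h4 (Real.exp_pos _)).1 h3
    refine h5.trans ?_
    rw [inv_le_iff_one_le_mul₀ h4]
    nlinarith [sq_nonneg (x ^ 2), sq_nonneg x]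
  linarith

/-! ### Jensen bound for a mean edge field -/

section JB

variable {N : ℕ} [NeZero N]

/-- the Jensen bound with price `κ` for the flows which vanish on the edges starting in `S` -/
def JB (b : ℝ) (S : Finset (V N)) (κ : ℝ) (v : V N × Bool → ℝ) : Prop :=
  ∀ j : V N × Bool → ℝ, (∀ e, e.1 ∈ S → j e = 0) →
    ∑ e, j e * v e ≤ κ + b * ∑ e, (Real.cosh (j e) - 1)

variable {b κ : ℝ} {S : Finset (V N)} {v : V N × Bool → ℝ}

lemma JB.nonneg (h : JB b S κ v) : 0 ≤ κ := by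
  have := h (fun _ => 0) fun _ _ => rfl
  simpa using this

lemma JB.edge (h : JB b S κ v) (hb : 0 < b) {e : V N × Bool} (he : e.1 ∉ S) :
    |v e| ≤ κ + b := by
  have key : ∀ s : ℝ, |s| ≤ 1 → s * v e ≤ κ + b * s ^ 2 := by
    intro s hs
    have h1 := h (fun e' => if e' = e then s else 0) (fun e' he' => by
      rw [if_neg]
      rintro rfl
      exact he he')
    have e1 : ∑ e', (if e' = e then s else 0) * v e' = s * v e := by
      simp [ite_mul]
    have e2 : ∑ e', (Real.cosh (if e' = e then s else 0) - 1) = Real.cosh s - 1 := by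
      rw [Finset.sum_eq_single e]
      · rw [if_pos rfl]
      · intro e' _ hne
        rw [if_neg hne, Real.cosh_zero, sub_self]
      · intro hh
        exact absurd (Finset.mem_univ e) hh
    rw [e1, e2] at h1
    have h2 := mul_le_mul_of_nonneg_left (cosh_sub_le hs) hb.le
    linarith
  have h1 := key 1 (by simp)
  have h2 := key (-1) (by simp)
  rw [abs_le]
  constructor <;> linarith

/-- **energy off the cores** -/
theorem JB.off (h : JB b S κ v) (hb : 0 < b) : nOff S v ≤ 2 * κ * (κ + 2 * b) := by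
  have hκ := h.nonneg
  have hc : 0 < κ + 2 * b := by linarith
  set τ : ℝ := (κ + 2 * b)⁻¹ with hτ
  have hτ0 : 0 < τ := inv_pos.2 hc
  have h1 := h (fun e => if e.1 ∈ S then 0 else τ * v e) fun e he => if_pos he
  have e1 : ∑ e, (if e.1 ∈ S then 0 else τ * v e) * v e = τ * nOff S v := by
    unfold nOff
    rw [Finset.mul_sum]
    refine Finset.sum_congr rfl fun e _ => ?_
    split_ifs <;> ring
  have e2 : ∑ e, (Real.cosh (if e.1 ∈ S then 0 else τ * v e) - 1) ≤ τ ^ 2 * nOff S v := by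
    unfold nOff
    rw [Finset.mul_sum]
    refine Finset.sum_le_sum fun e _ => ?_
    split_ifs with he
    · rw [Real.cosh_zero]; simp
    · have h2 : |τ * v e| ≤ 1 := by
        rw [abs_mul, abs_of_pos hτ0, hτ, inv_mul_le_iff₀ hc]
        have := h.edge hb he
        linarith
      rw [← mul_pow]
      exact cosh_sub_le h2
  rw [e1] at h1
  have h3 := mul_le_mul_of_nonneg_left e2 hb.le
  have h4 : b * τ ≤ 1 / 2 := by
    rw [hτ, ← div_eq_mul_inv, div_le_iff₀ hc]
    linarith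
  have hn := nOff_nonneg S v
  have h5 : b * (τ ^ 2 * nOff S v) ≤ 1 / 2 * (τ * nOff S v) := by
    have := mul_le_mul_of_nonneg_right h4 (mul_nonneg hτ0.le hn)
    calc b * (τ ^ 2 * nOff S v) = b * τ * (τ * nOff S v) := by ring
      _ ≤ _ := this
  have h6 : τ * nOff S v ≤ 2 * κ := by linarith
  have h7 := mul_le_mul_of_nonneg_left h6 hc.le
  rw [← mul_assoc, hτ, mul_inv_cancel₀ hc.ne', one_mul] at h7
  linarith

/-- total energy -/
theorem JB.all (h : JB b (∅ : Finset (V N)) κ v) (hb : 0 < b) : nrm v ≤ 2 * κ * (κ + 2 * b) := by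
  have h1 := h.off hb
  have e : nOff (∅ : Finset (V N)) v = nrm v := by
    unfold nOff H817.nrm
    exact Finset.sum_congr rfl fun e _ => by simp
  rwa [e] at h1

/-- two mean fields -/
lemma nOff_sub (S : Finset (V N)) (f g : V N × Bool → ℝ) :
    nOff S (fun e => f e - g e) ≤ 2 * nOff S f + 2 * nOff S g := by
  unfold nOff
  rw [Finset.mul_sum, Finset.mul_sum, ← Finset.sum_add_distrib]
  refine Finset.sum_le_sum fun e _ => ?_
  split_ifs
  · simp
  · nlinarith [sq_nonneg (f e + g e)]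

lemma nrm_sub (f g : V N × Bool → ℝ) :
    nrm (fun e => f e - g e) ≤ 2 * nrm f + 2 * nrm g := by
  unfold H817.nrm
  rw [Finset.mul_sum, Finset.mul_sum, ← Finset.sum_add_distrib]
  exact Finset.sum_le_sum fun e _ => by nlinarith [sq_nonneg (f e + g e)]

/-- **energy of a field `k` with `∇k = v - β`**: Jensen bounds for `v` (price `κ₁` off the cores,
`κ₀` everywhere) and the energies of `β` -/
theorem qf_JB {A : Matrix (V N) (V N) ℝ} {CA t : ℝ} (hb : 0 < b) (h0 : ∀ F, 0 ≤ qf A F)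
    (hC : ∀ F, qf A F ≤ CA * nrm (gr F)) (hCA : 0 ≤ CA) (ht : ∀ F, qf A F ≤ t * ∑ x, F x ^ 2)
    (ht0 : 0 ≤ t) {r : ℕ} (hr : 1 ≤ r) (hrN : r ≤ N) {β : V N × Bool → ℝ} {k : V N → ℝ}
    (hk : ∀ e, gr k e = v e - β e) {κ₀ κ₁ B₀ B₁ : ℝ} (j1 : JB b S κ₁ v)
    (j0 : JB b (∅ : Finset (V N)) κ₀ v) (hB1 : nOff S β ≤ B₁) (hB0 : nrm β ≤ B₀) :
    qf A k ≤ 4 * CA * ((4 * κ₁ * (κ₁ + 2 * b) + 2 * B₁) +
        (S.card : ℝ) / (r : ℝ) ^ 2 * (4 * κ₀ * (κ₀ + 2 * b) + 2 * B₀)) +
      4 * t * (r : ℝ) ^ 2 * (4 * κ₀ * (κ₀ + 2 * b) + 2 * B₀) := by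
  have hg : gr k = fun e => v e - β e := funext hk
  have h1 := qf_mol h0 hC hCA ht ht0 hr hrN S k
  have h2 := nOff_sub S v β
  have h3 := nrm_sub v β
  rw [← hg] at h2 h3
  have h4 := j1.off hb
  have h5 := j0.all hb
  have h6 : nOff S (gr k) ≤ 4 * κ₁ * (κ₁ + 2 * b) + 2 * B₁ := by linarith
  have h7 : nrm (gr k) ≤ 4 * κ₀ * (κ₀ + 2 * b) + 2 * B₀ := by linarith
  have h8 : nIn S (gr k) ≤ 4 * κ₀ * (κ₀ + 2 * b) + 2 * B₀ := (nIn_le S _).trans h7
  have hc : 0 ≤ (S.card : ℝ) / (r : ℝ) ^ 2 := by positivity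
  have h9 := mul_le_mul_of_nonneg_left h8 hc
  have h10 := mul_le_mul_of_nonneg_left (add_le_add h6 h9) (by positivity : 0 ≤ 4 * CA)
  have h11 := mul_le_mul_of_nonneg_left h7 (by positivity : 0 ≤ 4 * t * (r : ℝ) ^ 2)
  linarith

end JB

/-! ### potentials -/

section pot

variable {N : ℕ} [NeZero N]

lemma bf_lap (F u : V N → ℝ) : bf lapM F u = ∑ e, gr F e * gr u e := by
  have h1 := H37.qf_add_vec (ti_lapM (N := N)).transpose F u
  rw [H817.qf_lap, H817.qf_lap, H817.qf_lap] at h1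
  have h2 : nrm (gr (F + u)) = nrm (gr F) + 2 * (∑ e, gr F e * gr u e) + nrm (gr u) := by
    unfold H817.nrm
    rw [Finset.mul_sum, ← Finset.sum_add_distrib, ← Finset.sum_add_distrib]
    refine Finset.sum_congr rfl fun e _ => ?_
    have : gr (F + u) e = gr F e + gr u e := by
      obtain ⟨x, t⟩ := e
      cases t
      · simp only [H817.gr_false, Pi.add_apply]; ring
      · simp only [H817.gr_true, Pi.add_apply]; ring
    rw [this]
    ring
  linarith

/-- every neutral functional is a potential flow -/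
theorem exists_pot {c : V N → ℝ} (hc : ∑ x, c x = 0) :
    ∃ u : V N → ℝ, ∀ F, lin c F = ∑ e, gr u e * gr F e := by
  have hn : ∀ k : V N, (EE (-k))⁻¹ = (EE k)⁻¹ := fun k => by rw [H864.EE_neg]
  have h1 : (lapM : Matrix (V N) (V N) ℝ) * mlt (fun k => (EE k)⁻¹) = Pn := by
    refine H864.sym_inj (ti_lapM.mul (ti_mlt _)) H963.ti_Pn fun k => ?_
    rw [H864.sym_mul ti_lapM (ti_mlt _), sym_lapM, sym_mlt _ hn, H963.sym_Pn]
    split_ifs with hk
    · rw [hk, TM.H764.EE_zero, zero_mul]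
    · exact mul_inv_cancel₀ (H817.EE_pos hk).ne'
  refine ⟨mlt (fun k => (EE k)⁻¹) *ᵥ c, fun F => ?_⟩
  have h2 : lapM *ᵥ (mlt (fun k => (EE k)⁻¹) *ᵥ c) = c := by
    rw [mulVec_mulVec, h1]
    have h3 := H963.ntr_of_neu (1 : Matrix (V N) (V N) ℝ) 1 (F := c) hc
    rw [one_mulVec] at h3
    exact h3
  have h4 := bf_lap F (mlt (fun k => (EE k)⁻¹) *ᵥ c)
  rw [H37.bf_eq, h2] at h4
  unfold lin
  have h5 : F ⬝ᵥ c = ∑ x, c x * F x := by
    simp only [dotProduct]
    exact Finset.sum_congr rfl fun x _ => mul_comm _ _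
  rw [← h5, h4]
  exact Finset.sum_congr rfl fun e _ => mul_comm _ _

/-- the energy of the potential flow from the energy bound of the functional -/
theorem pot_le {c u : V N → ℝ} (h : ∀ F, lin c F = ∑ e, gr u e * gr F e) {κ : ℝ}
    (hκ : ∀ F, lin c F ^ 2 ≤ κ * nrm (gr F)) (hκ0 : 0 ≤ κ) : nrm (gr u) ≤ κ := by
  have h1 : lin c u = nrm (gr u) := by
    rw [h]
    unfold H817.nrm
    exact Finset.sum_congr rfl fun e _ => by ring
  have h2 := hκ u
  rw [h1] at h2
  have h3 : 0 ≤ nrm (gr u) := Finset.sum_nonneg fun _ _ => sq_nonneg _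
  rcases h3.eq_or_lt with h4 | h4
  · rw [← h4]; exact hκ0
  · by_contra hcon
    push Not at hcon
    nlinarith

end pot

/-! ### the exponential inequality -/

section expd

variable {N : ℕ} [NeZero N] {b : ℝ} {η : Ed N → ℤ} {S : Finset (V N)} {K : ℝ}

/-- the gradient of the dislocated heights -/
def XD (η : Ed N → ℤ) (h : V N → ℤ) (e : Ed N) : ℝ := ((h (eT N e) - h (eS N e) + η e : ℤ) : ℝ)

lemma XD_eq (η : Ed N → ℤ) (h : V N → ℤ) (e : Ed N) : XD η h e = gr (re h) e + η e := by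
  obtain ⟨x, t⟩ := e
  unfold XD eT eS re
  cases t
  · rw [H817.gr_false]
    push_cast
    rfl
  · rw [H817.gr_true]
    push_cast
    rfl

/-- **(EXP-D)** with price `K` for the flows which vanish on the edges starting in `S` -/
def EXD (N : ℕ) [NeZero N] (b : ℝ) (η : Ed N → ℤ) (S : Finset (V N)) (K : ℝ) : Prop :=
  ∀ j : Ed N → ℝ, (∀ e, e.1 ∈ S → j e = 0) →
    (Summable fun h => pin (wTD N b η) 0 h * Real.exp (∑ e, j e * XD η h e)) ∧
    ∑' h, pin (wTD N b η) 0 h * Real.exp (∑ e, j e * XD η h e) ≤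
      K * Real.exp (b * ∑ e, (Real.cosh (j e) - 1)) * Zp (wTD N b 0) 0

/-- the mean gradient of the dislocated heights -/
def vD (N : ℕ) [NeZero N] (b : ℝ) (η : Ed N → ℤ) (e : Ed N) : ℝ :=
  (∑' h, pin (wTD N b η) 0 h * XD η h e) / Zp (wTD N b η) 0

lemma sum_pin (hb : 0 < b) (η : Ed N → ℤ) : Summable (pin (wTD N b η) 0) := by
  have := ((H883.bw_wTD (N := N) hb η).em0 0).sum 0
  simpa using this

lemma pin_nn (hb : 0 < b) (η : Ed N → ℤ) (h : V N → ℤ) : 0 ≤ pin (wTD N b η) 0 h :=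
  H963.pin_nonneg (H883.bw_wTD (N := N) hb η).nn 0 h

lemma abs_re_le (h : V N → ℤ) (x : V N) : |re h x| ≤ nh h := by
  unfold nh
  exact Finset.single_le_sum (f := fun y => |((h y : ℤ) : ℝ)|) (fun _ _ => abs_nonneg _)
    (Finset.mem_univ x)

lemma sum_re (hb : 0 < b) (η : Ed N → ℤ) (x : V N) (c : ℝ) :
    Summable fun h => pin (wTD N b η) 0 h * (re h x - c) := by
  have a1 := ((H883.bw_wTD (N := N) hb η).em0 0).sum 1
  simp only [one_mul] at a1
  have h3 : Summable fun h => pin (wTD N b η) 0 h * (Real.exp (nh h) + |c|) := by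
    refine (a1.add ((sum_pin hb η).mul_right |c|)).congr fun h => ?_
    ring
  refine Summable.of_norm_bounded h3 fun h => ?_
  rw [Real.norm_eq_abs, abs_mul, abs_of_nonneg (pin_nn hb η h)]
  refine mul_le_mul_of_nonneg_left ?_ (pin_nn hb η h)
  refine (abs_sub _ _).trans ?_
  have h4 := abs_re_le h x
  have h5 := Real.add_one_le_exp (nh h)
  linarith

lemma sum_XD (hb : 0 < b) (η : Ed N → ℤ) (e : Ed N) :
    Summable fun h => pin (wTD N b η) 0 h * XD η h e := by
  have h1 := (sum_re hb η (eT N e) (-(η e : ℝ))).sub (sum_re hb η (eS N e) 0)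
  refine h1.congr fun h => ?_
  unfold XD re
  push_cast
  ring

/-- **Jensen** -/
theorem EXD.jb (h : EXD N b η S K) (hb : 0 < b) (hK : 0 < K) :
    JB b S (Real.log (K / CT N b η)) (vD N b η) := by
  intro j hj
  obtain ⟨s1, h1⟩ := h j hj
  have hZ := (H883.bw_wTD (N := N) hb η).Zp_pos 0
  have hZ0 := (H883.bw_wTD (N := N) hb 0).Zp_pos 0
  have hC := H883.CT_pos (N := N) hb η
  have hX : Summable fun h => pin (wTD N b η) 0 h * ∑ e, j e * XD η h e := by
    have : Summable fun h => ∑ e, j e * (pin (wTD N b η) 0 h * XD η h e) :=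
      summable_sum fun e _ => (sum_XD hb η e).mul_left (j e)
    refine this.congr fun h => ?_
    rw [Finset.mul_sum]
    exact Finset.sum_congr rfl fun e _ => by ring
  have hJ := jensen_w (pin_nn hb η) (sum_pin hb η) hZ hX s1
  have e1 : (∑' h, pin (wTD N b η) 0 h * ∑ e, j e * XD η h e) / Zp (wTD N b η) 0 =
      ∑ e, j e * vD N b η e := by
    have e2 : ∑' h, pin (wTD N b η) 0 h * ∑ e, j e * XD η h e =
        ∑ e, j e * ∑' h, pin (wTD N b η) 0 h * XD η h e := by
      have e3 : ∀ h, pin (wTD N b η) 0 h * ∑ e, j e * XD η h e =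
          ∑ e, j e * (pin (wTD N b η) 0 h * XD η h e) := by
        intro h
        rw [Finset.mul_sum]
        exact Finset.sum_congr rfl fun e _ => by ring
      simp only [e3]
      rw [Summable.tsum_finsetSum fun e _ => (sum_XD hb η e).mul_left (j e)]
      exact Finset.sum_congr rfl fun e _ => tsum_mul_left
    rw [e2, Finset.sum_div]
    exact Finset.sum_congr rfl fun e _ => by unfold vD; ring
  have e4 : (∑' h, pin (wTD N b η) 0 h) = Zp (wTD N b η) 0 := rfl
  rw [e4, e1] at hJ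
  have h2 : (∑' h, pin (wTD N b η) 0 h * Real.exp (∑ e, j e * XD η h e)) / Zp (wTD N b η) 0 ≤
      K / CT N b η * Real.exp (b * ∑ e, (Real.cosh (j e) - 1)) := by
    rw [div_le_iff₀ hZ]
    refine h1.trans (le_of_eq ?_)
    unfold H883.CT
    field_simp
  have h3 := hJ.trans h2
  have h4 := Real.log_le_log (Real.exp_pos _) h3
  rw [Real.log_exp, Real.log_mul (div_pos hK hC).ne' (Real.exp_pos _).ne', Real.log_exp] at h4
  exact h4

/-- the mean of the field -/
lemma gr_kD (hb : 0 < b) (η : Ed N → ℤ) (φ : V N → ℝ) (e : Ed N) :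
    gr (kD (wTD N b) 0 η φ) e = vD N b η e - eF η φ e := by
  have hZ := (H883.bw_wTD (N := N) hb η).Zp_pos 0
  have key : ∀ x y : V N, kD (wTD N b) 0 η φ y - kD (wTD N b) 0 η φ x =
      (∑' h, pin (wTD N b η) 0 h * ((re h y - re h x) - (φ y - φ x))) / Zp (wTD N b η) 0 := by
    intro x y
    unfold kD
    rw [← sub_div, ← (sum_re hb η y (φ y)).tsum_sub (sum_re hb η x (φ x))]
    congr 1
    exact tsum_congr fun h => by ring
  have h2 : ∀ (x y : V N) (m : ℤ) (g : ℝ), (∀ h : V N → ℤ, XD η h e = re h y - re h x + m) →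
      g = φ y - φ x →
      (∑' h, pin (wTD N b η) 0 h * ((re h y - re h x) - (φ y - φ x))) / Zp (wTD N b η) 0 =
        vD N b η e - (m + g) := by
    intro x y m g hX hg
    unfold vD
    have e1 : ∀ h, pin (wTD N b η) 0 h * ((re h y - re h x) - (φ y - φ x)) =
        pin (wTD N b η) 0 h * XD η h e - (m + g) * pin (wTD N b η) 0 h := by
      intro h
      rw [hX, hg]
      ring
    simp only [e1]
    rw [(sum_XD hb η e).tsum_sub ((sum_pin hb η).mul_left _), tsum_mul_left, sub_div]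
    have e4 : (∑' h, pin (wTD N b η) 0 h) = Zp (wTD N b η) 0 := rfl
    rw [e4, mul_div_cancel_right₀ _ hZ.ne']
  obtain ⟨x, t⟩ := e
  unfold H817.eF
  cases t
  · rw [H817.gr_false, H817.gr_false, key]
    exact h2 _ _ _ _ (fun h => by rw [XD_eq, H817.gr_false]) rfl
  · rw [H817.gr_true, H817.gr_true, key]
    exact h2 _ _ _ _ (fun h => by rw [XD_eq, H817.gr_true]) rfl

/-- **second moment of a linear functional of small energy under the dislocated law** -/
theorem EXD.second (h : EXD N b η (∅ : Finset (V N)) K) (hb : 0 < b) (hK : 0 < K)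
    (φ : V N → ℝ) {c : V N → ℝ} (hc : ∑ x, c x = 0) {κ B₀ : ℝ} (hκ : 0 < κ)
    (hcκ : ∀ F, lin c F ^ 2 ≤ κ * nrm (gr F)) (hB0 : nrm (eF η φ) ≤ B₀) :
    (∑' h, pin (wTD N b η) 0 h * lin c (re h - φ) ^ 2) / Zp (wTD N b η) 0 ≤
      κ * (24 * (1 + Real.log 2 + b + Real.log (K / CT N b η)) ^ 2 + 2 * B₀) := by
  obtain ⟨u, hu⟩ := exists_pot hc
  have hnu := pot_le hu hcκ hκ.le
  have hZ := (H883.bw_wTD (N := N) hb η).Zp_pos 0
  have hC := H883.CT_pos (N := N) hb η
  have hnn : 0 ≤ nrm (gr u) := Finset.sum_nonneg fun _ _ => sq_nonneg _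
  set s : ℝ := (Real.sqrt κ)⁻¹ with hs
  have hsq : 0 < Real.sqrt κ := Real.sqrt_pos.2 hκ
  have hs0 : 0 < s := inv_pos.2 hsq
  have hsk : s ^ 2 * κ = 1 := by
    rw [hs, inv_pow, Real.sq_sqrt hκ.le, inv_mul_cancel₀ hκ.ne']
  have hsum1 : s ^ 2 * nrm (gr u) ≤ 1 := by
    rw [← hsk]
    exact mul_le_mul_of_nonneg_left hnu (sq_nonneg _)
  have hcosh : ∀ σ : ℝ, σ ^ 2 = 1 → ∑ e, (Real.cosh (σ * s * gr u e) - 1) ≤ 1 := by
    intro σ hσ
    have h1 : ∀ e, (σ * s * gr u e) ^ 2 ≤ 1 := by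
      intro e
      have h2 : gr u e ^ 2 ≤ nrm (gr u) := Finset.single_le_sum (f := fun e => gr u e ^ 2)
        (fun _ _ => sq_nonneg _) (Finset.mem_univ e)
      have h3 := mul_le_mul_of_nonneg_left h2 (sq_nonneg s)
      rw [mul_pow, mul_pow, hσ, one_mul]
      linarith
    have h4 : ∑ e, (Real.cosh (σ * s * gr u e) - 1) ≤ ∑ e, (σ * s * gr u e) ^ 2 :=
      Finset.sum_le_sum fun e _ => cosh_sub_le ((sq_le_one_iff_abs_le_one _).1 (h1 e))
    have h5 : ∑ e, (σ * s * gr u e) ^ 2 = s ^ 2 * nrm (gr u) := by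
      unfold H817.nrm
      rw [Finset.mul_sum]
      refine Finset.sum_congr rfl fun e _ => ?_
      rw [mul_pow, mul_pow, hσ, one_mul]
    linarith
  have hjb := (h.jb hb hK).nonneg
  set Y : ℝ := K / CT N b η * Real.exp b with hY
  have hKC : 0 < K / CT N b η := div_pos hK hC
  have hY1 : 1 ≤ Y := by
    have h1 : 1 ≤ K / CT N b η := by
      rw [← Real.exp_zero, ← Real.exp_log hKC]
      exact Real.exp_le_exp.2 hjb
    have h2 : 1 ≤ Real.exp b := Real.one_le_exp hb.le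
    rw [hY]
    nlinarith
  have hbd : ∀ σ : ℝ, σ ^ 2 = 1 →
      (Summable fun h => pin (wTD N b η) 0 h * Real.exp (σ * (s * ∑ e, gr u e * XD η h e))) ∧
      ∑' h, pin (wTD N b η) 0 h * Real.exp (σ * (s * ∑ e, gr u e * XD η h e)) ≤
        Y * ∑' h, pin (wTD N b η) 0 h := by
    intro σ hσ
    obtain ⟨s1, h1⟩ := h (fun e => σ * s * gr u e) fun e he => absurd he (Finset.notMem_empty _)
    have e1 : ∀ h : V N → ℤ, ∑ e, σ * s * gr u e * XD η h e =
        σ * (s * ∑ e, gr u e * XD η h e) := by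
      intro h
      rw [Finset.mul_sum, Finset.mul_sum]
      exact Finset.sum_congr rfl fun e _ => by ring
    simp only [e1] at s1 h1
    refine ⟨s1, h1.trans ?_⟩
    have h2 := mul_le_mul_of_nonneg_left (hcosh σ hσ) hb.le
    rw [mul_one] at h2
    have h3 := Real.exp_le_exp.2 h2
    have hZ0 := (H883.bw_wTD (N := N) hb 0).Zp_pos 0
    have e4 : (∑' h, pin (wTD N b η) 0 h) = Zp (wTD N b η) 0 := rfl
    rw [e4, hY]
    have e5 : K / CT N b η * Real.exp b * Zp (wTD N b η) 0 = K * Real.exp b * Zp (wTD N b 0) 0 := by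
      unfold H883.CT
      field_simp
    rw [e5]
    exact mul_le_mul_of_nonneg_right (mul_le_mul_of_nonneg_left h3 hK.le) hZ0.le
  obtain ⟨a1, a2⟩ := hbd 1 (by norm_num)
  obtain ⟨a3, a4⟩ := hbd (-1) (by norm_num)
  simp only [one_mul, neg_mul] at a1 a2 a3 a4
  obtain ⟨s2, h2⟩ := second_w (pin_nn hb η) (sum_pin hb η) a1 a3 hY1 a2 a4
  -- the deterministic part
  set d : ℝ := ∑ e, gr u e * eF η φ e with hd
  have hd2 : d ^ 2 ≤ κ * B₀ := by
    have h3 := Finset.sum_mul_sq_le_sq_mul_sq Finset.univ (gr u) (eF η φ)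
    have h4 : d ^ 2 ≤ nrm (gr u) * nrm (eF η φ) := h3
    have h5 : 0 ≤ nrm (eF η φ) := Finset.sum_nonneg fun _ _ => sq_nonneg _
    exact h4.trans (mul_le_mul hnu hB0 h5 hκ.le)
  have hlin : ∀ h : V N → ℤ, lin c (re h - φ) = (∑ e, gr u e * XD η h e) - d := by
    intro h
    rw [hu, hd, ← Finset.sum_sub_distrib]
    refine Finset.sum_congr rfl fun e _ => ?_
    rw [XD_eq]
    unfold H817.eF
    have : gr (re h - φ) e = gr (re h) e - gr φ e := by
      obtain ⟨x, t⟩ := e
      cases t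
      · simp only [H817.gr_false, Pi.sub_apply]; ring
      · simp only [H817.gr_true, Pi.sub_apply]; ring
    rw [this]
    ring
  have hpt : ∀ h : V N → ℤ, pin (wTD N b η) 0 h * lin c (re h - φ) ^ 2 ≤
      2 * κ * (pin (wTD N b η) 0 h * (s * ∑ e, gr u e * XD η h e) ^ 2) +
        2 * (κ * B₀) * pin (wTD N b η) 0 h := by
    intro h
    have h3 := pin_nn hb η h
    set X := ∑ e, gr u e * XD η h e with hX
    have h4 : lin c (re h - φ) ^ 2 ≤ 2 * X ^ 2 + 2 * (κ * B₀) := by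
      rw [hlin]
      nlinarith [sq_nonneg (X + d)]
    have h5 : X ^ 2 = κ * (s * X) ^ 2 := by
      rw [mul_pow, ← mul_assoc, mul_comm κ (s ^ 2), hsk, one_mul]
    have h6 := mul_le_mul_of_nonneg_left h4 h3
    rw [h5] at h6
    linarith
  have hdom : Summable fun h => 2 * κ * (pin (wTD N b η) 0 h *
      (s * ∑ e, gr u e * XD η h e) ^ 2) + 2 * (κ * B₀) * pin (wTD N b η) 0 h :=
    (s2.mul_left _).add ((sum_pin hb η).mul_left _)
  have hsum : Summable fun h => pin (wTD N b η) 0 h * lin c (re h - φ) ^ 2 :=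
    Summable.of_nonneg_of_le (fun h => mul_nonneg (pin_nn hb η h) (sq_nonneg _)) hpt hdom
  have h7 := Summable.tsum_le_tsum hpt hsum hdom
  rw [(s2.mul_left _).tsum_add ((sum_pin hb η).mul_left _), tsum_mul_left, tsum_mul_left] at h7
  have e4 : (∑' h, pin (wTD N b η) 0 h) = Zp (wTD N b η) 0 := rfl
  rw [e4] at h7 h2
  rw [div_le_iff₀ hZ]
  have hlog : Real.log (2 * Y) = Real.log 2 + b + Real.log (K / CT N b η) := by
    rw [hY, Real.log_mul (by norm_num) (by positivity), Real.log_mul hKC.ne' (Real.exp_pos _).ne',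
      Real.log_exp]
    ring
  rw [hlog] at h2
  have h8 := mul_le_mul_of_nonneg_left h2 (by positivity : 0 ≤ 2 * κ)
  have e6 : 1 + (Real.log 2 + b + Real.log (K / CT N b η)) =
      1 + Real.log 2 + b + Real.log (K / CT N b η) := by ring
  rw [e6] at h8
  linarith

end expd

end

end Vale.Agent.P159.H856.Dl
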