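import Vale.Agent.P159.H552.Tl5
import Vale.Agent.P159.H764.Evq2
import Vale.Agent.P159.H253.Sm9
import Vale.Agent.P159.H856.Dl6

/-!
P159 / S list, 270's Ed4 (helper856), part 9: the symmetric exponential moment of ONE position of
the dislocation on the torus (translation invariance of the law and 552's smeared Ginibre
inequality).
-/

set_option linter.unusedSectionVars false

namespace Vale.Agent.P159.H856.Dl

open Finset Matrix MeasureTheory
open scoped ENNReal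
open Vale.Agent.P159.TM.H104 (EM)
open Vale.Agent.P159.TM.Spec (V)
open Vale.Agent.P159.H37 (qf bf Zn)
open Vale.Agent.P159.H770 (GWF Ed wTD)
open Vale.Agent.P159.H963 (pin MF GW An ntr)
open Vale.Agent.P159.H883
open Vale.Agent.P159.H552.Sm
open Vale.Agent.P159.H764.Evq (trX Mv mv_tor)

noncomputable section

section gen

variable {B V : Type} [AddCommGroup B] [Fintype V] [DecidableEq V] [Nonempty V]
variable {w : B → (V → ℤ) → ℝ} {M : Matrix V V ℝ} {m : ℝ} {x₀ : V}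

lemma qf_An_ci (hw : GWF w) (hE : ∀ b x₀, EM (pin (w b) x₀)) (hM : MF M m) (x₀ : V) :
    CI fun F => qf (An (w 0) M m x₀) F := by
  have hP := pc_An (gw0 hw) (gwf_bw hw hE 0) hM x₀
  intro F c
  have h1 := bf_ci (gw0 hw) (gwf_bw hw hE 0) hM x₀ (fun x => F x + c) F c
  have h2 := bf_ci (gw0 hw) (gwf_bw hw hE 0) hM x₀ F F c
  simp only at h1 h2 ⊢
  rw [← H37.bf_self, h1, H37.bf_comm hP.symm, h2, H37.bf_self]

lemma Gx_ci (hw : GWF w) (hE : ∀ b x₀, EM (pin (w b) x₀)) (hM : MF M m) (x₀ : V)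
    (X : B × (V → ℝ)) : CI (Gx w M m x₀ X) := by
  intro F c
  have h1 := qf_An_ci hw hE hM x₀ F c
  have h2 := (gwf_bw hw hE X.1).ci M (X.2 + F) c
  have e : X.2 + (fun x => F x + c) = fun x => (X.2 + F) x + c := by
    funext x
    simp only [Pi.add_apply]
    ring
  unfold Gx gP
  simp only at h1 h2 ⊢
  rw [h1, e, h2]

lemma Rw_ci (hM : MF M m) (x₀ : V) : CI (Rw w M m x₀) := R1_ci hM x₀

lemma smul_addc (s c : ℝ) (F : V → ℝ) : s • (fun x => F x + c) = fun x => (s • F) x + s * c := by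
  funext x
  simp only [Pi.smul_apply, smul_eq_mul]
  ring

lemma Ag_ci (hM : MF M m) (x₀ : V) (s r : ℝ) : CI fun F => F ∈ Ag w M m x₀ s r := by
  intro F c
  show (Rw w M m x₀ ((2 : ℝ) • (s • (fun x => F x + c))) ≤ r) =
    (Rw w M m x₀ ((2 : ℝ) • (s • F)) ≤ r)
  rw [smul_addc, smul_addc, Rw_ci hM x₀ _ _]

lemma ES_ci (hw : GWF w) (hE : ∀ b x₀, EM (pin (w b) x₀)) (hM : MF M m) (x₀ : V)
    (X : B × (V → ℝ)) (s : ℝ) : CI (ES w M m x₀ X s) := by
  intro F c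
  unfold ES
  have h1 := Gx_ci hw hE hM x₀ X (s • F) (s * c)
  have h2 := Gx_ci hw hE hM x₀ X (-(s • F)) (-(s * c))
  have e : -(s • fun x => F x + c) = fun x => (-(s • F)) x + -(s * c) := by
    rw [smul_addc]
    funext x
    simp only [Pi.neg_apply]
    ring
  rw [e, smul_addc, h1, h2]

/-- invariance of the symmetric exponential moment under a symmetry of the law -/
theorem es_lint (hw : GWF w) (hE : ∀ b x₀, EM (pin (w b) x₀)) (hM : MF M m)
    {σ σ' : (V → ℝ) → V → ℝ} {τ : B × (V → ℝ) → B × (V → ℝ)} (h : Mv w M m x₀ σ σ' τ)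
    (hσ : ∀ F, σ' (σ F) = F) (hs : ∀ (s : ℝ) F, σ (s • F) = s • σ F) (hτ : τ 0 = 0)
    (X : B × (V → ℝ)) (s r : ℝ) :
    ∫⁻ F in Ag w M m x₀ s r, ENNReal.ofReal (ES w M m x₀ (τ X) s F) ∂(nuM (w 0) M x₀) =
      ∫⁻ F in Ag w M m x₀ s r, ENNReal.ofReal (ES w M m x₀ X s F) ∂(nuM (w 0) M x₀) := by
  have hA := meas_Ag (x₀ := x₀) hw hE hM s r
  have key : ∀ (X : B × (V → ℝ)) (s : ℝ) (F : V → ℝ),
      Gx w M m x₀ (τ X) (s • σ F) = Gx w M m x₀ X (s • F) := by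
    intro X s F
    have h1 := h.g X (σ (s • F))
    rw [hσ] at h1
    rw [← hs, ← h1]
  have hmem : ∀ F, (σ F ∈ Ag w M m x₀ s r) = (F ∈ Ag w M m x₀ s r) := by
    intro F
    show (Rw w M m x₀ ((2 : ℝ) • (s • σ F)) ≤ r) = (Rw w M m x₀ ((2 : ℝ) • (s • F)) ≤ r)
    have h1 := key 0 (2 * s) F
    rw [hτ, ← Rw_eq hw hM, ← Rw_eq hw hM, mul_smul, mul_smul] at h1
    rw [h1]
  set Φ : (V → ℝ) → ℝ≥0∞ := (Ag w M m x₀ s r).indicator fun F =>
    ENNReal.ofReal (ES w M m x₀ (τ X) s F) with hΦ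
  have hm : Measurable Φ :=
    ((cont_ES hw hE hM (τ X) s).measurable.ennreal_ofReal).indicator hA
  have hci : CI Φ := by
    intro F c
    have h1 : ((fun x => F x + c) ∈ Ag w M m x₀ s r) = (F ∈ Ag w M m x₀ s r) :=
      Ag_ci hM x₀ s r F c
    by_cases hF : F ∈ Ag w M m x₀ s r
    · rw [hΦ, Set.indicator_of_mem hF, Set.indicator_of_mem (h1.symm ▸ hF),
        ES_ci hw hE hM x₀ (τ X) s F c]
    · rw [hΦ, Set.indicator_of_notMem hF, Set.indicator_of_notMem (h1.symm ▸ hF)]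
  have h1 := h.law Φ hci hm
  rw [hΦ, lintegral_indicator hA] at h1
  rw [← h1, ← lintegral_indicator hA]
  refine lintegral_congr fun F => ?_
  by_cases hF : F ∈ Ag w M m x₀ s r
  · rw [Set.indicator_of_mem ((hmem F).symm ▸ hF), Set.indicator_of_mem hF]
    unfold ES
    rw [key, ← neg_smul, ← neg_smul, key]
  · rw [Set.indicator_of_notMem ((hmem F).symm ▸ hF), Set.indicator_of_notMem hF]

end gen

/-! ### the torus -/

section tor

variable {N : ℕ} [NeZero N] {b t : ℝ}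

lemma es_tr (hb : 0 < b) (ht : 0 < t) (a : V N) (X : (Ed N → ℤ) × (V N → ℝ)) (s r : ℝ) :
    ∫ F in Ag (wTD N b) (t • (1 : Matrix (V N) (V N) ℝ)) t 0 s r,
        ES (wTD N b) (t • (1 : Matrix (V N) (V N) ℝ)) t 0 (trX a X) s F
        ∂(nuM (wTD N b 0) (t • (1 : Matrix (V N) (V N) ℝ)) 0) =
      ∫ F in Ag (wTD N b) (t • (1 : Matrix (V N) (V N) ℝ)) t 0 s r,
        ES (wTD N b) (t • (1 : Matrix (V N) (V N) ℝ)) t 0 X s F
        ∂(nuM (wTD N b 0) (t • (1 : Matrix (V N) (V N) ℝ)) 0) := by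
  have hW := H770.gwf_wTD (N := N) hb
  have hE := fun (e : Ed N → ℤ) (x : V N) => em_pin_wTD (N := N) hb e x
  have hM := mf_scalar (N := N) ht
  have h := es_lint hW hE hM (mv_tor (N := N) hb ht a)
    (fun F => by rw [trS_trS, neg_add_cancel, trS_zero]) (fun s F => rfl) rfl X s r
  have hc : ∀ Y : (Ed N → ℤ) × (V N → ℝ),
      ∫ F in Ag (wTD N b) (t • (1 : Matrix (V N) (V N) ℝ)) t 0 s r,
        ES (wTD N b) (t • (1 : Matrix (V N) (V N) ℝ)) t 0 Y s F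
        ∂(nuM (wTD N b 0) (t • (1 : Matrix (V N) (V N) ℝ)) 0) =
      (∫⁻ F in Ag (wTD N b) (t • (1 : Matrix (V N) (V N) ℝ)) t 0 s r,
        ENNReal.ofReal (ES (wTD N b) (t • (1 : Matrix (V N) (V N) ℝ)) t 0 Y s F)
        ∂(nuM (wTD N b 0) (t • (1 : Matrix (V N) (V N) ℝ)) 0)).toReal := fun Y =>
    integral_eq_lintegral_of_nonneg_ae (Filter.Eventually.of_forall fun F => (ES_pos _ _ _).le)
      (cont_ES hW hE hM Y s).measurable.aestronglyMeasurable
  rw [hc, hc, h]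

/-- **(SM) for one position on the torus** -/
theorem sm_tor {ι : Type*} [Fintype ι] (hb : 0 < b) (ht : 0 < t) (a : ι → V N) {p : ι → ℝ}
    (hp : ∀ v, 0 ≤ p v) (hp1 : ∑ v, p v = 1) (X : (Ed N → ℤ) × (V N → ℝ)) (s r : ℝ) {S : ℝ}
    (hS : SS (wTD N b) 0 p (fun v => trX (a v) X) ≤ S) (hX : ∃ v, 0 < p v ∧ trX (a v) X = X) :
    IntegrableOn (ES (wTD N b) (t • (1 : Matrix (V N) (V N) ℝ)) t 0 X s)
      (Ag (wTD N b) (t • (1 : Matrix (V N) (V N) ℝ)) t 0 s r)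
      (nuM (wTD N b 0) (t • (1 : Matrix (V N) (V N) ℝ)) 0) ∧
    ∫ F in Ag (wTD N b) (t • (1 : Matrix (V N) (V N) ℝ)) t 0 s r,
        ES (wTD N b) (t • (1 : Matrix (V N) (V N) ℝ)) t 0 X s F
        ∂(nuM (wTD N b 0) (t • (1 : Matrix (V N) (V N) ℝ)) 0) ≤
      Real.sqrt S * Real.exp (r / 2) := by
  have hW := H770.gwf_wTD (N := N) hb
  have hE := fun (e : Ed N → ℤ) (x : V N) => em_pin_wTD (N := N) hb e x
  have hM := mf_scalar (N := N) ht
  constructor
  · obtain ⟨v, hv, hvX⟩ := hX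
    have h := (ES_intOn hW hE hM (0 : V N) hp (fun v => trX (a v) X) s r v).const_mul (p v)⁻¹
    refine h.congr (Filter.Eventually.of_forall fun F => ?_)
    simp only
    rw [hvX, ← mul_assoc, inv_mul_cancel₀ hv.ne', one_mul]
  · refine (sm_one hW hE hM (0 : V N) hp hp1 (fun v => trX (a v) X) X s r
      fun v => es_tr hb ht (a v) X s r).trans ?_
    exact mul_le_mul_of_nonneg_right (Real.sqrt_le_sqrt hS) (Real.exp_pos _).le

end tor

end

end Vale.Agent.P159.H856.Dl
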