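import Vale.Agent.P159.H37.Fp3
import Vale.Agent.P159.H856.Dl8
import Vale.Agent.P159.H856.Dl9

/-!
P159 / S list, 270's Ed4 (helper856), part 10: **the zero background number of every far pair is at
most `C (1 + log (N/ρ)) ^ 2`**, from the price bound `RecAt` at the scale of the pair and the
probability of the bad set in the presence of the dislocation.
-/

set_option linter.unusedSectionVars false

namespace Vale.Agent.P159.H856.Dl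

open Finset Matrix MeasureTheory
open Vale.Agent.P159 Vale.Agent.P159.TM.H331 Vale.Agent.P159.H773 Vale.Agent.P159.H253.Rec
open Vale.Agent.P159.TM.H104 (EM)
open Vale.Agent.P159.TM.H764 (EE)
open Vale.Agent.P159.TM.Spec (V)
open Vale.Agent.P159.H770 (GWF Ed wTD)
open Vale.Agent.P159.H817 (gr nrm eF sz bD CG)
open Vale.Agent.P159.H963 (pin MF GW An ntr Pin)
open Vale.Agent.P159.H883
open Vale.Agent.P159.H552.Sm
open Vale.Agent.P159.H253.Sm (cz dsp dsp_spec nm_dsp wU dU wU_nonneg wU_sum CX_eq SS_far_exp)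
open Vale.Agent.P159.H764.Evq (trX)

noncomputable section

lemma cz_zero (N : ℕ) : cz N 0 = 0 := by
  unfold cz
  ext <;> simp

lemma wU_pos (ρ : ℕ) (u : {u : ℤ × ℤ // u ∈ box ρ}) : 0 < wU ρ u := by
  unfold wU
  exact inv_pos.2 (H253.Sm.card_box_pos ρ)

/-- **(SM) for a far pair** -/
theorem sm_far {b α C1 k : ℝ} (hb : 0 < b) (hα : 1 / 4 ≤ α) (hα2 : α < 1 / 2) (hC1 : 0 ≤ C1)
    (hk : 0 < k) :
    ∃ C : ℝ, 0 ≤ C ∧ ∀ (N : ℕ) [NeZero N] (L ρ R : ℕ) (t s r : ℝ) (η : Ed N → ℤ) (p q : V N)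
      (φ : V N → ℝ), 0 < t → RecAt b α C1 R → R ≤ 2 * sz (q - p) → sz (q - p) ≤ 4 * R →
      16 * R ≤ N → H817.IsPath p q (H817.v1 p q) (H817.v2 p q) L η → 1 ≤ ρ → 8 * ρ ≤ R →
      k * ga b R ≤ CT N b η →
      IntegrableOn (ES (wTD N b) (t • (1 : Matrix (V N) (V N) ℝ)) t 0 (η, φ) s)
        (Ag (wTD N b) (t • (1 : Matrix (V N) (V N) ℝ)) t 0 s r)
        (nuM (wTD N b 0) (t • (1 : Matrix (V N) (V N) ℝ)) 0) ∧
      ∫ F in Ag (wTD N b) (t • (1 : Matrix (V N) (V N) ℝ)) t 0 s r,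
          ES (wTD N b) (t • (1 : Matrix (V N) (V N) ℝ)) t 0 (η, φ) s F
          ∂(nuM (wTD N b 0) (t • (1 : Matrix (V N) (V N) ℝ)) 0) ≤
        CT N b η ^ 2 * Real.exp (Real.log ((R : ℝ) / ρ) + C + r / 2) := by
  obtain ⟨C, hC, h⟩ := SS_far_exp (α := α) (C1 := C1) hb hα hα2 hC1 hk
  refine ⟨C, hC, fun N _ L ρ R t s r η p q φ ht h1 h2 h3 h4 h5 h6 h7 h8 => ?_⟩
  have hS := h N L ρ R η p q 0 (fun u => trS (-cz N u) φ) φ h1 h2 h3 h4 h5 h6 h7 h8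
  have h0 : (0 : ℤ × ℤ) ∈ box ρ := by
    rw [XY.mem_box_iff_nm, XY.nm_zero]
    exact Nat.zero_le _
  have hX : trX (-cz N (0 : ℤ × ℤ)) (η, φ) = (η, φ) := by
    rw [cz_zero, neg_zero]
    unfold trX trE trS
    simp only [add_zero]
  obtain ⟨i1, i2⟩ := sm_tor hb ht (fun u : {u : ℤ × ℤ // u ∈ box ρ} => -cz N u.1)
    (wU_nonneg ρ) (wU_sum ρ) (η, φ) s r hS ⟨⟨0, h0⟩, wU_pos ρ _, hX⟩
  refine ⟨i1, i2.trans (le_of_eq ?_)⟩
  have hc := CT_pos (N := N) hb η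
  rw [CX_eq]
  have e : Real.exp (2 * (Real.log ((R : ℝ) / ρ) + C)) * CT N b η ^ 4 =
      (Real.exp (Real.log ((R : ℝ) / ρ) + C) * CT N b η ^ 2) ^ 2 := by
    rw [mul_pow, ← Real.exp_nat_mul, ← pow_mul]
    norm_num
  rw [e, Real.sqrt_sq (by positivity), Real.exp_add (Real.log ((R : ℝ) / ρ) + C)]
  ring

/-! ### numbers -/

/-- the final number -/
lemma num_fin {CA c0 c1 D0 b n ℓ κ0 κ1 t ρ r Sc : ℝ} (hb : 0 < b) (hCA : 0 < CA) (h0c0 : 0 ≤ c0)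
    (h0c1 : 0 ≤ c1) (hD0 : 0 ≤ D0) (hn : 1 ≤ n) (hℓ : 1 ≤ ℓ) (k00 : 0 ≤ κ0) (k0 : κ0 ≤ c0 * n)
    (k10 : 0 ≤ κ1) (k1 : κ1 ≤ c1 * ℓ) (ht : 0 < t) (hρ : 0 < ρ) (hr : 0 < r)
    (hS : Sc ≤ 144 * ρ ^ 2) (hρr : ρ * n ≤ r) (htr : t * r ^ 2 * n ^ 2 ≤ 1) :
    324 * (4 * CA * ((4 * κ1 * (κ1 + 2 * b) + 2 * (D0 * ℓ)) +
        Sc / r ^ 2 * (4 * κ0 * (κ0 + 2 * b) + 2 * (D0 * n))) +
      4 * t * r ^ 2 * (4 * κ0 * (κ0 + 2 * b) + 2 * (D0 * n))) + 27 ≤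
    (324 * (4 * CA * ((4 * c1 * (c1 + 2 * b) + 2 * D0) +
      144 * (4 * c0 * (c0 + 2 * b) + 2 * D0)) + 4 * (4 * c0 * (c0 + 2 * b) + 2 * D0)) + 27) *
        ℓ ^ 2 := by
  set E0 : ℝ := 4 * c0 * (c0 + 2 * b) + 2 * D0 with hE0
  set E1 : ℝ := 4 * c1 * (c1 + 2 * b) + 2 * D0 with hE1
  have hE0p : 0 ≤ E0 := by rw [hE0]; positivity
  have hE1p : 0 ≤ E1 := by rw [hE1]; positivity
  have hn0 : 0 ≤ n := by linarith
  have hT0 : 4 * κ0 * (κ0 + 2 * b) + 2 * (D0 * n) ≤ E0 * n ^ 2 := by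
    have h1 : κ0 * (κ0 + 2 * b) ≤ (c0 * n) * ((c0 + 2 * b) * n) := by
      have h2 : κ0 + 2 * b ≤ (c0 + 2 * b) * n := by nlinarith
      exact mul_le_mul k0 h2 (by linarith) (mul_nonneg h0c0 hn0)
    have h3 : D0 * n ≤ D0 * n ^ 2 := mul_le_mul_of_nonneg_left (by nlinarith) hD0
    rw [hE0]
    linarith
  have hT1 : 4 * κ1 * (κ1 + 2 * b) + 2 * (D0 * ℓ) ≤ E1 * ℓ ^ 2 := by
    have h1 : κ1 * (κ1 + 2 * b) ≤ (c1 * ℓ) * ((c1 + 2 * b) * ℓ) := by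
      have h2 : κ1 + 2 * b ≤ (c1 + 2 * b) * ℓ := by nlinarith
      exact mul_le_mul k1 h2 (by linarith) (mul_nonneg h0c1 (by linarith))
    have h3 : D0 * ℓ ≤ D0 * ℓ ^ 2 := mul_le_mul_of_nonneg_left (by nlinarith) hD0
    rw [hE1]
    linarith
  have hT0p : 0 ≤ 4 * κ0 * (κ0 + 2 * b) + 2 * (D0 * n) := by positivity
  have hSS : Sc / r ^ 2 * (4 * κ0 * (κ0 + 2 * b) + 2 * (D0 * n)) ≤ 144 * E0 := by
    have h4 : (ρ * n) ^ 2 ≤ r ^ 2 := pow_le_pow_left₀ (by positivity) hρr 2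
    rw [div_mul_eq_mul_div, div_le_iff₀ (by positivity)]
    calc Sc * (4 * κ0 * (κ0 + 2 * b) + 2 * (D0 * n)) ≤
          144 * ρ ^ 2 * (E0 * n ^ 2) := mul_le_mul hS hT0 hT0p (by positivity)
      _ = 144 * E0 * (ρ * n) ^ 2 := by ring
      _ ≤ 144 * E0 * r ^ 2 := mul_le_mul_of_nonneg_left h4 (by positivity)
  have hTr : 4 * t * r ^ 2 * (4 * κ0 * (κ0 + 2 * b) + 2 * (D0 * n)) ≤ 4 * E0 := by
    have h1 : t * r ^ 2 * (4 * κ0 * (κ0 + 2 * b) + 2 * (D0 * n)) ≤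
        t * r ^ 2 * (E0 * n ^ 2) := mul_le_mul_of_nonneg_left hT0 (by positivity)
    have h2 : E0 * (t * r ^ 2 * n ^ 2) ≤ E0 * 1 := mul_le_mul_of_nonneg_left htr hE0p
    linarith
  have hℓ2 : 1 ≤ ℓ ^ 2 := one_le_pow₀ hℓ
  have h1 : 4 * CA * ((4 * κ1 * (κ1 + 2 * b) + 2 * (D0 * ℓ)) +
      Sc / r ^ 2 * (4 * κ0 * (κ0 + 2 * b) + 2 * (D0 * n))) ≤
      4 * CA * (E1 * ℓ ^ 2 + 144 * E0) :=
    mul_le_mul_of_nonneg_left (add_le_add hT1 hSS) (by positivity)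
  have h2 : 4 * CA * (E1 * ℓ ^ 2 + 144 * E0) ≤ 4 * CA * (E1 + 144 * E0) * ℓ ^ 2 := by
    have h5 : 4 * CA * (144 * E0) * 1 ≤ 4 * CA * (144 * E0) * ℓ ^ 2 :=
      mul_le_mul_of_nonneg_left hℓ2 (by positivity)
    linarith
  have h3 : 4 * E0 * 1 ≤ 4 * E0 * ℓ ^ 2 := mul_le_mul_of_nonneg_left hℓ2 (by positivity)
  have h4 : (324 * (4 * CA * (E1 + 144 * E0) + 4 * E0) + 27) * ℓ ^ 2 =
      324 * (4 * CA * (E1 + 144 * E0) * ℓ ^ 2 + 4 * E0 * ℓ ^ 2) + 27 * ℓ ^ 2 := by ring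
  rw [h4]
  linarith

/-- the condition on the bad set -/
lemma num_U {CA c0 D0 b n κ0 δ C : ℝ} (hb : 0 < b) (hCA : 0 < CA) (h0c0 : 0 ≤ c0)
    (hD0 : 0 ≤ D0) (hn : 1 ≤ n) (k00 : 0 ≤ κ0) (k0 : κ0 ≤ c0 * n) (hδ0 : 0 < δ)
    (hC : 16 * (CA * (48 * (1 + Real.log 2 + b + c0) ^ 2 + 4 * D0) + 16) ≤ C)
    (hδ : C * n ^ 2 * δ ≤ 1) :
    (CA * (48 * (1 + Real.log 2 + b + κ0) ^ 2 + 4 * (D0 * n)) + 16) * δ ≤ 1 / 16 := by
  have l2 : 0 ≤ Real.log 2 := Real.log_nonneg (by norm_num)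
  have hn2 : 1 ≤ n ^ 2 := one_le_pow₀ hn
  have hn0 : 0 ≤ n := by linarith
  have h1 : 1 + Real.log 2 + b + κ0 ≤ (1 + Real.log 2 + b + c0) * n := by nlinarith
  have h2 := pow_le_pow_left₀ (by linarith) h1 2
  rw [mul_pow] at h2
  have h3 : D0 * n ≤ D0 * n ^ 2 := mul_le_mul_of_nonneg_left (by nlinarith) hD0
  have h4 : CA * (48 * (1 + Real.log 2 + b + κ0) ^ 2 + 4 * (D0 * n)) + 16 ≤
      (CA * (48 * (1 + Real.log 2 + b + c0) ^ 2 + 4 * D0) + 16) * n ^ 2 := by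
    have h5 : 48 * (1 + Real.log 2 + b + κ0) ^ 2 + 4 * (D0 * n) ≤
        (48 * (1 + Real.log 2 + b + c0) ^ 2 + 4 * D0) * n ^ 2 := by linarith
    have h6 := mul_le_mul_of_nonneg_left h5 hCA.le
    linarith
  have h5 := mul_le_mul_of_nonneg_right h4 hδ0.le
  have h6 := mul_le_mul_of_nonneg_right hC (by positivity : 0 ≤ n ^ 2 * δ)
  linarith

section pair

variable {M : ℕ} {b t : ℝ}

/-- the energies of the field of the pair -/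
lemma en_pair (p q : V (M + 2)) {η : Ed (M + 2) → ℤ} {φ : V (M + 2) → ℝ}
    (hφ : ∀ e, eF η φ e = bD p q e) {ρ : ℕ} (hρ : 1 ≤ ρ) (hρN : ρ + 1 ≤ M + 2) {n : ℝ}
    (hn : 1 ≤ n) (hN : Real.log (1 + ((M + 2 : ℕ) : ℝ)) ≤ n) :
    nrm (eF η φ) ≤ (6 + 768 * CG ^ 2) * n ∧
    nOff (cS p q (ρ + 1)) (eF η φ) ≤
      (6 + 768 * CG ^ 2) * (1 + Real.log (((M + 2 : ℕ) : ℝ) / ρ)) := by
  have hβ : eF η φ = bD p q := funext hφ
  have hρ0 : (0 : ℝ) < ρ := by exact_mod_cast hρ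
  have hG : 0 ≤ CG ^ 2 := sq_nonneg _
  have hρN' : (ρ : ℝ) ≤ (M : ℝ) + 2 := by
    have : ρ ≤ M + 2 := by omega
    exact_mod_cast this
  have hlog0 : 0 ≤ Real.log (((M + 2 : ℕ) : ℝ) / ρ) := by
    refine Real.log_nonneg ?_
    rw [one_le_div hρ0]
    push_cast
    exact hρN'
  rw [hβ]
  constructor
  · refine (nrm_bD p q).trans ?_
    have h1 := mul_le_mul_of_nonneg_left hn hG
    have h2 := mul_le_mul_of_nonneg_left hN hG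
    linarith
  · refine (nOff_bD p q (r := ρ + 1) hρN fun x hx => ?_).trans ?_
    · unfold cS
      rw [Finset.mem_filter]
      refine ⟨Finset.mem_univ _, ?_⟩
      rcases hx with h | h
      · exact Or.inl (by omega)
      · exact Or.inr (by omega)
    · have h1 : Real.log (1 + ((M + 2 : ℕ) : ℝ)) - Real.log (1 + ((ρ + 1 : ℕ) : ℝ)) ≤
          Real.log (((M + 2 : ℕ) : ℝ) / ρ) := by
        rw [← Real.log_div (by positivity) (by positivity)]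
        refine Real.log_le_log (by positivity) ?_
        rw [div_le_div_iff₀ (by positivity) hρ0]
        push_cast
        nlinarith
      have h3 := mul_le_mul_of_nonneg_left h1 hG
      have h4 := mul_nonneg hG hlog0
      linarith

/-- the two exponential inequalities of a far pair, in logarithms -/
lemma kap_pair (hb : 0 < b) {α C1 k n : ℝ} (hα0 : 0 ≤ α) (hα1 : α ≤ 1) (hC1 : 1 ≤ C1) (hk0 : 0 < k)
    (hk1 : k ≤ 1) {L ρ R : ℕ} {η : Ed (M + 2) → ℤ} {p q : V (M + 2)} (hrec : RecAt b α C1 R)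
    (hfar1 : R ≤ 2 * sz (q - p)) (hfar2 : sz (q - p) ≤ 4 * R) (hN : 16 * R ≤ M + 2)
    (hpath : H817.IsPath p q (H817.v1 p q) (H817.v2 p q) L η) (hρ1 : 1 ≤ ρ) (hρR : 8 * ρ ≤ R)
    (hlow : k * ga b R ≤ CT (M + 2) b η) (hn : 1 ≤ n) (hga : -Real.log (ga b R) ≤ n) :
    EXD (M + 2) b η (cS p q (ρ + 1)) (mm b ρ ^ 2) ∧ 0 < mm b ρ ^ 2 ∧
    0 ≤ Real.log (1 / CT (M + 2) b η) ∧
    Real.log (1 / CT (M + 2) b η) ≤ (1 - Real.log k) * n ∧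
    0 ≤ Real.log (mm b ρ ^ 2 / CT (M + 2) b η) ∧
    Real.log (mm b ρ ^ 2 / CT (M + 2) b η) ≤
      (1 + Real.log C1 - Real.log k) * (1 + Real.log (((M + 2 : ℕ) : ℝ) / ρ)) := by
  have hlk : Real.log k ≤ 0 := Real.log_nonpos hk0.le hk1
  have hlC : 0 ≤ Real.log C1 := Real.log_nonneg hC1
  have hga0 : 0 < ga b R := hrec.1
  have hct0 : 0 < CT (M + 2) b η := CT_pos hb η
  have hlogct : -Real.log (CT (M + 2) b η) ≤ -Real.log k - Real.log (ga b R) := by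
    have h1 := Real.log_le_log (mul_pos hk0 hga0) hlow
    rw [Real.log_mul hk0.ne' hga0.ne'] at h1
    linarith
  have hρ0 : (0 : ℝ) < ρ := by exact_mod_cast hρ1
  have hρR' : (ρ : ℝ) ≤ R := by
    have : ρ ≤ R := by omega
    exact_mod_cast this
  have hRN' : (R : ℝ) ≤ ((M + 2 : ℕ) : ℝ) := by
    have : R ≤ M + 2 := by omega
    exact_mod_cast this
  have hR0 : (0 : ℝ) < R := by linarith
  have hRρ : Real.log ((R : ℝ) / ρ) ≤ Real.log (((M + 2 : ℕ) : ℝ) / ρ) :=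
    Real.log_le_log (by positivity) (div_le_div_of_nonneg_right hRN' hρ0.le)
  have hRρ0 : 0 ≤ Real.log ((R : ℝ) / ρ) :=
    Real.log_nonneg (by rw [one_le_div hρ0]; exact hρR')
  have hnm : XY.nm (dsp p q) = sz (q - p) := nm_dsp p q
  have x0 := exd_one (M := M) hb.le η
  have hzero : 0 < (mm b ρ) ^ 2 := pow_pos (H253.Sm.mm_pos hb ρ) 2
  have x1 : EXD (M + 2) b η (cS p q (ρ + 1)) (mm b ρ ^ 2) :=
    exd_pair0 (d := dsp p q) hb.le hpath (dsp_spec p q) (by rw [hnm]; omega) (by rw [hnm]; omega)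
  refine ⟨x1, hzero, (x0.jb hb one_pos).nonneg, ?_, (x1.jb hb hzero).nonneg, ?_⟩
  · rw [one_div, Real.log_inv]
    have h1 : -Real.log k * 1 ≤ -Real.log k * n := mul_le_mul_of_nonneg_left hn (by linarith)
    linarith
  · have h1 : ua b ρ ≤ C1 * ((R : ℝ) / ρ) ^ α * ga b R := hrec.2 ρ hρ1 (by omega)
    have h2 : Real.log (mm b ρ ^ 2) ≤ Real.log C1 + α * Real.log ((R : ℝ) / ρ) +
        Real.log (ga b R) := by
      have h3 := Real.log_le_log hzero h1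
      rw [Real.log_mul (by positivity) hga0.ne', Real.log_mul (by positivity) (by positivity),
        Real.log_rpow (by positivity)] at h3
      exact h3
    rw [Real.log_div hzero.ne' hct0.ne']
    have h4 : α * Real.log ((R : ℝ) / ρ) ≤ 1 * Real.log ((R : ℝ) / ρ) :=
      mul_le_mul_of_nonneg_right hα1 hRρ0
    have h5 : 0 ≤ (Real.log C1 - Real.log k) * Real.log (((M + 2 : ℕ) : ℝ) / ρ) :=
      mul_nonneg (by linarith) (hRρ0.trans hRρ)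
    linarith

end pair

/-- **DELTA**, with the constants in the hypotheses -/
theorem delta_pair {M : ℕ} {b t α C1 CA k CS C n s δ : ℝ} (hb : 0 < b) (ht : 0 < t)
    (hα0 : 0 ≤ α) (hα1 : α ≤ 1) (hC1 : 1 ≤ C1) (hCA : 0 < CA) (hk0 : 0 < k) (hk1 : k ≤ 1)
    (hCS : 0 ≤ CS)
    (hCa : 324 * (4 * CA * ((4 * (1 + Real.log C1 - Real.log k) *
      ((1 + Real.log C1 - Real.log k) + 2 * b) + 2 * (6 + 768 * CG ^ 2)) +
      144 * (4 * (1 - Real.log k) * ((1 - Real.log k) + 2 * b) + 2 * (6 + 768 * CG ^ 2))) +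
      4 * (4 * (1 - Real.log k) * ((1 - Real.log k) + 2 * b) + 2 * (6 + 768 * CG ^ 2))) + 27 ≤ C)
    (hCb : 16 * (CA * (48 * (1 + Real.log 2 + b + (1 - Real.log k)) ^ 2 +
      4 * (6 + 768 * CG ^ 2)) + 16) ≤ C) (hCc : CS + 8 ≤ C)
    {L ρ r R : ℕ} {η : Ed (M + 2) → ℤ} {p q : V (M + 2)} {φ : V (M + 2) → ℝ}
    (hrec : RecAt b α C1 R)
    (hfar1 : R ≤ 2 * sz (q - p)) (hfar2 : sz (q - p) ≤ 4 * R) (hN : 16 * R ≤ M + 2)
    (hpath : H817.IsPath p q (H817.v1 p q) (H817.v2 p q) L η) (hφ : ∀ e, eF η φ e = bD p q e)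
    (hPin : ∀ k : V (M + 2), k ≠ 0 → Pin (M + 2) b t k ≤ CA * EE k)
    (hρ1 : 1 ≤ ρ) (hρR : 8 * ρ ≤ R)
    (hlow : k * ga b R ≤ CT (M + 2) b η) (hn : 1 ≤ n) (hga : -Real.log (ga b R) ≤ n)
    (hlogN : Real.log (1 + ((M + 2 : ℕ) : ℝ)) ≤ n)
    (hs : C * (1 + Real.log (((M + 2 : ℕ) : ℝ) / ρ)) ≤ s)
    (hρr : ρ * n ≤ r) (hrN : r ≤ M + 2) (htr : t * (r : ℝ) ^ 2 * n ^ 2 ≤ 1)
    (hδ0 : 0 < δ) (hδ : C * n ^ 2 * δ ≤ 1)
    (i1 : IntegrableOn (ES (wTD (M + 2) b) (t • (1 : Matrix (V (M + 2)) (V (M + 2)) ℝ)) t 0 (η, φ) s)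
        (Ag (wTD (M + 2) b) (t • (1 : Matrix (V (M + 2)) (V (M + 2)) ℝ)) t 0 s 1)
        (nuM (wTD (M + 2) b 0) (t • (1 : Matrix (V (M + 2)) (V (M + 2)) ℝ)) 0))
    (i2 : ∫ F in Ag (wTD (M + 2) b) (t • (1 : Matrix (V (M + 2)) (V (M + 2)) ℝ)) t 0 s 1,
          ES (wTD (M + 2) b) (t • (1 : Matrix (V (M + 2)) (V (M + 2)) ℝ)) t 0 (η, φ) s F
          ∂(nuM (wTD (M + 2) b 0) (t • (1 : Matrix (V (M + 2)) (V (M + 2)) ℝ)) 0) ≤
        CT (M + 2) b η ^ 2 * Real.exp (Real.log ((R : ℝ) / ρ) + CS + 1 / 2))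
    (hQ : ∫ F in (Ag (wTD (M + 2) b) (t • (1 : Matrix (V (M + 2)) (V (M + 2)) ℝ)) t 0 s 1)ᶜ,
          Psi (wTD (M + 2) b 0) (wTD (M + 2) b η)
            (t • (1 : Matrix (V (M + 2)) (V (M + 2)) ℝ)) φ F
          ∂(nuM (wTD (M + 2) b 0) (t • (1 : Matrix (V (M + 2)) (V (M + 2)) ℝ)) 0) ≤
        δ * CT (M + 2) b η) :
    Del (wTD (M + 2) b) (t • (1 : Matrix (V (M + 2)) (V (M + 2)) ℝ)) t 0 η φ ≤
      C * (1 + Real.log (((M + 2 : ℕ) : ℝ) / ρ)) ^ 2 := by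
  have hlk : Real.log k ≤ 0 := Real.log_nonpos hk0.le hk1
  have hlC : 0 ≤ Real.log C1 := Real.log_nonneg hC1
  obtain ⟨x1, hzero, k00, k0, k10, k1⟩ := kap_pair (M := M) hb hα0 hα1 hC1 hk0 hk1 hrec hfar1 hfar2
    hN hpath hρ1 hρR hlow hn hga
  obtain ⟨hB0, hB1⟩ := en_pair p q hφ hρ1 (by omega) hn hlogN
  have hρ0 : (0 : ℝ) < ρ := by exact_mod_cast hρ1
  have hρR' : (ρ : ℝ) ≤ R := by
    have : ρ ≤ R := by omega
    exact_mod_cast this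
  have hRN' : (R : ℝ) ≤ ((M + 2 : ℕ) : ℝ) := by
    have : R ≤ M + 2 := by omega
    exact_mod_cast this
  have hR0 : (0 : ℝ) < R := by linarith
  have hRρ : Real.log ((R : ℝ) / ρ) ≤ Real.log (((M + 2 : ℕ) : ℝ) / ρ) :=
    Real.log_le_log (by positivity) (div_le_div_of_nonneg_right hRN' hρ0.le)
  have hRρ0 : 0 ≤ Real.log ((R : ℝ) / ρ) :=
    Real.log_nonneg (by rw [one_le_div hρ0]; exact hρR')
  set ℓ : ℝ := 1 + Real.log (((M + 2 : ℕ) : ℝ) / ρ) with hℓ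
  have hℓ1 : 1 ≤ ℓ := by rw [hℓ]; linarith
  have hmA := meas_Ag (x₀ := (0 : V (M + 2))) (H770.gwf_wTD (N := M + 2) hb)
    (fun (e : Ed (M + 2) → ℤ) (x : V (M + 2)) => em_pin_wTD (N := M + 2) hb e x)
    (mf_scalar (N := M + 2) ht) s 1
  have hCℓ : (CS + 8) * ℓ ≤ C * ℓ := mul_le_mul_of_nonneg_right hCc (by linarith)
  have hCSℓ : CS * 1 ≤ CS * ℓ := mul_le_mul_of_nonneg_left hℓ1 hCS
  have hKs : Real.log ((R : ℝ) / ρ) + CS + 1 / 2 ≤ s := by linarith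
  have hs4 : 4 ≤ s := by linarith
  have hδ8 : δ ≤ 1 / 8 := by
    have hn2 : 1 ≤ n ^ 2 := one_le_pow₀ hn
    have h1 : 8 * (n ^ 2 * δ) ≤ C * (n ^ 2 * δ) :=
      mul_le_mul_of_nonneg_right (by linarith) (by positivity)
    have h2 : 1 * δ ≤ n ^ 2 * δ := mul_le_mul_of_nonneg_right hn2 hδ0.le
    linarith
  have hr1 : 1 ≤ r := by
    have h1 : (1 : ℝ) ≤ ρ * n := by
      have : (1 : ℝ) ≤ ρ := by exact_mod_cast hρ1
      nlinarith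
    have h2 : (1 : ℝ) ≤ r := h1.trans hρr
    exact_mod_cast h2
  have hr0 : (0 : ℝ) < r := by exact_mod_cast hr1
  have hUq := num_U (κ0 := Real.log (1 / CT (M + 2) b η)) hb hCA (by linarith : 0 ≤ 1 - Real.log k)
    (by positivity : (0 : ℝ) ≤ 6 + 768 * CG ^ 2) hn k00 k0 hδ0 hCb hδ
  have hfin := delta_tor (N := M + 2) hb ht η φ hmA (s := s)
    (K := Real.log ((R : ℝ) / ρ) + CS + 1 / 2) hs4 hKs i1 i2 hδ0 hQ hδ8 hCA hPin one_pos hzero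
    (exd_one (M := M) hb.le η) x1 hB0 hB1 hUq hr1 hrN
  refine hfin.trans ?_
  have hS : ((cS p q (ρ + 1)).card : ℝ) ≤ 144 * (ρ : ℝ) ^ 2 := by
    refine (card_cS p q (ρ + 1)).trans ?_
    have h2 : (1 + ((ρ + 1 : ℕ) : ℝ)) ^ 2 ≤ (3 * (ρ : ℝ)) ^ 2 := by
      refine pow_le_pow_left₀ (by positivity) ?_ 2
      push_cast
      have : (1 : ℝ) ≤ ρ := by exact_mod_cast hρ1
      linarith
    linarith
  have h := num_fin (CA := CA) (t := t) (κ0 := Real.log (1 / CT (M + 2) b η))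
    (κ1 := Real.log (mm b ρ ^ 2 / CT (M + 2) b η)) hb hCA
    (by linarith : 0 ≤ 1 - Real.log k) (by linarith : 0 ≤ 1 + Real.log C1 - Real.log k)
    (by positivity : (0 : ℝ) ≤ 6 + 768 * CG ^ 2) hn hℓ1 k00 k0 k10 k1 ht hρ0 hr0 hS hρr htr
  refine h.trans ?_
  exact mul_le_mul_of_nonneg_right hCa (sq_nonneg _)

/-- **DELTA**: the zero background number of every far pair -/
theorem delta_far {b α C1 CA : ℝ} (hb : 0 < b) (hα : 1 / 4 ≤ α) (hα2 : α < 1 / 2) (hC1 : 1 ≤ C1)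
    (hCA : 0 < CA) :
    ∃ C A0 : ℝ, 1 ≤ C ∧ 16 ≤ A0 ∧ ∀ (N : ℕ) [NeZero N] (L ρ r R : ℕ) (t s δ n : ℝ)
      (η : Ed N → ℤ) (p q : V N) (φ : V N → ℝ), 0 < t → RecAt b α C1 R → 32 ≤ R →
      R ≤ 2 * sz (q - p) → sz (q - p) ≤ 4 * R → A0 * R ≤ N →
      H817.IsPath p q (H817.v1 p q) (H817.v2 p q) L η → (∀ e, eF η φ e = bD p q e) →
      (∀ k : V N, k ≠ 0 → Pin N b t k ≤ CA * EE k) → 1 ≤ ρ → 8 * ρ ≤ R →
      C * (1 + Real.log (N / ρ)) ≤ s → 1 ≤ n → -Real.log (ga b R) ≤ n →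
      Real.log (1 + N) ≤ n → ρ * n ≤ r → r ≤ N → t * (r : ℝ) ^ 2 * n ^ 2 ≤ 1 →
      0 < δ → C * n ^ 2 * δ ≤ 1 →
      ∫ F in (Ag (wTD N b) (t • (1 : Matrix (V N) (V N) ℝ)) t 0 s 1)ᶜ,
          Psi (wTD N b 0) (wTD N b η) (t • (1 : Matrix (V N) (V N) ℝ)) φ F
          ∂(nuM (wTD N b 0) (t • (1 : Matrix (V N) (V N) ℝ)) 0) ≤ δ * CT N b η →
      Del (wTD N b) (t • (1 : Matrix (V N) (V N) ℝ)) t 0 η φ ≤ C * (1 + Real.log (N / ρ)) ^ 2 := by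
  set k : ℝ := (12 * C1) ^ (-(8 * (4 : ℝ) + 1)) / 2 with hk
  have hpw : (0 : ℝ) < (12 * C1) ^ (-(8 * (4 : ℝ) + 1)) := Real.rpow_pos_of_pos (by linarith) _
  have hpw1 : (12 * C1) ^ (-(8 * (4 : ℝ) + 1)) ≤ 1 :=
    Real.rpow_le_one_of_one_le_of_nonpos (by linarith) (by norm_num)
  have hk0 : 0 < k := half_pos hpw
  have hk1 : k ≤ 1 := (half_le_self hpw.le).trans hpw1
  obtain ⟨A1, hA1, hCT⟩ := H37.Fp.far_CT (α := α) (C1 := C1) hb.le (by linarith) (by linarith) hC1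
    (B := 4) (by norm_num)
  obtain ⟨CS, hCS, hSM⟩ := sm_far (α := α) (C1 := C1) hb hα hα2 (by linarith) hk0
  have hlk : Real.log k ≤ 0 := Real.log_nonpos hk0.le hk1
  have hlC : 0 ≤ Real.log C1 := Real.log_nonneg hC1
  set X1 : ℝ := 324 * (4 * CA * ((4 * (1 + Real.log C1 - Real.log k) *
      ((1 + Real.log C1 - Real.log k) + 2 * b) + 2 * (6 + 768 * CG ^ 2)) +
      144 * (4 * (1 - Real.log k) * ((1 - Real.log k) + 2 * b) + 2 * (6 + 768 * CG ^ 2))) +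
      4 * (4 * (1 - Real.log k) * ((1 - Real.log k) + 2 * b) + 2 * (6 + 768 * CG ^ 2))) + 27
    with hX1
  set X2 : ℝ := 16 * (CA * (48 * (1 + Real.log 2 + b + (1 - Real.log k)) ^ 2 +
      4 * (6 + 768 * CG ^ 2)) + 16) with hX2
  refine ⟨max X1 (max X2 (CS + 8)), max A1 16, ?_, le_max_right _ _, ?_⟩
  · exact (by linarith : (1 : ℝ) ≤ CS + 8).trans ((le_max_right _ _).trans (le_max_right _ _))
  intro N _ L ρ r R t s δ n η p q φ ht hrec hR32 hfar1 hfar2 hAN hpath hφ hPin hρ1 hρR hs hn1 hga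
    hlogN hρr hrN htr hδ0 hδ hQ
  have hRpos : (0 : ℝ) < R := by
    have : 0 < R := by omega
    exact_mod_cast this
  have hAN16 : 16 * R ≤ N := by
    have h1 : (16 : ℝ) * R ≤ N := (mul_le_mul_of_nonneg_right (le_max_right A1 16) hRpos.le).trans hAN
    exact_mod_cast h1
  have hAN1 : A1 * R ≤ N := (mul_le_mul_of_nonneg_right (le_max_left A1 16) hRpos.le).trans hAN
  obtain ⟨M, hM⟩ : ∃ M, N = M + 2 := ⟨N - 2, by omega⟩
  subst hM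
  have hnm : XY.nm (dsp p q) = sz (q - p) := nm_dsp p q
  have b1 : 8 * (4 : ℝ) ≤ R := by
    have : (32 : ℝ) ≤ R := by exact_mod_cast hR32
    linarith
  have b2 : (XY.nm (dsp p q) : ℝ) ≤ 4 * R := by rw [hnm]; exact_mod_cast hfar2
  have b3 : (R : ℝ) ≤ 4 * XY.nm (dsp p q) := by
    have h1 : (R : ℝ) ≤ 2 * XY.nm (dsp p q) := by rw [hnm]; exact_mod_cast hfar1
    have h2 : (0 : ℝ) ≤ XY.nm (dsp p q) := Nat.cast_nonneg _
    linarith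
  have b4 : A1 * R ≤ (M : ℝ) + 2 := by
    have := hAN1
    push_cast at this
    exact this
  have hlow : k * ga b R ≤ CT (M + 2) b η :=
    (hCT M R L p q (H817.v1 p q) (H817.v2 p q) η hpath b1 hrec b2 b3 b4).1
  obtain ⟨i1, i2⟩ := hSM (M + 2) L ρ R t s 1 η p q φ ht hrec hfar1 hfar2 hAN16 hpath hρ1 hρR hlow
  exact delta_pair hb ht (by linarith) (by linarith) hC1 hCA hk0 hk1 hCS (le_max_left _ _)
    ((le_max_left _ _).trans (le_max_right _ _)) ((le_max_right _ _).trans (le_max_right _ _))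
    hrec hfar1 hfar2 hAN16 hpath hφ hPin hρ1 hρR hlow hn1 hga hlogN hs hρr hrN htr hδ0 hδ i1 i2 hQ

end

end Vale.Agent.P159.H856.Dl
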