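import Mathlib

/-!
P159 (helper856), EXIT, scalar part. `δ k` = defect of the stiffness at the scale number `k`
(nondecreasing), `u k` = minus the logarithm of the vortex ratio. Windows of `n` scales on which
the drop times `n` is at most `c1` decrease `u` by `2 δ n - lam`. Then `δ` reaches the level `d`
after at most `(C / δ 0) (1 + u a + log² (1 / δ 0))` scales.
-/

open Finset

namespace Vale.Agent.P159.H856

/-- the hypotheses of the exit theorem, up to the scale number `K` -/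
structure ExD (δ u : ℕ → ℝ) (lam c1 d : ℝ) (a A n1 K : ℕ) : Prop where
  mono : Monotone δ
  pos : 0 < δ 0
  u0 : ∀ k, 0 ≤ u k
  lam0 : 0 ≤ lam
  c10 : 0 < c1
  n10 : 1 ≤ n1
  d0 : 0 < d
  dn : 2 * (n1 : ℝ) * d ≤ c1
  lt : ∀ k, k ≤ K → δ k < d
  gr : ∀ k n, n1 ≤ n → k + 2 * n + A ≤ K → (n : ℝ) * (δ (k + 2 * n + A) - δ k) ≤ c1 →
    u (k + a + n) ≤ u (k + a) + lam - 2 * δ k * n

/-- from `k` to `k'` at the cost `c` and with gain `D` per scale -/
def Rch (v : ℕ → ℝ) (D : ℝ) (k k' : ℕ) (c : ℝ) : Prop :=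
  k ≤ k' ∧ v k' ≤ v k + c - D * ((k' : ℝ) - k)

lemma Rch.refl (v : ℕ → ℝ) (D : ℝ) (k : ℕ) {c : ℝ} (hc : 0 ≤ c) : Rch v D k k c :=
  ⟨le_rfl, by simp; linarith⟩

lemma Rch.trans {v : ℕ → ℝ} {D : ℝ} {k k' k'' : ℕ} {c c' : ℝ} (h : Rch v D k k' c)
    (h' : Rch v D k' k'' c') : Rch v D k k'' (c + c') := by
  refine ⟨h.1.trans h'.1, ?_⟩
  have h1 := h.2
  have h2 := h'.2
  nlinarith

lemma Rch.le {v : ℕ → ℝ} {D : ℝ} {k k' : ℕ} {c c' : ℝ} (h : Rch v D k k' c) (hc : c ≤ c') :
    Rch v D k k' c' := ⟨h.1, h.2.trans (by linarith)⟩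

section level

variable {δ u : ℕ → ℝ} {lam c1 d : ℝ} {a A n1 K : ℕ}

lemma ExD.dpos (H : ExD δ u lam c1 d a A n1 K) (k : ℕ) : 0 < δ k :=
  lt_of_lt_of_le H.pos (H.mono (Nat.zero_le k))

lemma ExD.win (H : ExD δ u lam c1 d a A n1 K) {D : ℝ} {k n : ℕ} (hD : D ≤ δ k)
    (hn : n1 ≤ n) (hK : k + 2 * n + A ≤ K)
    (h : (n : ℝ) * (δ (k + 2 * n + A) - δ k) ≤ c1) (hD0 : 0 ≤ D) :
    Rch (fun k => u (k + a)) D k (k + n) lam := by
  refine ⟨Nat.le_add_right _ _, ?_⟩
  have h1 := H.gr k n hn hK h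
  have e : k + n + a = k + a + n := by ring
  simp only [e]
  push_cast
  have hn0 : (0 : ℝ) ≤ n := Nat.cast_nonneg n
  have h2 : D * n ≤ δ k * n := mul_le_mul_of_nonneg_right hD hn0
  have h3 : 0 ≤ δ k * n := mul_nonneg (hD0.trans hD) hn0
  nlinarith

lemma ExD.good (H : ExD δ u lam c1 d a A n1 K) {D : ℝ} {k n : ℕ} (hD : D ≤ δ k)
    (hn : n1 ≤ n) (hK : k + 2 * n + A ≤ K)
    (h : (n : ℝ) * (δ (k + 2 * n + A) - δ k) ≤ c1) (hl : lam ≤ D * n) :
    Rch (fun k => u (k + a)) D k (k + n) 0 := by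
  refine ⟨Nat.le_add_right _ _, ?_⟩
  have h1 := H.gr k n hn hK h
  have e : k + n + a = k + a + n := by ring
  simp only [e]
  push_cast
  have hn0 : (0 : ℝ) ≤ n := Nat.cast_nonneg n
  have h2 : D * n ≤ δ k * n := mul_le_mul_of_nonneg_right hD hn0
  nlinarith

/-- the data of one level -/
structure Lvl (δ u : ℕ → ℝ) (lam c1 d : ℝ) (a A n1 K : ℕ) (s κ w Q I : ℕ) : Prop where
  H : ExD δ u lam c1 d a A n1 K
  sk : s ≤ κ
  kK : κ + 2 * n1 + A ≤ K
  two : ∀ k, s ≤ k → k < κ → δ k < 2 * δ s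
  nw : n1 ≤ w
  wD : (w : ℝ) * δ s ≤ c1
  Q1 : 1 ≤ Q
  lQ : lam ≤ δ s * ((Q * w : ℕ) : ℝ)
  wI : 2 * w ≤ 2 ^ I

variable {s κ w Q I : ℕ}

/-- any window of at most `w` scales inside the level -/
lemma Lvl.step (L : Lvl δ u lam c1 d a A n1 K s κ w Q I) {k n : ℕ} (hs : s ≤ k) (hn : n1 ≤ n)
    (hw : n ≤ w) (hk : k + 2 * n + A < κ) : Rch (fun k => u (k + a)) (δ s) k (k + n) lam := by
  have hD := L.H.mono hs
  refine L.H.win hD hn (by have := L.kK; omega) ?_ (L.H.dpos s).le
  have h1 := L.two (k + 2 * n + A) (by omega) hk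
  have h2 : δ (k + 2 * n + A) - δ k ≤ δ s := by linarith
  have h3 : 0 ≤ δ s := (L.H.dpos s).le
  have h4 : (n : ℝ) ≤ w := by exact_mod_cast hw
  calc (n : ℝ) * (δ (k + 2 * n + A) - δ k) ≤ n * δ s :=
        mul_le_mul_of_nonneg_left h2 (Nat.cast_nonneg n)
    _ ≤ w * δ s := mul_le_mul_of_nonneg_right h4 h3
    _ ≤ c1 := L.wD

/-- crossing with the shortest windows -/
lemma Lvl.small (L : Lvl δ u lam c1 d a A n1 K s κ w Q I) (r : ℕ) : ∀ k, s ≤ k → k ≤ κ + n1 →
    κ ≤ k + r * n1 → ∃ s', κ ≤ s' ∧ s' ≤ κ + n1 ∧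
      Rch (fun k => u (k + a)) (δ s) k s' (lam * r) := by
  have hl := L.H.lam0
  induction r with
  | zero =>
    intro k _ h1 h2
    exact ⟨k, by simpa using h2, h1, Rch.refl _ _ _ (by simp)⟩
  | succ r ih =>
    intro k hs h1 h2
    by_cases hk : κ ≤ k
    · exact ⟨k, hk, h1, Rch.refl _ _ _ (by positivity)⟩
    · push Not at hk
      have hK := L.kK
      have hw := L.H.win (D := δ s) (L.H.mono hs) (le_refl n1) (k := k) (by omega) (by
        have h3 := L.H.lt (k + 2 * n1 + A) (by omega)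
        have h4 := L.H.dpos k
        have h5 := L.H.dn
        have h6 : (n1 : ℝ) * (δ (k + 2 * n1 + A) - δ k) ≤ n1 * d :=
          mul_le_mul_of_nonneg_left (by linarith) (Nat.cast_nonneg _)
        have h7 : 0 ≤ (n1 : ℝ) * d := mul_nonneg (Nat.cast_nonneg _) L.H.d0.le
        linarith) (L.H.dpos s).le
      obtain ⟨s', g1, g2, g3⟩ := ih (k + n1) (by omega) (by omega) (by
        have : (r + 1) * n1 = r * n1 + n1 := by ring
        omega)
      refine ⟨s', g1, g2, (hw.trans g3).le ?_⟩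
      push_cast
      linarith

/-- crossing by halving the distance -/
lemma Lvl.cross (L : Lvl δ u lam c1 d a A n1 K s κ w Q I) (i : ℕ) : ∀ k, s ≤ k → k ≤ κ + n1 →
    κ ≤ k + 2 * w + A → κ ≤ k + 2 ^ i + A + 2 → ∃ s', κ ≤ s' ∧ s' ≤ κ + n1 ∧
      Rch (fun k => u (k + a)) (δ s) k s' (lam * (i + A + 3)) := by
  have hl := L.H.lam0
  have hn := L.H.n10
  induction i with
  | zero =>
    intro k hs h1 _ h2
    obtain ⟨s', g1, g2, g3⟩ := L.small (A + 3) k hs h1 (by
      have h3 : A + 3 ≤ (A + 3) * n1 := Nat.le_mul_of_pos_right _ hn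
      rw [pow_zero] at h2
      omega)
    refine ⟨s', g1, g2, g3.le ?_⟩
    push_cast
    linarith
  | succ i ih =>
    intro k hs h1 h2 h3
    by_cases hk : κ ≤ k + 2 * n1 + A
    · obtain ⟨s', g1, g2, g3⟩ := L.small (A + 3) k hs h1 (by
        have h4 : A + 3 + 2 * (n1 - 1) ≤ (A + 3) * n1 := by
          obtain ⟨m, rfl⟩ : ∃ m, n1 = m + 1 := ⟨n1 - 1, by omega⟩
          rw [Nat.add_sub_cancel]
          nlinarith [Nat.zero_le (A * m)]
        omega)
      refine ⟨s', g1, g2, g3.le ?_⟩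
      refine mul_le_mul_of_nonneg_left ?_ hl
      push_cast
      have : (0 : ℝ) ≤ i := Nat.cast_nonneg i
      linarith
    · push Not at hk
      obtain ⟨n, hn2⟩ : ∃ n, n = (κ - k - 1 - A) / 2 := ⟨_, rfl⟩
      have e1 : 2 ^ (i + 1) = 2 * 2 ^ i := by ring
      rw [e1] at h3
      have hst := L.step (k := k) (n := n) hs (by omega) (by omega) (by omega)
      obtain ⟨s', g1, g2, g3⟩ := ih (k + n) (by omega) (by omega) (by omega) (by omega)
      refine ⟨s', g1, g2, (hst.trans g3).le ?_⟩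
      push_cast
      linarith

/-- crossing from the distance `2 w + A + j w` -/
lemma Lvl.mid (L : Lvl δ u lam c1 d a A n1 K s κ w Q I) (j : ℕ) : ∀ k, s ≤ k → k ≤ κ + n1 →
    κ ≤ k + 2 * w + A + j * w → ∃ s', κ ≤ s' ∧ s' ≤ κ + n1 ∧
      Rch (fun k => u (k + a)) (δ s) k s' (lam * (j + I + A + 3)) := by
  have hl := L.H.lam0
  induction j with
  | zero =>
    intro k hs h1 h2
    rw [zero_mul, add_zero] at h2
    obtain ⟨s', g1, g2, g3⟩ := L.cross I k hs h1 h2 (by have := L.wI; omega)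
    refine ⟨s', g1, g2, g3.le ?_⟩
    push_cast
    linarith
  | succ j ih =>
    intro k hs h1 h2
    by_cases hk : κ ≤ k + 2 * w + A
    · obtain ⟨s', g1, g2, g3⟩ := L.cross I k hs h1 hk (by have := L.wI; omega)
      refine ⟨s', g1, g2, g3.le ?_⟩
      refine mul_le_mul_of_nonneg_left ?_ hl
      push_cast
      have : (0 : ℝ) ≤ j := Nat.cast_nonneg j
      linarith
    · push Not at hk
      have hst := L.step (k := k) (n := w) hs L.nw le_rfl hk
      obtain ⟨s', g1, g2, g3⟩ := ih (k + w) (by omega) (by omega) (by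
        have : (j + 1) * w = j * w + w := by ring
        omega)
      refine ⟨s', g1, g2, (hst.trans g3).le ?_⟩
      push_cast
      linarith

/-- a block of `t` windows of `w` scales -/
lemma Lvl.block (L : Lvl δ u lam c1 d a A n1 K s κ w Q I) {k : ℕ} (hs : s ≤ k) (t : ℕ)
    (hk : k + t * w + w + A < κ) : Rch (fun k => u (k + a)) (δ s) k (k + t * w) (lam * t) := by
  have hl := L.H.lam0
  induction t with
  | zero =>
    have := Rch.refl (fun k => u (k + a)) (δ s) k (c := lam * ((0 : ℕ) : ℝ)) (by simp)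
    simpa using this
  | succ t ih =>
    have e : (t + 1) * w = t * w + w := by ring
    rw [e] at hk ⊢
    have h1 := ih (by omega)
    have h2 := L.step (k := k + t * w) (n := w) (by omega) L.nw le_rfl (by omega)
    rw [add_assoc] at h2
    refine (h1.trans h2).le ?_
    push_cast
    linarith

/-- the potential of the long windows -/
noncomputable def psiS (δ : ℕ → ℝ) (q W k : ℕ) : ℝ := ∑ i ∈ range q, δ (k + i * W)

lemma psiS_step (δ : ℕ → ℝ) (q W k : ℕ) : psiS δ q W (k + W) - psiS δ q W k = δ (k + q * W) - δ k := by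
  unfold psiS
  rw [← sum_sub_distrib]
  have h : ∀ i ∈ range q, δ (k + W + i * W) - δ (k + i * W) =
      (fun i => δ (k + i * W)) (i + 1) - (fun i => δ (k + i * W)) i := by
    intro i _
    simp only
    have e : k + W + i * W = k + (i + 1) * W := by ring
    rw [e]
  rw [sum_congr rfl h]
  refine (sum_range_sub (fun i => δ (k + i * W)) q).trans ?_
  simp

/-- the long windows -/
lemma Lvl.big (L : Lvl δ u lam c1 d a A n1 K s κ w Q I) (j : ℕ) (hj : j = 0 ∨
    s + (j + 1 + A) * (Q * w) < κ) :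
    Rch (fun k => u (k + a)) (δ s) s (s + j * (Q * w))
      (Q * lam * ((Q * w : ℕ) : ℝ) / c1 * (psiS δ (2 + A) (Q * w) (s + j * (Q * w)) -
        psiS δ (2 + A) (Q * w) s)) := by
  obtain ⟨W, hW⟩ : ∃ W, W = Q * w := ⟨_, rfl⟩
  have hl := L.H.lam0
  have hc := L.H.c10
  have hw1 : 1 ≤ w := L.H.n10.trans L.nw
  have hW1 : 1 ≤ W := by rw [hW]; exact Nat.mul_pos L.Q1 hw1
  have hwW : w ≤ W := by rw [hW]; exact Nat.le_mul_of_pos_left _ L.Q1
  have hlQ := L.lQ
  rw [← hW] at hj hlQ ⊢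
  obtain ⟨B, hB⟩ : ∃ B, B = Q * lam * (W : ℝ) / c1 := ⟨_, rfl⟩
  rw [← hB]
  have hB0 : 0 ≤ B := by rw [hB]; positivity
  induction j with
  | zero =>
    have := Rch.refl (fun k => u (k + a)) (δ s) s
      (c := B * (psiS δ (2 + A) W s - psiS δ (2 + A) W s)) (by simp)
    simpa using this
  | succ j ih =>
    have hj' : s + (j + 2 + A) * W < κ := by
      rcases hj with h | h
      · omega
      · have e : j + 1 + 1 + A = j + 2 + A := by ring
        rw [e] at h
        exact h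
    have e1 : (j + 2 + A) * W = (j + 1 + A) * W + W := by ring
    have h1 := ih (Or.inr (by omega))
    obtain ⟨k, hk⟩ : ∃ k, k = s + j * W := ⟨_, rfl⟩
    have e2 : s + (j + 1) * W = k + W := by rw [hk]; ring
    have e3 : s + (j + 2 + A) * W = k + (2 + A) * W := by rw [hk]; ring
    rw [e2]
    rw [← hk] at h1
    rw [e3] at hj'
    have hAW : A ≤ A * W := Nat.le_mul_of_pos_right _ hW1
    have e4 : (2 + A) * W = 2 * W + A * W := by ring
    have hs : s ≤ k := by rw [hk]; exact Nat.le_add_right _ _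
    have hps := psiS_step δ (2 + A) W k
    have hdm : δ (k + 2 * W + A) ≤ δ (k + (2 + A) * W) := L.H.mono (by omega)
    have hkK := L.kK
    have key : Rch (fun k => u (k + a)) (δ s) k (k + W)
        (B * (psiS δ (2 + A) W (k + W) - psiS δ (2 + A) W k)) := by
      rw [hps]
      by_cases hg : (W : ℝ) * (δ (k + 2 * W + A) - δ k) ≤ c1
      · have h2 := L.H.good (D := δ s) (L.H.mono hs) (L.nw.trans hwW) (by omega) hg hlQ
        refine h2.le (mul_nonneg hB0 ?_)
        have := L.H.mono (show k ≤ k + (2 + A) * W by omega)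
        linarith
      · push Not at hg
        have h2 := L.block hs Q (by rw [← hW]; omega)
        rw [← hW] at h2
        refine h2.le ?_
        have hW0 : (0 : ℝ) < W := by exact_mod_cast hW1
        have h3 : c1 / W ≤ δ (k + (2 + A) * W) - δ k := by
          rw [div_le_iff₀ hW0]
          nlinarith
        calc lam * (Q : ℝ) = B * (c1 / W) := by
              rw [hB]
              field_simp
          _ ≤ _ := mul_le_mul_of_nonneg_left h3 hB0
    refine (h1.trans key).le (le_of_eq ?_)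
    ring

/-- **one level**: from `s` across `κ` -/
theorem Lvl.level (L : Lvl δ u lam c1 d a A n1 K s κ w Q I) : ∃ s', κ ≤ s' ∧ s' ≤ κ + n1 ∧
    Rch (fun k => u (k + a)) (δ s) s s'
      (lam * ((2 + A) * Q ^ 2 + (2 + A) * Q + I + A + 3)) := by
  obtain ⟨W, hW⟩ : ∃ W, W = Q * w := ⟨_, rfl⟩
  have hl := L.H.lam0
  have hc := L.H.c10
  have hw1 : 1 ≤ w := L.H.n10.trans L.nw
  have hW1 : 1 ≤ W := by rw [hW]; exact Nat.mul_pos L.Q1 hw1
  have hsk := L.sk
  -- the number of long windows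
  obtain ⟨j, hj1, hj2, hj3⟩ : ∃ j, (j = 0 ∨ s + (j + 1 + A) * W < κ) ∧
      κ ≤ s + j * W + (2 + A) * W ∧ s + j * W ≤ κ := by
    by_cases h0 : κ ≤ s + (2 + A) * W
    · exact ⟨0, Or.inl rfl, by simpa using h0, by simpa using hsk⟩
    · push Not at h0
      obtain ⟨j0, hj0⟩ : ∃ j0, j0 = (κ - s - 1) / W := ⟨_, rfl⟩
      have g1 : j0 * W ≤ κ - s - 1 := by rw [hj0]; exact Nat.div_mul_le_self _ _
      have g2 : κ - s - 1 < (j0 + 1) * W := by
        rw [hj0, mul_comm]
        exact Nat.lt_mul_div_succ _ hW1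
      have g3 : 2 + A ≤ j0 := by
        rw [hj0, Nat.le_div_iff_mul_le hW1]
        omega
      obtain ⟨j', rfl⟩ : ∃ j', j0 = j' + (2 + A) := ⟨j0 - (2 + A), by omega⟩
      refine ⟨j' + 1, Or.inr ?_, ?_, ?_⟩
      · have e : (j' + 1 + 1 + A) * W = (j' + (2 + A)) * W := by ring
        rw [e]
        omega
      · have e : s + (j' + 1) * W + (2 + A) * W = s + (j' + (2 + A) + 1) * W := by ring
        rw [e]
        omega
      · have e : (j' + (2 + A)) * W = (j' + 1) * W + (1 + A) * W := by ring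
        omega
  have hb := L.big j (by rw [← hW]; exact hj1)
  rw [← hW] at hb
  have hcost : (Q : ℝ) * lam * (W : ℝ) / c1 * (psiS δ (2 + A) W (s + j * W) - psiS δ (2 + A) W s) ≤
      lam * ((2 + A) * Q ^ 2) := by
    rcases hj1 with h | h
    · subst h
      rw [zero_mul, add_zero, sub_self, mul_zero]
      positivity
    · have h1 : psiS δ (2 + A) W (s + j * W) ≤ (2 + A) * (2 * δ s) := by
        unfold psiS
        have h2 : ∀ i ∈ range (2 + A), δ (s + j * W + i * W) ≤ 2 * δ s := by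
          intro i hi
          rw [mem_range] at hi
          refine (L.two _ (by omega) ?_).le
          refine lt_of_le_of_lt ?_ h
          have h3 : i * W ≤ (1 + A) * W := Nat.mul_le_mul_right _ (by omega)
          have e : (j + 1 + A) * W = j * W + (1 + A) * W := by ring
          omega
        refine (sum_le_sum h2).trans (le_of_eq ?_)
        rw [sum_const, card_range, nsmul_eq_mul]
        push_cast
        ring
      have h2 : (2 + A) * δ s ≤ psiS δ (2 + A) W s := by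
        unfold psiS
        have h3 : ∀ i ∈ range (2 + A), δ s ≤ δ (s + i * W) := fun i _ =>
          L.H.mono (Nat.le_add_right _ _)
        refine le_trans (le_of_eq ?_) (sum_le_sum h3)
        rw [sum_const, card_range, nsmul_eq_mul]
        push_cast
        ring
      have hB0 : 0 ≤ (Q : ℝ) * lam * (W : ℝ) / c1 := by positivity
      have h4 : (Q : ℝ) * lam * (W : ℝ) / c1 *
          (psiS δ (2 + A) W (s + j * W) - psiS δ (2 + A) W s) ≤
          (Q : ℝ) * lam * (W : ℝ) / c1 * ((2 + A) * δ s) :=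
        mul_le_mul_of_nonneg_left (by linarith) hB0
      refine h4.trans ?_
      have e : (Q : ℝ) * lam * (W : ℝ) / c1 * ((2 + A) * δ s) =
          lam * ((2 + A) * Q ^ 2) * ((w * δ s) / c1) := by
        rw [hW]
        push_cast
        ring
      rw [e]
      have h5 : (w * δ s) / c1 ≤ 1 := (div_le_one hc).2 L.wD
      calc lam * ((2 + A) * (Q : ℝ) ^ 2) * ((w * δ s) / c1) ≤ lam * ((2 + A) * (Q : ℝ) ^ 2) * 1 :=
            mul_le_mul_of_nonneg_left h5 (by positivity)
        _ = _ := mul_one _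
  obtain ⟨s', g1, g2, g3⟩ := L.mid ((2 + A) * Q) (s + j * W) (by omega) (by omega) (by
    have e : (2 + A) * Q * w = (2 + A) * W := by rw [hW]; ring
    rw [e]
    omega)
  refine ⟨s', g1, g2, ((hb.le hcost).trans g3).le (le_of_eq ?_)⟩
  push_cast
  ring

end level

end Vale.Agent.P159.H856
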