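import Vale.Agent.P159.H856.Ex1

/-!
P159 (helper856), EXIT, scalar part: all levels. The level `d` is reached after at most
`(C / δ 0) (1 + u a + (1 + log (1 / δ 0))²)` scales.
-/

open Finset

namespace Vale.Agent.P159.H856

variable {δ u : ℕ → ℝ} {lam c1 d : ℝ} {a A n1 K : ℕ}

/-- the numbers of one level -/
lemma ExD.lvl (H : ExD δ u lam c1 d a A n1 K) {Q I : ℕ} (hQ1 : 1 ≤ Q)
    (hQ : 2 * lam / c1 ≤ Q) (hI : 2 * c1 / δ 0 ≤ (2 : ℝ) ^ I) {s κ : ℕ} (hs : s ≤ κ)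
    (hK : κ + 2 * n1 + A ≤ K) (h2 : ∀ k, s ≤ k → k < κ → δ k < 2 * δ s) :
    Lvl δ u lam c1 d a A n1 K s κ ⌊c1 / δ s⌋₊ Q I := by
  have hc := H.c10
  have hD := H.dpos s
  have hd := H.lt s (by omega)
  have hn : (1 : ℝ) ≤ n1 := by exact_mod_cast H.n10
  have hdn := H.dn
  have hd0 := H.d0
  have hDc : 2 * δ s ≤ c1 := by nlinarith
  have hfl : (⌊c1 / δ s⌋₊ : ℝ) ≤ c1 / δ s := Nat.floor_le (by positivity)
  have hfl2 : c1 / δ s - 1 < ⌊c1 / δ s⌋₊ := Nat.sub_one_lt_floor _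
  have e1 : c1 / δ s * δ s = c1 := div_mul_cancel₀ _ hD.ne'
  have hw1 : (⌊c1 / δ s⌋₊ : ℝ) * δ s ≤ c1 := by
    calc (⌊c1 / δ s⌋₊ : ℝ) * δ s ≤ c1 / δ s * δ s := mul_le_mul_of_nonneg_right hfl hD.le
      _ = c1 := e1
  have hw2 : c1 / 2 ≤ (⌊c1 / δ s⌋₊ : ℝ) * δ s := by nlinarith
  refine ⟨H, hs, hK, h2, ?_, hw1, hQ1, ?_, ?_⟩
  · refine Nat.le_floor ?_
    rw [le_div_iff₀ hD]
    nlinarith
  · push_cast
    have h3 : lam ≤ Q * (c1 / 2) := by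
      rw [div_le_iff₀ hc] at hQ
      linarith
    have h4 : (Q : ℝ) * (c1 / 2) ≤ Q * ((⌊c1 / δ s⌋₊ : ℝ) * δ s) :=
      mul_le_mul_of_nonneg_left hw2 (Nat.cast_nonneg _)
    calc lam ≤ Q * ((⌊c1 / δ s⌋₊ : ℝ) * δ s) := h3.trans h4
      _ = _ := by ring
  · have h5 : c1 / δ s ≤ c1 / δ 0 :=
      div_le_div_of_nonneg_left hc.le H.pos (H.mono (Nat.zero_le s))
    have h6 : (2 : ℝ) * (⌊c1 / δ s⌋₊ : ℝ) ≤ (2 : ℝ) ^ I := by
      have e2 : 2 * c1 / δ 0 = 2 * (c1 / δ 0) := by ring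
      rw [e2] at hI
      linarith
    exact_mod_cast h6

/-- the number of scales, all levels -/
theorem ExD.levels (H : ExD δ u lam c1 d a A n1 K) {Q I : ℕ} (hQ1 : 1 ≤ Q)
    (hQ : 2 * lam / c1 ≤ Q) (hI : 2 * c1 / δ 0 ≤ (2 : ℝ) ^ I) {E : ℝ}
    (hE : E = lam * ((2 + A) * Q ^ 2 + (2 + A) * Q + I + A + 3)) {K' : ℕ}
    (hK' : K' + 2 * n1 + A = K) (m : ℕ) : ∀ s, s ≤ K' → d ≤ 2 ^ m * δ s →
    δ 0 * ((K' : ℝ) - s) ≤ u (s + a) + m * E := by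
  have hl := H.lam0
  have hE0 : 0 ≤ E := by rw [hE]; positivity
  induction m with
  | zero =>
    intro s hs h
    have := H.lt s (by omega)
    rw [pow_zero, one_mul] at h
    linarith
  | succ m ih =>
    intro s hs h
    classical
    have hex : ∃ k, s ≤ k ∧ (2 * δ s ≤ δ k ∨ K' ≤ k) := ⟨K', hs, Or.inr le_rfl⟩
    obtain ⟨κ, hκ⟩ : ∃ κ, κ = Nat.find hex := ⟨_, rfl⟩
    have hsp := Nat.find_spec hex
    rw [← hκ] at hsp
    have hκK : κ ≤ K' := by rw [hκ]; exact Nat.find_min' hex ⟨hs, Or.inr le_rfl⟩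
    have h2 : ∀ k, s ≤ k → k < κ → δ k < 2 * δ s := by
      intro k hk1 hk2
      rw [hκ] at hk2
      have h3 := Nat.find_min hex hk2
      push Not at h3
      exact (h3 hk1).1
    obtain ⟨s', g1, g2, g3⟩ := (H.lvl hQ1 hQ hI hsp.1 (by omega) h2).level
    rw [← hE] at g3
    have g4 := g3.2
    simp only at g4
    have h00 : δ 0 ≤ δ s := H.mono (Nat.zero_le s)
    have hss : (s : ℝ) ≤ s' := by exact_mod_cast hsp.1.trans g1
    have h5 : δ 0 * ((s' : ℝ) - s) ≤ δ s * ((s' : ℝ) - s) :=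
      mul_le_mul_of_nonneg_right h00 (by linarith)
    have hu := H.u0 (s' + a)
    have hmE : 0 ≤ (m : ℝ) * E := mul_nonneg (Nat.cast_nonneg _) hE0
    push_cast
    by_cases hc : K' ≤ s'
    · have h6 : (K' : ℝ) ≤ s' := by exact_mod_cast hc
      have h7 : δ 0 * ((K' : ℝ) - s) ≤ δ 0 * ((s' : ℝ) - s) :=
        mul_le_mul_of_nonneg_left (by linarith) H.pos.le
      nlinarith
    · push Not at hc
      have h8 : 2 * δ s ≤ δ s' := by
        rcases hsp.2 with h9 | h9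
        · exact h9.trans (H.mono g1)
        · omega
      have h10 := ih s' hc.le (by
        have e : (2 : ℝ) ^ (m + 1) * δ s = 2 ^ m * (2 * δ s) := by ring
        rw [e] at h
        exact h.trans (mul_le_mul_of_nonneg_left h8 (by positivity)))
      nlinarith

/-- the last numbers -/
lemma exit_num {K' N F δ0 v X : ℝ} (hN : 0 ≤ N) (hF : 0 ≤ F) (hδ : 0 < δ0) (hδ1 : δ0 ≤ 1)
    (hv : 0 ≤ v) (hX : 0 ≤ X) (h : K' * δ0 ≤ v + 2 * F * X) :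
    K' + N ≤ (N + 1 + 2 * F) / δ0 * (1 + v + X) := by
  have e : (N + 1 + 2 * F) / δ0 * (1 + v + X) = ((N + 1 + 2 * F) * (1 + v + X)) / δ0 := by ring
  rw [e, le_div_iff₀ hδ]
  have h7 : N * δ0 ≤ N * (1 + v + X) := mul_le_mul_of_nonneg_left (by linarith) hN
  have h8 : v + 2 * F * X ≤ (1 + 2 * F) * (1 + v + X) := by
    have h9 : 0 ≤ F * (1 + v) := mul_nonneg hF (by linarith)
    have e2 : (1 + 2 * F) * (1 + v + X) = 1 + X + (v + 2 * F * X) + 2 * (F * (1 + v)) := by ring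
    rw [e2]
    linarith
  have e3 : (K' + N) * δ0 = K' * δ0 + N * δ0 := by ring
  have e4 : (N + 1 + 2 * F) * (1 + v + X) = (1 + 2 * F) * (1 + v + X) + N * (1 + v + X) := by ring
  rw [e3, e4]
  linarith

/-- **the exit time** -/
theorem exit_scal (lam c1 d : ℝ) (a A n1 : ℕ) (hl : 0 ≤ lam) (hc : 0 < c1) (hd : d ≤ 1) :
    ∃ C : ℝ, 0 < C ∧ ∀ (δ u : ℕ → ℝ) (K : ℕ), ExD δ u lam c1 d a A n1 K →
      (K : ℝ) ≤ C / δ 0 * (1 + u a + (1 + Real.log (1 / δ 0)) ^ 2) := by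
  obtain ⟨Q, hQ⟩ : ∃ Q : ℕ, Q = ⌈2 * lam / c1⌉₊ + 1 := ⟨_, rfl⟩
  have hQ1 : 1 ≤ Q := by omega
  have hQ2 : 2 * lam / c1 ≤ Q := by
    rw [hQ]
    push_cast
    have := Nat.le_ceil (2 * lam / c1)
    linarith
  have hl2 : (1 : ℝ) / 2 ≤ Real.log 2 := by
    have := Real.log_two_gt_d9
    linarith
  have hl20 : 0 < Real.log 2 := by linarith
  -- a bound of `E`
  obtain ⟨F, hF⟩ : ∃ F : ℝ, F = lam * ((2 + A) * Q ^ 2 + (2 + A) * Q + (2 * Real.log (2 * c1 + 2) + 1)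
      + A + 3 + 2) := ⟨_, rfl⟩
  have hlc : 0 ≤ Real.log (2 * c1 + 2) := Real.log_nonneg (by linarith)
  have hF0 : 0 ≤ F := by rw [hF]; positivity
  refine ⟨(2 * n1 + A) + 1 + 2 * F, by positivity, ?_⟩
  intro δ u K H
  have hδ := H.pos
  have hδd := H.lt 0 (Nat.zero_le K)
  have hδ1 : δ 0 ≤ 1 := (hδd.trans_le hd).le
  obtain ⟨x, hx⟩ : ∃ x, x = Real.log (1 / δ 0) := ⟨_, rfl⟩
  have hx0 : 0 ≤ x := by
    rw [hx]
    exact Real.log_nonneg (by rw [le_div_iff₀ hδ]; linarith)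
  have hu := H.u0 a
  rw [← hx]
  -- the number of doublings
  obtain ⟨m, hm⟩ : ∃ m : ℕ, m = ⌈x / Real.log 2⌉₊ := ⟨_, rfl⟩
  have hm1 : (m : ℝ) ≤ 2 * x + 1 := by
    have h1 := Nat.ceil_lt_add_one (div_nonneg hx0 hl20.le)
    rw [← hm] at h1
    have h2 : x / Real.log 2 ≤ 2 * x := by
      rw [div_le_iff₀ hl20]
      nlinarith
    linarith
  have hm2 : 1 / δ 0 ≤ (2 : ℝ) ^ m := by
    have h1 : x / Real.log 2 ≤ m := by rw [hm]; exact Nat.le_ceil _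
    rw [div_le_iff₀ hl20, hx] at h1
    have h2 : Real.log (1 / δ 0) ≤ Real.log ((2 : ℝ) ^ m) := by
      rw [Real.log_pow]
      exact h1
    exact (Real.log_le_log_iff (by positivity) (by positivity)).1 h2
  -- the number `I`
  obtain ⟨I, hI⟩ : ∃ I : ℕ, I = ⌈(Real.log (2 * c1 + 2) + x) / Real.log 2⌉₊ := ⟨_, rfl⟩
  have hI1 : (I : ℝ) ≤ 2 * Real.log (2 * c1 + 2) + 2 * x + 1 := by
    have h1 := Nat.ceil_lt_add_one (div_nonneg (add_nonneg hlc hx0) hl20.le)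
    rw [← hI] at h1
    have h2 : (Real.log (2 * c1 + 2) + x) / Real.log 2 ≤ 2 * (Real.log (2 * c1 + 2) + x) := by
      rw [div_le_iff₀ hl20]
      nlinarith [add_nonneg hlc hx0]
    linarith
  have hI2 : 2 * c1 / δ 0 ≤ (2 : ℝ) ^ I := by
    have h1 : (Real.log (2 * c1 + 2) + x) / Real.log 2 ≤ I := by rw [hI]; exact Nat.le_ceil _
    rw [div_le_iff₀ hl20, hx, ← Real.log_mul (by positivity) (by positivity)] at h1
    have h2 : Real.log ((2 * c1 + 2) * (1 / δ 0)) ≤ Real.log ((2 : ℝ) ^ I) := by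
      rw [Real.log_pow]
      exact h1
    have h3 := (Real.log_le_log_iff (by positivity) (by positivity)).1 h2
    refine le_trans ?_ h3
    rw [mul_one_div]
    exact div_le_div_of_nonneg_right (by linarith) hδ.le
  have hX : (1 : ℝ) ≤ 1 + u a + (1 + x) ^ 2 := by nlinarith [sq_nonneg (1 + x)]
  have hCpos : 0 ≤ ((2 * n1 + A : ℕ) : ℝ) := Nat.cast_nonneg _
  by_cases hK : K ≤ 2 * n1 + A
  · have h1 : (K : ℝ) ≤ 2 * n1 + A := by exact_mod_cast hK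
    have h2 : (1 : ℝ) ≤ 1 / δ 0 := by rw [le_div_iff₀ hδ]; linarith
    have h3 : (2 * (n1 : ℝ) + A) ≤ ((2 * n1 + A) + 1 + 2 * F) / δ 0 := by
      rw [le_div_iff₀ hδ]
      have h4 : (0 : ℝ) ≤ 2 * n1 + A := by positivity
      nlinarith
    calc (K : ℝ) ≤ ((2 * n1 + A) + 1 + 2 * F) / δ 0 * 1 := by rw [mul_one]; linarith
      _ ≤ _ := mul_le_mul_of_nonneg_left hX (by positivity)
  · push Not at hK
    obtain ⟨K', hK'⟩ : ∃ K', K' + 2 * n1 + A = K := ⟨K - (2 * n1 + A), by omega⟩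
    obtain ⟨E, hE⟩ : ∃ E, E = lam * (((2 : ℝ) + A) * Q ^ 2 + (2 + A) * Q + I + A + 3) := ⟨_, rfl⟩
    have h1 := H.levels hQ1 hQ2 hI2 hE hK' m 0 (Nat.zero_le _) (by
      have h2 : (1 : ℝ) ≤ 2 ^ m * δ 0 := by rw [div_le_iff₀ hδ] at hm2; exact hm2
      linarith)
    rw [Nat.cast_zero, sub_zero, zero_add] at h1
    have hEF : E ≤ F * (1 + x) := by
      rw [hE, hF]
      have h2 : ((2 : ℝ) + A) * Q ^ 2 + (2 + A) * Q + I + A + 3 ≤
          ((2 + A) * Q ^ 2 + (2 + A) * Q + (2 * Real.log (2 * c1 + 2) + 1) + A + 3 + 2) * (1 + x) := by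
        have h3 : (0 : ℝ) ≤ (2 + A) * Q ^ 2 + (2 + A) * Q + (2 * Real.log (2 * c1 + 2) + 1) + A + 3 := by
          positivity
        nlinarith
      calc lam * (((2 : ℝ) + A) * Q ^ 2 + (2 + A) * Q + I + A + 3) ≤ lam *
            (((2 + A) * Q ^ 2 + (2 + A) * Q + (2 * Real.log (2 * c1 + 2) + 1) + A + 3 + 2) * (1 + x)) :=
            mul_le_mul_of_nonneg_left h2 hl
        _ = _ := by ring
    have hmE : (m : ℝ) * E ≤ 2 * F * (1 + x) ^ 2 := by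
      have hE0 : 0 ≤ E := by rw [hE]; positivity
      calc (m : ℝ) * E ≤ (2 * x + 1) * (F * (1 + x)) :=
            mul_le_mul hm1 hEF hE0 (by linarith)
        _ ≤ (2 * (1 + x)) * (F * (1 + x)) :=
            mul_le_mul_of_nonneg_right (by linarith) (by positivity)
        _ = _ := by ring
    have h4 : (K' : ℝ) * δ 0 ≤ u a + 2 * F * (1 + x) ^ 2 := by linarith
    have h5 : (K : ℝ) = K' + (2 * n1 + A) := by
      rw [← hK']
      push_cast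
      ring
    have h6 : (0 : ℝ) ≤ 2 * n1 + A := by positivity
    have hX0 : 0 ≤ (1 + x) ^ 2 := sq_nonneg _
    rw [h5]
    exact exit_num h6 hF0 hδ hδ1 hu hX0 h4

end Vale.Agent.P159.H856
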