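import Vale.Agent.P159.H856.Cut

/-!
P159 (helper856), RP bound for the blocks, part 7: the inequality for the array of diamonds at a
finite scale.
-/

set_option linter.unusedSectionVars false

namespace Vale.Agent.P159.H856

open Vale.Agent.P159 Vale.Agent.P159.H353 Vale.Agent.P159.R2.H254
open Vale.Agent.P159.H950
open Vale.Agent.P159.UJ
open Vale.Agent.P159.TM.H764 (Gh cN sN dt ch EE frm grd hatu)

noncomputable section

theorem qG_tr (b : ℝ) (q : ℤ × ℤ) (M : ℕ) (y : HF) :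
    qG b (blk q M) y = qG b (blk 0 M) (shF q y) := by
  rw [qG_blk, qG_blk, rs_shF, zero_add]

theorem sum_blk_tr (q : ℤ × ℤ) (M : ℕ) (F : ℤ × ℤ → ℝ) :
    ∑ c ∈ blk q M, F c = ∑ c ∈ blk 0 M, F (c + q) := by
  symm
  refine Finset.sum_nbij (fun c => c + q) ?_ ?_ ?_ ?_
  · intro c hc
    rw [mem_blk] at hc ⊢
    simp only [Prod.fst_zero, Prod.snd_zero, Prod.fst_add, Prod.snd_add] at hc ⊢
    omega
  · intro c _ d _ h
    exact add_right_cancel h
  · intro c hc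
    refine ⟨c - q, ?_, sub_add_cancel c q⟩
    have hc' := Finset.mem_coe.1 hc
    refine Finset.mem_coe.2 ?_
    rw [mem_blk] at hc' ⊢
    simp only [Prod.fst_zero, Prod.snd_zero, Prod.fst_sub, Prod.snd_sub] at hc' ⊢
    omega
  · intro c _
    rfl

theorem nG_tr (q : ℤ × ℤ) (M : ℕ) (y : HF) :
    nG (blk q M) y = nG (blk 0 M) (shF q y) := by
  rw [nG_blk, nG_blk, sum_blk_tr]
  rfl

theorem shF_sF (q : ℤ × ℤ) (f : ℤ × ℤ → ℝ) : shF q (sF f) = sF fun c => f (c + q) := by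
  funext t z
  have hsh : ∀ t, hu (z + q) t = hu z t + q := by
    intro t
    rcases t with ⟨_ | _, _ | _⟩ <;> ext <;> simp [hu] <;> ring
  show bF (aS f) (bS f) t (z + q) = bF (aS fun c => f (c + q)) (bS fun c => f (c + q)) t z
  unfold bF
  rw [hsh]
  unfold aS bS
  have e1 : hu z t + q - (1, 0) = hu z t - (1, 0) + q := by abel
  have e2 : hu z t + q - (0, 1) = hu z t - (0, 1) + q := by abel
  rw [e1, e2]

theorem D12_sh (q : ℤ × ℤ) (f : ℤ × ℤ → ℝ) (c : ℤ × ℤ) :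
    D12 (fun c => f (c + q)) c = D12 f (c + q) := by
  unfold D12
  have e1 : c + (1, 1) + q = c + q + (1, 1) := by abel
  have e2 : c + (1, 0) + q = c + q + (1, 0) := by abel
  have e3 : c + (0, 1) + q = c + q + (0, 1) := by abel
  simp only [e1, e2, e3]

theorem nG_neg (R : Finset (ℤ × ℤ)) (y : HF) : nG R (-y) = nG R y := by
  unfold nG
  exact Finset.sum_congr rfl fun e _ => neg_sq _

/-- the cut array vanishes near the boundary of the large block -/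
theorem psi_van (p H0 n N : ℕ) (K : ℤ) (hM : 2 * (H0 + 2 * (p * 2 ^ n)) ≤ N + 1) (hp : 1 ≤ p) :
    Van N fun c => psi p (2 * ((p * 2 ^ n : ℕ) : ℤ) - p) K
      (c + (-(p : ℤ) - H0, -((H0 + 2 * (p * 2 ^ n) : ℕ) : ℤ))) := by
  intro c hc
  by_contra h
  have h1 := psi_supp h
  have h3 : 1 ≤ p * 2 ^ n := Nat.succ_le_of_lt (Nat.mul_pos hp (pow_pos (by norm_num) _))
  generalize p * 2 ^ n = P at *
  unfold rh at h1
  simp only [Prod.fst_add, Prod.snd_add] at h1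
  push_cast at h1
  apply hc
  omega

theorem sum_D12_psi {p : ℕ} (hp : 1 ≤ p) (s : ℤ) {K : ℕ} (hK : 0 < K) (q : ℤ × ℤ) (M : ℕ) :
    ∑ c ∈ blk 0 M, D12 (fun c => psi p s K (c + q)) c ^ 2 ≤
      16 * ((p : ℝ) / K) ^ 2 * (M : ℝ) ^ 2 := by
  have hpz : (0 : ℤ) < (p : ℤ) := by exact_mod_cast hp
  have hKz : (0 : ℤ) < (K : ℤ) := by exact_mod_cast hK
  have h1 : ∀ c ∈ blk 0 M, D12 (fun c => psi p s K (c + q)) c ^ 2 ≤
      16 * ((p : ℝ) / K) ^ 2 := by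
    intro c _
    rw [D12_sh q (psi p s K) c]
    have h2 := psi_D12 (s := s) hpz hKz (c + q)
    rw [← sq_abs]
    have h3 : |D12 (psi p s K) (c + q)| ^ 2 ≤ (4 * ((p : ℤ) : ℝ) / ((K : ℤ) : ℝ)) ^ 2 := by
      gcongr
    refine h3.trans (le_of_eq ?_)
    push_cast
    ring
  refine (Finset.sum_le_sum h1).trans (le_of_eq ?_)
  rw [Finset.sum_const, card_blk, nsmul_eq_mul]
  push_cast
  ring

theorem sum_sq_psi {p : ℕ} (hp : 1 ≤ p) (s : ℤ) {K : ℕ} (hK : 0 < K) (q : ℤ × ℤ) (M : ℕ) :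
    ∑ c ∈ blk 0 M, (fun c => psi p s K (c + q)) c ^ 2 ≤ (p : ℝ) ^ 2 * (M : ℝ) ^ 2 := by
  have hpz : (0 : ℤ) < (p : ℤ) := by exact_mod_cast hp
  have hKz : (0 : ℤ) < (K : ℤ) := by exact_mod_cast hK
  have h1 : ∀ c ∈ blk 0 M, (fun c => psi p s K (c + q)) c ^ 2 ≤ (p : ℝ) ^ 2 := by
    intro c _
    have h2 := psi_abs (s := s) hpz hKz (c + q)
    rw [← sq_abs]
    have h3 : |(fun c => psi p s K (c + q)) c| ≤ (p : ℝ) := by
      refine h2.trans (le_of_eq ?_)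
      push_cast
      rfl
    gcongr
  refine (Finset.sum_le_sum h1).trans (le_of_eq ?_)
  rw [Finset.sum_const, card_blk, nsmul_eq_mul]
  push_cast
  ring

/-- comparison of the array and the cut array in a large block -/
theorem comp {p H0 n N K : ℕ} {b η : ℝ} (hp : 1 ≤ p) (hb : 0 < b) (hη : 0 < η)
    (hM : 2 * (H0 + 2 * (p * 2 ^ n)) ≤ N + 1) (hK : 0 < K) {q : ℤ × ℤ}
    (hq : q = (-(p : ℤ) - H0, -((H0 + 2 * (p * 2 ^ n) : ℕ) : ℤ))) {s : ℤ}
    (hs : s = 2 * ((p * 2 ^ n : ℕ) : ℤ) - p) {R : ℝ}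
    (hR : R = 32 * (K * (N + 1)) + 8 * ((p : ℝ) / K) ^ 2 * ((N : ℝ) + 1) ^ 2) :
    qG b (blk q (N + 1)) (sF (psi p s K)) ≤
        (1 + η) * (4 ^ n * qG b (Bn p H0 0) (An p 0)) + (1 + 1 / η) * (b / 2 * R) ∧
      4 ^ n * nG (Bn p H0 0) (An p 0) - (1 + 1 / η) * R ≤
        (1 + η) * nG (blk q (N + 1)) (sF (psi p s K)) := by
  set P : ℕ := p * 2 ^ n with hP
  have hpz : (0 : ℤ) < (p : ℤ) := by exact_mod_cast hp
  have hAn : An p n = arr p s s := by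
    unfold An
    rw [← hP, hs]
  have hBn : Bn p H0 n = blk q (2 * (H0 + 2 * P)) := by
    unfold Bn
    rw [← hP, hq]
  have hP1 : 1 ≤ P := Nat.succ_le_of_lt (Nat.mul_pos hp (pow_pos (by norm_num) _))
  have hsup : ∀ c, c ∉ blk q (2 * (H0 + 2 * P)) → ∀ t, An p n t c = 0 := by
    intro c hc t
    by_contra h2
    have h3 := An_supp p n h2
    rw [← hP] at h3
    apply hc
    rw [mem_blk, hq]
    push_cast at h3 ⊢
    omega
  obtain ⟨c1, c2⟩ := chess p hp H0 hb.le n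
  have m1 : qG b (blk q (N + 1)) (An p n) ≤ qG b (Bn p H0 n) (An p n) := by
    rw [hBn]
    refine qG_mono hb.le (by omega) ⟨le_rfl, le_rfl, ?_, ?_⟩ _ hsup
    · push_cast
      omega
    · push_cast
      omega
  have m2 : nG (blk q (N + 1)) (An p n) = nG (Bn p H0 n) (An p n) := by
    rw [hBn]
    refine nG_supp ?_ _ hsup
    intro c hc
    rw [mem_blk] at hc ⊢
    push_cast at hc ⊢
    omega
  have d1 : nG (blk q (N + 1)) (sF (psi p s K) - An p n) ≤ R := by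
    rw [hAn]
    have h1 := nG_diff (s := s) hpz hK q (N + 1)
    rw [hR]
    push_cast at h1 ⊢
    exact h1
  have k2 : 0 ≤ 1 + 1 / η := by positivity
  constructor
  · have h1 := qG_add_le hb.le (blk q (N + 1)) (An p n) (sF (psi p s K) - An p n) hη
    rw [add_sub_cancel] at h1
    have h2 := qG_le hb.le (blk q (N + 1)) (sF (psi p s K) - An p n)
    have h3 : b / 2 * nG (blk q (N + 1)) (sF (psi p s K) - An p n) ≤ b / 2 * R :=
      mul_le_mul_of_nonneg_left d1 (by positivity)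
    have h4 := mul_le_mul_of_nonneg_left (h2.trans h3) k2
    have h5 := mul_le_mul_of_nonneg_left (m1.trans c1) (show 0 ≤ 1 + η by positivity)
    linarith
  · have h1 := nG_add_le (blk q (N + 1)) (sF (psi p s K)) (An p n - sF (psi p s K)) hη
    rw [add_sub_cancel] at h1
    have h2 : nG (blk q (N + 1)) (An p n - sF (psi p s K)) =
        nG (blk q (N + 1)) (sF (psi p s K) - An p n) := by
      rw [← nG_neg, neg_sub]
    rw [h2, m2, c2] at h1
    have h4 := mul_le_mul_of_nonneg_left d1 k2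
    linarith

theorem core_arith {Y δ η A Q X V s1 s2 S1 S2 c1 c2 r r' : ℝ} (hη : 0 < η) (hY : 0 < Y)
    (hδ : δ ≤ 1) (hc1 : 0 ≤ c1) (hc2 : 0 ≤ c2) (h1 : Q ≤ (1 + η) * V + r) (h2 : X - r' ≤ (1 + η) * A)
    (h3 : Y * (1 - δ) * (A / 2) - c1 * s1 - c2 * s2 ≤ Q) (h4 : s1 ≤ S1) (h5 : s2 ≤ S2) :
    Y * (1 - δ) / 2 * (X - r') ≤ (1 + η) * ((1 + η) * V + r + c1 * S1 + c2 * S2) := by
  have k1 : 0 ≤ Y * (1 - δ) / 2 := by
    have : 0 ≤ 1 - δ := by linarith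
    positivity
  have u3 := mul_le_mul_of_nonneg_left h2 k1
  refine u3.trans ?_
  have t1 := mul_le_mul_of_nonneg_left h4 hc1
  have t2 := mul_le_mul_of_nonneg_left h5 hc2
  have u4 : Y * (1 - δ) / 2 * ((1 + η) * A) = (1 + η) * (Y * (1 - δ) * (A / 2)) := by ring
  rw [u4]
  refine mul_le_mul_of_nonneg_left ?_ (by positivity)
  linarith

/-- **fixed scale**: from the window on a torus to the array of diamonds -/
theorem core {p H0 n N K : ℕ} {b t Y e η : ℝ} (hp : 1 ≤ p) (hb : 0 < b) (ht : 0 < t) (hY : 0 < Y)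
    (he : 0 ≤ e) (hη : 0 < η) (h : Win (N + 1) b t Y e) {j : ZMod (N + 1)} {W : ℝ}
    (hW : W = 2 * (1 - cN j)) (hW0 : 0 < W) (hM : 2 * (H0 + 2 * (p * 2 ^ n)) ≤ N + 1) (hK : 0 < K)
    (hδ : Y * t / W + e * W / (t * Y) ≤ 1) {R : ℝ}
    (hR : R = 32 * (K * (N + 1)) + 8 * ((p : ℝ) / K) ^ 2 * ((N : ℝ) + 1) ^ 2) :
    Y * (1 - (Y * t / W + e * W / (t * Y))) / 2 * (4 ^ n * nG (Bn p H0 0) (An p 0) -
        (1 + 1 / η) * R) ≤
      (1 + η) * ((1 + η) * (4 ^ n * qG b (Bn p H0 0) (An p 0)) + (1 + 1 / η) * (b / 2 * R) +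
        2 * Y / W * (16 * ((p : ℝ) / K) ^ 2 * ((N : ℝ) + 1) ^ 2) +
        2 * Y * W * ((p : ℝ) ^ 2 * ((N : ℝ) + 1) ^ 2)) := by
  obtain ⟨q, hq⟩ : ∃ q : ℤ × ℤ, q = (-(p : ℤ) - H0, -((H0 + 2 * (p * 2 ^ n) : ℕ) : ℤ)) := ⟨_, rfl⟩
  obtain ⟨s, hs⟩ : ∃ s : ℤ, s = 2 * ((p * 2 ^ n : ℕ) : ℤ) - p := ⟨_, rfl⟩
  obtain ⟨h1, h2⟩ := comp (b := b) hp hb hη hM hK hq hs hR
  have hv : Van N fun c => psi p s K (c + q) := by
    have := psi_van p H0 n N K hM hp
    rw [← hs, ← hq] at this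
    exact this
  have b1 := blk_form hb ht hY he h hW hW0 hv
  have e1 : nG (blk 0 (N + 1)) (sF fun c => psi p s K (c + q)) =
      nG (blk q (N + 1)) (sF (psi p s K)) := by
    rw [nG_tr q, shF_sF]
  have e2 : qG b (blk 0 (N + 1)) (sF fun c => psi p s K (c + q)) =
      qG b (blk q (N + 1)) (sF (psi p s K)) := by
    rw [qG_tr b q, shF_sF]
  rw [e1, e2] at b1
  have s1 := sum_D12_psi hp s hK q (N + 1)
  have s2 := sum_sq_psi hp s hK q (N + 1)
  have e3 : ((N + 1 : ℕ) : ℝ) = (N : ℝ) + 1 := by push_cast; rfl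
  rw [e3] at s1 s2
  have k1 : 0 ≤ 2 * Y / W := by positivity
  have k2 : 0 ≤ 2 * Y * W := by positivity
  exact core_arith hη hY hδ k1 k2 h1 h2 b1 s1 s2

end

end Vale.Agent.P159.H856
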