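import Vale.Agent.P159.H856.Fin0
import Vale.Agent.P159.H197.Form8

/-!
P159 (helper856), RP bound for the blocks, part 8: the limit of large scales; the inequality for the
array of diamonds with the helicity modulus.
-/

set_option linter.unusedSectionVars false

namespace Vale.Agent.P159.H856

open Filter Topology
open Vale.Agent.P159 Vale.Agent.P159.H353 Vale.Agent.P159.R2.H254
open Vale.Agent.P159.H950
open Vale.Agent.P159.UJ
open Vale.Agent.P159.TM.H764 (Gh cN sN dt ch EE frm grd hatu)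
open Vale.Agent.P159.TM.Spec (V)

noncomputable section

theorem small_pow (A : ℝ) {x : ℝ} (hx : 0 < x) {r : ℝ} (hr : 1 < r) :
    ∃ m1 : ℕ, ∀ m, m1 ≤ m → A / r ^ m ≤ x := by
  have h1 : Tendsto (fun m : ℕ => A / r ^ m) atTop (𝓝 0) :=
    tendsto_const_nhds.div_atTop (tendsto_pow_atTop_atTop_of_one_lt hr)
  have h2 := h1.eventually (eventually_le_nhds hx)
  exact eventually_atTop.1 h2

theorem small_exp (C : ℝ) {c x : ℝ} (hc : 0 < c) (hx : 0 < x) :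
    ∃ m1 : ℕ, ∀ m : ℕ, m1 ≤ m → C * Real.exp (-(c * 2 ^ m)) ≤ x := by
  have h0 : Tendsto (fun m : ℕ => c * (2 : ℝ) ^ m) atTop atTop :=
    (tendsto_pow_atTop_atTop_of_one_lt (by norm_num)).const_mul_atTop hc
  have h1 : Tendsto (fun m : ℕ => C * Real.exp (-(c * (2 : ℝ) ^ m))) atTop (𝓝 (C * 0)) :=
    (Real.tendsto_exp_atBot.comp (tendsto_neg_atTop_atBot.comp h0)).const_mul C
  rw [mul_zero] at h1
  have h2 := h1.eventually (eventually_le_nhds hx)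
  exact eventually_atTop.1 h2

theorem win_cast {M N : ℕ} [NeZero M] {b t Y e : ℝ} (hM : M = N + 1) (h : Win M b t Y e) :
    Win (N + 1) b t Y e := by
  subst hM
  exact h

theorem win_of_QSt {M : ℕ} [NeZero M] {b t Y e : ℝ} (ht : 0 < t) (hY : 0 < Y)
    (h : H197.QSt M b t Y e) : Win M b t Y e :=
  win_of_form ht hY fun u v => by
    have := h u v
    rwa [TM.H41.dirE_eq] at this

/-- the frequency of the comparison -/
theorem freq {N a m i : ℕ} (hN : N + 1 = 2 ^ (i + m)) (ham : a + 1 ≤ m) {t : ℝ}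
    (ht : t = 1 / ((2 ^ m : ℕ) : ℝ) ^ 2) :
    ∃ (j : ZMod (N + 1)) (W : ℝ), W = 2 * (1 - cN j) ∧ 16 * 4 ^ a * t ≤ W ∧ W ≤ 40 * 4 ^ a * t := by
  have hlt : 2 ^ (i + a) < N + 1 := by
    rw [hN]
    exact Nat.pow_lt_pow_right (by norm_num) (by omega)
  refine ⟨((2 ^ (i + a) : ℕ) : ZMod (N + 1)), _, rfl, ?_⟩
  have hv : (((2 ^ (i + a) : ℕ) : ZMod (N + 1)).val) = 2 ^ (i + a) := by
    rw [ZMod.val_natCast, Nat.mod_eq_of_lt hlt]
  unfold TM.H764.cN
  rw [hv]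
  have hN' : ((N + 1 : ℕ) : ℝ) = 2 ^ i * 2 ^ m := by
    rw [hN]
    push_cast
    rw [pow_add]
  have e1 : 2 * Real.pi * ((2 ^ (i + a) : ℕ) : ℝ) / ((N + 1 : ℕ) : ℝ) =
      2 * Real.pi * (2 ^ a / 2 ^ m) := by
    rw [hN']
    push_cast
    rw [pow_add]
    field_simp
  rw [e1]
  have hpi := Real.pi_pos
  have hr : (2 : ℝ) ^ a / 2 ^ m ≤ 1 / 2 := by
    rw [div_le_div_iff₀ (by positivity) (by norm_num)]
    have : (2 : ℝ) ^ (a + 1) ≤ 2 ^ m := pow_le_pow_right₀ (by norm_num) ham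
    rw [pow_succ] at this
    linarith
  have hr0 : 0 ≤ (2 : ℝ) ^ a / 2 ^ m := by positivity
  have hsq : ((2 : ℝ) ^ a / 2 ^ m) ^ 2 = 4 ^ a * t := by
    rw [ht]
    push_cast
    rw [div_pow, ← pow_mul, mul_comm a 2, pow_mul]
    norm_num
    ring
  constructor
  · have h1 : Real.cos (2 * Real.pi * (2 ^ a / 2 ^ m)) ≤
        1 - 2 / Real.pi ^ 2 * (2 * Real.pi * (2 ^ a / 2 ^ m)) ^ 2 := by
      refine Real.cos_le_one_sub_mul_cos_sq ?_
      rw [abs_of_nonneg (by positivity)]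
      nlinarith
    have h2 : 2 / Real.pi ^ 2 * (2 * Real.pi * (2 ^ a / 2 ^ m)) ^ 2 = 8 * (4 ^ a * t) := by
      rw [← hsq]
      field_simp
      ring
    rw [h2] at h1
    linarith
  · have h1 : 1 - (2 * Real.pi * (2 ^ a / 2 ^ m)) ^ 2 / 2 ≤
        Real.cos (2 * Real.pi * (2 ^ a / 2 ^ m)) := Real.one_sub_sq_div_two_le_cos
    have h2 : (2 * Real.pi * (2 ^ a / 2 ^ m)) ^ 2 = 4 * Real.pi ^ 2 * (4 ^ a * t) := by
      rw [← hsq]
      ring
    rw [h2] at h1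
    have h3 : Real.pi ^ 2 ≤ 10 := by
      have h4 := Real.pi_lt_d2
      nlinarith
    have h5 : 0 ≤ 4 ^ a * t := by rw [← hsq]; positivity
    have h6 := mul_le_mul_of_nonneg_right h3 h5
    linarith

theorem fin_arith {Y ε δ X ν V b R T1 T2 : ℝ} (hY : 0 < Y) (hε : 0 < ε) (hε1 : ε ≤ 1)
    (hδ : δ ≤ ε) (hX : 0 < X) (hV : 0 ≤ V) (hb : 0 < b)
    (h : Y * (1 - δ) / 2 * (X * ν - (1 + 1 / ε) * R) ≤
      (1 + ε) * ((1 + ε) * (X * V) + (1 + 1 / ε) * (b / 2 * R) + T1 + T2))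
    (hR : R ≤ ε ^ 2 / 2 * X) (h1 : T1 ≤ ε * X) (h2 : T2 ≤ ε * X) :
    Y * (1 - ε) / 2 * (ν - ε) ≤ (1 + ε) * ((1 + ε) * V + ε * b / 2 + 2 * ε) := by
  have hr : 0 ≤ (1 + ε) * ((1 + ε) * V + ε * b / 2 + 2 * ε) := by positivity
  rcases le_total ν ε with hν | hν
  · refine le_trans ?_ hr
    have : 0 ≤ 1 - ε := by linarith
    have h3 : 0 ≤ Y * (1 - ε) / 2 := by positivity
    have h4 : ν - ε ≤ 0 := by linarith
    exact mul_nonpos_of_nonneg_of_nonpos h3 h4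
  · have k1 : (1 + 1 / ε) * R ≤ ε * X := by
      have k0 : 0 ≤ 1 + 1 / ε := by positivity
      refine (mul_le_mul_of_nonneg_left hR k0).trans ?_
      have e1 : (1 + 1 / ε) * (ε ^ 2 / 2 * X) = (ε ^ 2 + ε) / 2 * X := by
        field_simp
      rw [e1]
      have e2 : (ε ^ 2 + ε) / 2 ≤ ε := by nlinarith
      exact mul_le_mul_of_nonneg_right e2 hX.le
    have k2 : X * (ν - ε) ≤ X * ν - (1 + 1 / ε) * R := by linarith
    have k3 : 0 ≤ Y * (1 - δ) / 2 := by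
      have : 0 ≤ 1 - δ := by linarith
      positivity
    have k4 : Y * (1 - ε) / 2 ≤ Y * (1 - δ) / 2 := by
      have := mul_le_mul_of_nonneg_left (show 1 - ε ≤ 1 - δ by linarith) hY.le
      linarith
    have k5 : 0 ≤ X * (ν - ε) := mul_nonneg hX.le (by linarith)
    have k6 := mul_le_mul_of_nonneg_right k4 k5
    have k7 := mul_le_mul_of_nonneg_left k2 k3
    have k8 : (1 + 1 / ε) * (b / 2 * R) ≤ b / 2 * (ε * X) := by
      have := mul_le_mul_of_nonneg_left k1 (show 0 ≤ b / 2 by positivity)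
      linarith
    have k9 : (1 + ε) * ((1 + ε) * (X * V) + (1 + 1 / ε) * (b / 2 * R) + T1 + T2) ≤
        (1 + ε) * ((1 + ε) * (X * V) + b / 2 * (ε * X) + ε * X + ε * X) := by
      refine mul_le_mul_of_nonneg_left ?_ (by positivity)
      linarith
    have k10 : X * (Y * (1 - ε) / 2 * (ν - ε)) ≤
        X * ((1 + ε) * ((1 + ε) * V + ε * b / 2 + 2 * ε)) := by
      linarith
    exact le_of_mul_le_mul_left k10 hX

theorem lim_arith {Y ν V b : ℝ} (h : ∀ ε : ℝ, 0 < ε → ε ≤ 1 →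
    Y * (1 - ε) / 2 * (ν - ε) ≤ (1 + ε) * ((1 + ε) * V + ε * b / 2 + 2 * ε)) :
    Y / 2 * ν ≤ V := by
  set g : ℝ → ℝ := fun ε => (1 + ε) * ((1 + ε) * V + ε * b / 2 + 2 * ε) -
    Y * (1 - ε) / 2 * (ν - ε) with hg
  have hc : Continuous g := by
    rw [hg]
    fun_prop
  have h1 : Tendsto g (𝓝[>] 0) (𝓝 (g 0)) := (hc.tendsto 0).mono_left nhdsWithin_le_nhds
  have h2 : ∀ᶠ ε in 𝓝[>] (0 : ℝ), 0 ≤ g ε := by
    have h3 : Set.Ioc (0 : ℝ) 1 ∈ 𝓝[>] (0 : ℝ) := Ioc_mem_nhdsGT (by norm_num)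
    filter_upwards [h3] with ε hε
    have := h ε hε.1 hε.2
    rw [hg]
    linarith
  have h4 := ge_of_tendsto h1 h2
  rw [hg] at h4
  norm_num at h4
  linarith

end

end Vale.Agent.P159.H856
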