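import Vale.Agent.P159.H856.Fin1
import Vale.Agent.P159.H170.Final

/-!
P159 (helper856), RP bound for the blocks, part 9: **the quadratic form of a wired block on a diamond
is at least the helicity modulus times half the norm**.
-/

set_option linter.unusedSectionVars false

namespace Vale.Agent.P159.H856

open Filter Topology
open Vale.Agent.P159 Vale.Agent.P159.H353 Vale.Agent.P159.R2.H254
open Vale.Agent.P159.H950
open Vale.Agent.P159.UJ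
open Vale.Agent.P159.TM.H764 (Gh cN sN dt ch EE frm grd hatu)
open Vale.Agent.P159.TM.Spec (V)

noncomputable section

/-- the error terms at the scale `m = κ + m'`, `n = i' + m`, side `2^(q0 + i' + m)` of the torus,
width `K = p 2^(i' + m')` of the cut -/
theorem scale_arith {p : ℕ} (hp : 1 ≤ p) {q0 κ i' m' a n N K : ℕ} {Y W t ε R X : ℝ} (hY : 0 < Y)
    (hN : N + 1 = 2 ^ (q0 + i' + (κ + m'))) (hn : n = i' + (κ + m')) (hK : K = p * 2 ^ (i' + m'))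
    (ht : t = 1 / ((2 ^ (κ + m') : ℕ) : ℝ) ^ 2) (hX : X = 4 ^ n)
    (hR : R = 32 * (K * (N + 1)) + 8 * ((p : ℝ) / K) ^ 2 * ((N : ℝ) + 1) ^ 2)
    (hW1 : 16 * 4 ^ a * t ≤ W) (hW2 : W ≤ 40 * 4 ^ a * t)
    (a1 : 32 * p * 2 ^ q0 / 2 ^ κ ≤ ε ^ 2 / 4)
    (a2 : 8 * (2 ^ q0) ^ 2 * (2 ^ κ) ^ 2 / 4 ^ (κ + m') ≤ ε ^ 2 / 4)
    (a3 : 2 * Y * (2 ^ q0) ^ 2 * (2 ^ κ) ^ 2 / 4 ^ a / 4 ^ i' ≤ ε)
    (a4 : 80 * Y * 4 ^ a * p ^ 2 * (2 ^ q0) ^ 2 / 4 ^ (κ + m') ≤ ε) :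
    R ≤ ε ^ 2 / 2 * X ∧
      2 * Y / W * (16 * ((p : ℝ) / K) ^ 2 * ((N : ℝ) + 1) ^ 2) ≤ ε * X ∧
      2 * Y * W * ((p : ℝ) ^ 2 * ((N : ℝ) + 1) ^ 2) ≤ ε * X := by
  have hp' : (0 : ℝ) < p := by exact_mod_cast hp
  have hN' : (N : ℝ) + 1 = 2 ^ q0 * 2 ^ i' * 2 ^ κ * 2 ^ m' := by
    have : ((N + 1 : ℕ) : ℝ) = (2 : ℝ) ^ (q0 + i' + (κ + m')) := by rw [hN]; push_cast; rfl
    push_cast at this
    rw [this, pow_add, pow_add, pow_add]
    ring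
  have hK' : (K : ℝ) = p * 2 ^ i' * 2 ^ m' := by
    rw [hK]
    push_cast
    rw [pow_add]
    ring
  have h4 : ∀ l : ℕ, (4 : ℝ) ^ l = (2 ^ l) ^ 2 := by
    intro l
    rw [← pow_mul, mul_comm, pow_mul]
    norm_num
  have hX' : X = (2 ^ i' * 2 ^ κ * 2 ^ m') ^ 2 := by
    rw [hX, h4, hn, pow_add, pow_add]
    ring
  have ht' : t = 1 / (2 ^ κ * 2 ^ m') ^ 2 := by
    rw [ht]
    push_cast
    rw [pow_add]
  have h4m : (4 : ℝ) ^ (κ + m') = (2 ^ κ * 2 ^ m') ^ 2 := by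
    rw [h4, pow_add]
  rw [h4m] at a2 a4
  rw [h4 i'] at a3
  have u1 : (1 : ℝ) ≤ 2 ^ i' := one_le_pow₀ (by norm_num)
  have D0 : (0 : ℝ) < 4 ^ a := by positivity
  have Q0 : (0 : ℝ) < 2 ^ q0 := by positivity
  have u0 : (0 : ℝ) < 2 ^ i' := by positivity
  have k0 : (0 : ℝ) < 2 ^ κ := by positivity
  have v0 : (0 : ℝ) < 2 ^ m' := by positivity
  clear hN hn hK ht hX h4 h4m
  generalize (4 : ℝ) ^ a = D at *
  generalize (2 : ℝ) ^ q0 = Q at *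
  generalize (2 : ℝ) ^ i' = u at *
  generalize (2 : ℝ) ^ κ = k at *
  generalize (2 : ℝ) ^ m' = v at *
  have hpK : (p : ℝ) / K = 1 / (u * v) := by
    rw [hK']
    field_simp
  have hX0 : 0 < X := by rw [hX']; positivity
  have ht0 : 0 < t := by rw [ht']; positivity
  have hW0 : 0 < W := lt_of_lt_of_le (by positivity) hW1
  have htX : (k * v) ^ 2 ≤ X := by
    rw [hX']
    have : k * v ≤ u * k * v := by
      have := mul_le_mul_of_nonneg_right u1 (show 0 ≤ k * v by positivity)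
      linarith
    gcongr
  refine ⟨?_, ?_, ?_⟩
  · have e1 : R = 32 * p * Q / k * X + 8 * Q ^ 2 * k ^ 2 / (k * v) ^ 2 * (k * v) ^ 2 := by
      rw [hR, hpK, hN', hK', hX']
      field_simp
    rw [e1]
    have b1 := mul_le_mul_of_nonneg_right a1 hX0.le
    have b2 := mul_le_mul a2 htX (by positivity) (by positivity)
    linarith
  · have e1 : 16 * ((p : ℝ) / K) ^ 2 * ((N : ℝ) + 1) ^ 2 = 16 * Q ^ 2 * k ^ 2 := by
      rw [hpK, hN']
      field_simp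
    rw [e1]
    have b1 : 2 * Y / W ≤ 2 * Y / (16 * D * t) := by
      gcongr
    refine (mul_le_mul_of_nonneg_right b1 (by positivity)).trans ?_
    have e2 : 2 * Y / (16 * D * t) * (16 * Q ^ 2 * k ^ 2) =
        2 * Y * Q ^ 2 * k ^ 2 / D / u ^ 2 * X := by
      rw [ht', hX']
      field_simp
    rw [e2]
    exact mul_le_mul_of_nonneg_right a3 hX0.le
  · rw [hN']
    have b1 : 2 * Y * W * ((p : ℝ) ^ 2 * (Q * u * k * v) ^ 2) ≤
        2 * Y * (40 * D * t) * ((p : ℝ) ^ 2 * (Q * u * k * v) ^ 2) := by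
      gcongr
    refine b1.trans ?_
    have e2 : 2 * Y * (40 * D * t) * ((p : ℝ) ^ 2 * (Q * u * k * v) ^ 2) =
        80 * Y * D * p ^ 2 * Q ^ 2 / (k * v) ^ 2 * X := by
      rw [ht', hX']
      field_simp
      ring
    rw [e2]
    exact mul_le_mul_of_nonneg_right a4 hX0.le

theorem delta_arith {Y t W e ε D : ℝ} (hY : 0 < Y) (ht : 0 < t) (hD : 0 < D) (he : 0 ≤ e)
    (hW1 : 16 * D * t ≤ W) (hW2 : W ≤ 40 * D * t) (a1 : Y / 16 / D ≤ ε / 2)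
    (a2 : e ≤ ε * Y / (80 * D)) : Y * t / W + e * W / (t * Y) ≤ ε := by
  have hW0 : 0 < W := lt_of_lt_of_le (by positivity) hW1
  have b1 : Y * t / W ≤ Y * t / (16 * D * t) := by gcongr
  have e1 : Y * t / (16 * D * t) = Y / 16 / D := by field_simp
  have b2 : e * W / (t * Y) ≤ (ε * Y / (80 * D)) * (40 * D * t) / (t * Y) := by
    have hε : 0 ≤ ε * Y / (80 * D) := he.trans a2
    gcongr
  have e2 : (ε * Y / (80 * D)) * (40 * D * t) / (t * Y) = ε / 2 := by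
    field_simp
    ring
  rw [e1] at b1
  rw [e2] at b2
  linarith

/-- **the first array** -/
theorem start_arr {p : ℕ} (H0 : ℕ) {b : ℝ} (hp : 1 ≤ p) (hb : 0 < b)
    (hY : 2 / Real.pi ≤ helicity b) :
    helicity b / 2 * nG (Bn p H0 0) (An p 0) ≤ qG b (Bn p H0 0) (An p 0) := by
  have hpi := Real.pi_pos
  have hY0 : 0 < helicity b := lt_of_lt_of_le (by positivity) hY
  obtain ⟨c, C, hc, hC, hst⟩ := H197.start_formt hb hY
  generalize helicity b = Y at *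
  refine lim_arith (b := b) fun ε hε hε1 => ?_
  set q0 : ℕ := 8 * p with hq0
  have hq : 8 * p ≤ 2 ^ q0 := (Nat.lt_two_pow_self).le
  obtain ⟨κ, hκ⟩ := small_pow (32 * (p : ℝ) * 2 ^ q0) (show 0 < ε ^ 2 / 4 by positivity)
    (show (1 : ℝ) < 2 by norm_num)
  have a1 := hκ κ le_rfl
  obtain ⟨a, ha⟩ := small_pow (Y / 16) (show 0 < ε / 2 by positivity)
    (show (1 : ℝ) < 4 by norm_num)
  have a2 := ha a le_rfl
  obtain ⟨j1, hj1⟩ := small_pow (2 * Y * (2 ^ q0) ^ 2 * (2 ^ κ) ^ 2 / 4 ^ a) hε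
    (show (1 : ℝ) < 4 by norm_num)
  have hδ0 : 0 < ε * Y / (160 * 4 ^ a) := by positivity
  obtain ⟨j2, hj2⟩ := small_exp C hc hδ0
  set i' : ℕ := max j1 j2 with hi'
  have a3 := hj1 i' (le_max_left _ _)
  have a4 := hj2 (q0 + i') ((le_max_right j1 j2).trans (Nat.le_add_left _ _))
  obtain ⟨m0, hm0⟩ := hst (q0 + i') (by omega) _ hδ0
  obtain ⟨m1, hm1⟩ := small_pow (8 * (2 ^ q0) ^ 2 * (2 ^ κ) ^ 2)
    (show 0 < ε ^ 2 / 4 by positivity) (show (1 : ℝ) < 4 by norm_num)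
  obtain ⟨m2, hm2⟩ := small_pow (80 * Y * 4 ^ a * (p : ℝ) ^ 2 * (2 ^ q0) ^ 2) hε
    (show (1 : ℝ) < 4 by norm_num)
  set m' : ℕ := m0 + m1 + m2 + (a + 1) + H0 with hm'
  have a5 := hm1 (κ + m') (by omega)
  have a6 := hm2 (κ + m') (by omega)
  have hwin0 := hm0 (κ + m') (by omega)
  obtain ⟨N, hN⟩ : ∃ N : ℕ, N + 1 = 2 ^ (q0 + i' + (κ + m')) :=
    ⟨2 ^ (q0 + i' + (κ + m')) - 1, Nat.sub_add_cancel Nat.one_le_two_pow⟩
  obtain ⟨t, ht⟩ : ∃ t : ℝ, t = 1 / ((2 ^ (κ + m') : ℕ) : ℝ) ^ 2 := ⟨_, rfl⟩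
  rw [← ht] at hwin0
  have ht0 : 0 < t := by rw [ht]; positivity
  set e : ℝ := C * Real.exp (-(c * 2 ^ (q0 + i'))) + ε * Y / (160 * 4 ^ a) with he
  have he0 : 0 ≤ e := by rw [he]; positivity
  have he1 : e ≤ ε * Y / (80 * 4 ^ a) := by
    have : ε * Y / (80 * 4 ^ a) = ε * Y / (160 * 4 ^ a) + ε * Y / (160 * 4 ^ a) := by
      field_simp
      norm_num
    rw [this, he]
    linarith
  have hwin : Win (N + 1) b t Y e := win_cast hN.symm (win_of_QSt ht0 hY0 hwin0)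
  obtain ⟨j, W, hW, hW1, hW2⟩ := freq (a := a) hN (by omega) ht
  have hW0 : 0 < W := lt_of_lt_of_le (by positivity) hW1
  have hδ := delta_arith hY0 ht0 (show (0 : ℝ) < 4 ^ a by positivity) he0 hW1 hW2 a2 he1
  obtain ⟨n, hn⟩ : ∃ n : ℕ, n = i' + (κ + m') := ⟨_, rfl⟩
  obtain ⟨K, hK⟩ : ∃ K : ℕ, K = p * 2 ^ (i' + m') := ⟨_, rfl⟩
  have hK0 : 0 < K := by rw [hK]; positivity
  obtain ⟨R, hR⟩ : ∃ R : ℝ, R = 32 * (K * (N + 1)) + 8 * ((p : ℝ) / K) ^ 2 * ((N : ℝ) + 1) ^ 2 :=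
    ⟨_, rfl⟩
  obtain ⟨r1, r2, r3⟩ := scale_arith hp hY0 hN hn hK ht rfl hR hW1 hW2 a1 a5 a3 a6
  have hM : 2 * (H0 + 2 * (p * 2 ^ n)) ≤ N + 1 := by
    have h1 : N + 1 = 2 ^ q0 * 2 ^ n := by
      rw [hN, hn, ← pow_add]
      congr 1
      omega
    have h2 : H0 ≤ 2 ^ n := (Nat.lt_two_pow_self (n := H0)).le.trans
      (Nat.pow_le_pow_right (by norm_num) (by omega))
    have h3 : 8 * p * 2 ^ n ≤ 2 ^ q0 * 2 ^ n := Nat.mul_le_mul_right _ hq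
    rw [h1]
    have h4 : 1 * 2 ^ n ≤ p * 2 ^ n := Nat.mul_le_mul_right _ hp
    have h5 : 8 * p * 2 ^ n = 8 * (p * 2 ^ n) := by ring
    rw [h5] at h3
    omega
  have hcore := core hp hb ht0 hY0 he0 hε hwin hW hW0 hM hK0 (hδ.trans hε1) hR
  exact fin_arith hY0 hε hε1 hδ (show (0 : ℝ) < 4 ^ n by positivity)
    (qG_nonneg hb.le _ _) hb hcore r1 r2 r3

end

end Vale.Agent.P159.H856
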