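import Mathlib.Analysis.SpecialFunctions.Log.Basic
import Mathlib.Analysis.SpecialFunctions.Pow.Real
import Mathlib.Topology.Algebra.Order.LiminfLimsup
import Mathlib.Order.Filter.AtTopBot.Basic

/-!
P159 (helper856): the pigeonhole over scales of HOLE-1 (row 4295): if the one point functions of the
annuli are at most the predicted ones and their product is, up to a subpolynomial factor, at least
the predicted one, then they are close to the predicted ones on arbitrarily long runs of scales.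
-/

set_option linter.all false

open Filter Topology
open scoped BigOperators

namespace Vale.Agent.P159.H856

/-- sum over consecutive blocks -/
theorem sum_blocks (a : ℕ → ℝ) (j0 k n : ℕ) :
    ∑ j ∈ Finset.range (j0 + k * n), a j = ∑ j ∈ Finset.range j0, a j +
      ∑ i ∈ Finset.range n, ∑ l ∈ Finset.range k, a (j0 + k * i + l) := by
  induction n with
  | zero => simp
  | succ n ih =>
    rw [Finset.sum_range_succ, ← add_assoc, ← ih, show j0 + k * (n + 1) = (j0 + k * n) + k by ring,
      Finset.sum_range_add]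

/-- **pigeonhole over scales** -/
theorem pigeon0 {a del : ℕ → ℝ} (hdel : Tendsto del atTop (𝓝 0)) (hlow : ∀ j, -del j ≤ a j)
    (hup : ∀ ε : ℝ, 0 < ε → ∃ K : ℝ, ∀ J : ℕ, ∑ j ∈ Finset.range J, a j ≤ ε * J + K)
    {δ : ℝ} (hδ : 0 < δ) (k j0 : ℕ) : ∃ j, j0 ≤ j ∧ ∀ i, i < k → a (j + i) ≤ δ := by
  by_contra hcon
  push Not at hcon
  have hk : 0 < k := by
    rcases Nat.eq_zero_or_pos k with h | h
    · subst h
      obtain ⟨i, hi, _⟩ := hcon j0 le_rfl
      exact absurd hi (by omega)
    · exact h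
  have hk0 : (0 : ℝ) < k := by exact_mod_cast hk
  -- small errors from some scale on
  have h1 : ∀ᶠ j in atTop, del j < δ / (4 * k) :=
    hdel.eventually (gt_mem_nhds (by positivity))
  obtain ⟨j1', hj1'⟩ := eventually_atTop.1 h1
  set j1 : ℕ := max j0 j1' with hj1
  have h2 : ∀ j, j1 ≤ j → -(δ / (4 * k)) ≤ a j := by
    intro j hj
    have h3 := hj1' j (le_trans (le_max_right _ _) hj)
    linarith [hlow j]
  -- each block has a bad scale
  have h3 : ∀ j, j1 ≤ j → 3 / 4 * δ ≤ ∑ l ∈ Finset.range k, a (j + l) := by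
    intro j hj
    obtain ⟨i, hi, hbad⟩ := hcon j (le_trans (le_max_left _ _) hj)
    have h4 : ∑ l ∈ Finset.range k, (a (j + l) + δ / (4 * k)) ≥ δ := by
      have h5 : a (j + i) + δ / (4 * k) ≤ ∑ l ∈ Finset.range k, (a (j + l) + δ / (4 * k)) :=
        Finset.single_le_sum (f := fun l => a (j + l) + δ / (4 * k))
          (fun l _ => by have := h2 (j + l) (by omega); linarith) (Finset.mem_range.2 hi)
      have h6 : 0 ≤ δ / (4 * k) := by positivity
      linarith
    rw [Finset.sum_add_distrib, Finset.sum_const, Finset.card_range, nsmul_eq_mul] at h4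
    have h7 : (k : ℝ) * (δ / (4 * k)) = δ / 4 := by field_simp
    rw [h7] at h4
    linarith
  obtain ⟨K, hK⟩ := hup (δ / (4 * k)) (by positivity)
  have h8 : ∀ n : ℕ, 3 / 4 * δ * n ≤ δ / (4 * k) * ((j1 + k * n : ℕ) : ℝ) + K -
      ∑ j ∈ Finset.range j1, a j := by
    intro n
    have h9 := hK (j1 + k * n)
    rw [sum_blocks] at h9
    have h10 : 3 / 4 * δ * n ≤ ∑ i ∈ Finset.range n, ∑ l ∈ Finset.range k, a (j1 + k * i + l) := by
      have h11 : ∑ _i ∈ Finset.range n, 3 / 4 * δ ≤
          ∑ i ∈ Finset.range n, ∑ l ∈ Finset.range k, a (j1 + k * i + l) :=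
        Finset.sum_le_sum fun i _ => h3 (j1 + k * i) (Nat.le_add_right _ _)
      rw [Finset.sum_const, Finset.card_range, nsmul_eq_mul] at h11
      linarith
    linarith
  have h12 : ∀ n : ℕ, δ / 2 * n ≤ δ / (4 * k) * j1 + K - ∑ j ∈ Finset.range j1, a j := by
    intro n
    have h13 := h8 n
    have h14 : δ / (4 * k) * ((j1 + k * n : ℕ) : ℝ) = δ / (4 * k) * j1 + δ / 4 * n := by
      push_cast
      field_simp
    rw [h14] at h13
    linarith
  obtain ⟨n, hn⟩ := exists_nat_gt ((δ / (4 * k) * j1 + K - ∑ j ∈ Finset.range j1, a j) / (δ / 2))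
  rw [div_lt_iff₀ (by positivity)] at hn
  have := h12 n
  linarith

/-- **the pigeonhole of HOLE-1**: `m j = - log` of the one point function of the annulus number `j`,
`C J` the two point function at the distance `≤ C1 M ^ J` -/
theorem pigeon {M C0 C1 : ℝ} (hM : 1 < M) (hC1 : 1 ≤ C1) {m del : ℕ → ℝ} {C x : ℕ → ℝ}
    (hC : ∀ ε : ℝ, 0 < ε → ∃ c : ℝ, 0 < c ∧ ∀ J, c * x J ^ (-(1 / 4 + ε)) ≤ C J)
    (hx : ∀ J, 1 ≤ x J) (hx1 : ∀ J, x J ≤ C1 * M ^ J)
    (hchain : ∀ J, 2 * ∑ j ∈ Finset.range J, m j ≤ -Real.log (C J) + C0)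
    (hdel : Tendsto del atTop (𝓝 0)) (hlow : ∀ j, 1 / 8 * Real.log M - del j ≤ m j)
    {δ : ℝ} (hδ : 0 < δ) (k j0 : ℕ) :
    ∃ j, j0 ≤ j ∧ ∀ i, i < k → m (j + i) ≤ 1 / 8 * Real.log M + δ := by
  have hlM : 0 < Real.log M := Real.log_pos hM
  have key := pigeon0 (a := fun j => m j - 1 / 8 * Real.log M) hdel
    (fun j => by have := hlow j; linarith) (fun ε hε => ?_) hδ k j0
  · obtain ⟨j, hj, h⟩ := key
    exact ⟨j, hj, fun i hi => by have := h i hi; linarith⟩
  · obtain ⟨c, hc, hC'⟩ := hC (ε / Real.log M) (by positivity)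
    refine ⟨(C0 - Real.log c + (1 / 4 + ε / Real.log M) * Real.log C1) / 2, fun J => ?_⟩
    have h1 := hchain J
    have hx0 : 0 < x J := by linarith [hx J]
    have hM0 : 0 < M := by linarith
    have h2 : Real.log c + -(1 / 4 + ε / Real.log M) * Real.log (x J) ≤ Real.log (C J) := by
      rw [← Real.log_rpow hx0, ← Real.log_mul hc.ne' (Real.rpow_pos_of_pos hx0 _).ne']
      exact Real.log_le_log (mul_pos hc (Real.rpow_pos_of_pos hx0 _)) (hC' J)
    have h3 : Real.log (x J) ≤ Real.log C1 + J * Real.log M := by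
      rw [← Real.log_pow, ← Real.log_mul (by positivity) (by positivity)]
      exact Real.log_le_log hx0 (hx1 J)
    have h4 : 0 ≤ 1 / 4 + ε / Real.log M := by positivity
    have h5 := mul_le_mul_of_nonneg_left h3 h4
    rw [Finset.sum_sub_distrib, Finset.sum_const, Finset.card_range, nsmul_eq_mul]
    have h6 : (1 / 4 + ε / Real.log M) * (Real.log C1 + J * Real.log M) =
        (1 / 4 + ε / Real.log M) * Real.log C1 + J * (1 / 4 * Real.log M) + ε * J := by
      field_simp
      ring
    rw [h6] at h5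
    have hJ : (0 : ℝ) ≤ J := Nat.cast_nonneg _
    have h7 : 0 ≤ ε * J := by positivity
    linarith

end Vale.Agent.P159.H856
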