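import Vale.Agent.P159.H856.Rp

/-!
P159 (helper856), finite size pyramid inequality, part 1: subadditivity, monotonicity and
symmetries of the quadratic form of wired regions for fields on half-bonds.
-/

set_option linter.all false

open MeasureTheory Filter Topology
open scoped BigOperators

namespace Vale.Agent.P159.H856

open Vale.Agent.P159 Vale.Agent.P159.UJ Vale.Agent.P159.H950

noncomputable section

/-- ratio of partition functions of a region -/
def rG (b : ℝ) (R : Finset (ℤ × ℤ)) (y : HF) : ℝ :=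
  rho muInf (fun _ : KR R => b / 2) (chiR R) fun e => y e.2 e.1

theorem rG_ge {b : ℝ} (hb : 0 ≤ b) (R : Finset (ℤ × ℤ)) (y : HF) :
    Real.exp (qG b R y / 2) ≤ rG b R y :=
  rho_ge muInf _ _ G_div2 (half_nonneg' hb R) _

theorem rG_pos {b : ℝ} (hb : 0 ≤ b) (R : Finset (ℤ × ℤ)) (y : HF) : 0 < rG b R y :=
  lt_of_lt_of_le (Real.exp_pos _) (rG_ge hb R y)

theorem rG_upper {b : ℝ} (hb : 0 ≤ b) (R : Finset (ℤ × ℤ)) (y : HF) {δ : ℝ} (hδ0 : 0 ≤ δ)
    (hδ1 : δ ≤ 1) (hδ : 4 * b * R.card * δ ≤ 1) (hy : ∀ c ∈ R, ∀ t, |y t c| ≤ δ) :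
    rG b R y ≤ Real.exp (qG b R y / 2 + K5 (2 * b * R.card) * δ ^ 4) := by
  have h := rho_second muInf (fun _ : KR R => b / 2) (chiR R) (half_nonneg' hb R)
    (H950.sum_half b R) (fun e : KR R => y e.2 e.1) (Y := δ) hδ1 (by linarith)
    (fun e => hy e.1 e.1.2 e.2) hδ0
  refine h.trans ?_
  have h2 := Real.add_one_le_exp (qG b R y / 2 + K5 (2 * b * R.card) * δ ^ 4)
  unfold qG K5 at *
  linarith

theorem qG_smul (b : ℝ) (R : Finset (ℤ × ℤ)) (s : ℝ) (y : HF) :
    qG b R (s • y) = s ^ 2 * qG b R y :=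
  Qform_smul muInf _ _ s (fun e : KR R => y e.2 e.1)

theorem qG_neg (b : ℝ) (R : Finset (ℤ × ℤ)) (y : HF) : qG b R (-y) = qG b R y :=
  Qform_neg muInf _ _ (fun e : KR R => y e.2 e.1)

theorem qG_par (b : ℝ) (R : Finset (ℤ × ℤ)) (y z : HF) :
    qG b R (y + z) + qG b R (y - z) = 2 * qG b R y + 2 * qG b R z :=
  Qform_par muInf _ _ (fun e : KR R => y e.2 e.1) (fun e : KR R => z e.2 e.1)

theorem qG_zero (b : ℝ) (R : Finset (ℤ × ℤ)) : qG b R 0 = 0 := by
  have h := qG_smul b R 0 0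
  rw [zero_smul] at h
  rw [h]
  ring

theorem rhoG_fib (b : ℝ) {ι : Type*} [DecidableEq ι] (R : Finset (ℤ × ℤ)) (τ : ℤ × ℤ → ι) (k : ι)
    (y : HF) :
    rho muInf (fun e : {e : KR R // τ e.1 = k} => b / 2)
      (fun e : {e : KR R // τ e.1 = k} => (chiR R e.1).comp
        (proj (intR (R.filter fun c => τ c = k))) (proj_cont _)) (fun e => y e.1.2 e.1.1) =
    rG b (R.filter fun c => τ c = k) y := by
  have h := rho_tr muInf (J := fun e : {e : KR R // τ e.1 = k} => b / 2)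
    (χ := fun e : {e : KR R // τ e.1 = k} => (chiR R e.1).comp
        (proj (intR (R.filter fun c => τ c = k))) (proj_cont _))
    (J' := fun _ : KR (R.filter fun c => τ c = k) => b / 2)
    (χ' := chiR (R.filter fun c => τ c = k))
    (fibE R τ k) (fun x => x) (fun F _ => rfl) (fun _ => 1)
    (fun _ => Or.inl rfl) (fun e => rfl) (fun e x => fib_c R τ k e x)
    (fun e x => by rw [one_mul]; exact fib_s R τ k e x)
    (y := fun e => y e.1.2 e.1.1)
    (y' := fun e : KR (R.filter fun c => τ c = k) => y e.2 e.1)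
    (fun e => by rw [one_mul]; rfl)
  exact h

theorem rG_tile {b : ℝ} (hb : 0 ≤ b) {ι : Type*} [DecidableEq ι] (R : Finset (ℤ × ℤ))
    (S : Finset ι) (τ : ℤ × ℤ → ι) (hτ : ∀ c ∈ R, τ c ∈ S) (y : HF) :
    rG b R y ≤ ∏ k ∈ S, rG b (R.filter fun c => τ c = k) y := by
  have h := tile_bound muInf (fun _ : KR R => b / 2) (chiR R) G_div2 (half_nonneg' hb R) S
    (fun e : KR R => τ e.1) (fun e => hτ e.1 e.1.2)
    (fun k => proj (intR (R.filter fun c => τ c = k))) (fun k => proj_cont _)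
    (fun k e he x => tile_indep R τ k e he x) (fun e : KR R => y e.2 e.1)
  have h2 : ∀ k ∈ S, rho muInf (fun e : {e : KR R // τ e.1 = k} => b / 2)
      (fun e : {e : KR R // τ e.1 = k} => (chiR R e.1).comp
        (proj (intR (R.filter fun c => τ c = k))) (proj_cont _)) (fun e => y e.1.2 e.1.1) =
      rG b (R.filter fun c => τ c = k) y := fun k _ => rhoG_fib b R τ k y
  rw [← Finset.prod_congr rfl h2]
  exact h

/-- **subadditivity** of the quadratic form, half-bond fields -/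
theorem qG_tile {b : ℝ} (hb : 0 ≤ b) {ι : Type*} [DecidableEq ι] (R : Finset (ℤ × ℤ))
    (S : Finset ι) (τ : ℤ × ℤ → ι) (hτ : ∀ c ∈ R, τ c ∈ S) (y : HF) :
    qG b R y ≤ ∑ k ∈ S, qG b (R.filter fun c => τ c = k) y := by
  -- bound of the field on the region
  obtain ⟨M, hM1, hM⟩ : ∃ M : ℝ, 1 ≤ M ∧ ∀ c ∈ R, ∀ t, |y t c| ≤ M := by
    refine ⟨1 + ∑ c ∈ R, ∑ t, |y t c|, ?_, fun c hc t => ?_⟩
    · have : 0 ≤ ∑ c ∈ R, ∑ t, |y t c| :=
        Finset.sum_nonneg fun c _ => Finset.sum_nonneg fun t _ => abs_nonneg _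
      linarith
    · have h1 : |y t c| ≤ ∑ t, |y t c| :=
        Finset.single_le_sum (f := fun t => |y t c|) (fun t _ => abs_nonneg _)
          (Finset.mem_univ t)
      have h2 : ∑ t, |y t c| ≤ ∑ c ∈ R, ∑ t, |y t c| :=
        Finset.single_le_sum (f := fun c => ∑ t, |y t c|)
          (fun c _ => Finset.sum_nonneg fun t _ => abs_nonneg _) hc
      linarith
  set k0 : ℝ := ∑ k ∈ S, K5 (2 * b * (R.filter fun c => τ c = k).card) with hk0
  have hk00 : 0 ≤ k0 := Finset.sum_nonneg fun k _ => K5_nonneg (by positivity)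
  have key : ∀ u : ℝ, 0 < u → u * M ≤ 1 → 4 * b * R.card * (u * M) ≤ 1 →
      qG b R y ≤ (∑ k ∈ S, qG b (R.filter fun c => τ c = k) y) + 2 * k0 * M ^ 4 * u ^ 2 := by
    intro u hu h1 h2
    have h3 := (rG_ge hb R (u • y)).trans (rG_tile hb R S τ hτ (u • y))
    have h4 : ∏ k ∈ S, rG b (R.filter fun c => τ c = k) (u • y) ≤
        ∏ k ∈ S, Real.exp (qG b (R.filter fun c => τ c = k) (u • y) / 2 +
          K5 (2 * b * (R.filter fun c => τ c = k).card) * (u * M) ^ 4) := by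
      refine Finset.prod_le_prod (fun k _ => (rG_pos hb _ _).le) fun k _ => ?_
      refine rG_upper hb _ _ (by positivity) h1 ?_ fun c hc t => ?_
      · refine le_trans ?_ h2
        have : ((R.filter fun c => τ c = k).card : ℝ) ≤ R.card := by
          exact_mod_cast Finset.card_le_card (Finset.filter_subset _ _)
        have hM0 : 0 ≤ u * M := by positivity
        gcongr
      · rw [Pi.smul_apply, Pi.smul_apply, smul_eq_mul, abs_mul, abs_of_pos hu]
        exact mul_le_mul_of_nonneg_left (hM c (Finset.mem_filter.1 hc).1 t) hu.le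
    have h5 := h3.trans h4
    rw [← Real.exp_sum, Real.exp_le_exp] at h5
    simp only [qG_smul] at h5
    rw [Finset.sum_add_distrib, ← Finset.sum_mul, ← hk0, ← Finset.sum_div, ← Finset.mul_sum] at h5
    have hu2 : 0 < u ^ 2 := by positivity
    have h6 : u ^ 2 * qG b R y ≤ u ^ 2 * ((∑ k ∈ S, qG b (R.filter fun c => τ c = k) y) +
        2 * k0 * M ^ 4 * u ^ 2) := by
      nlinarith only [h5]
    exact le_of_mul_le_mul_left h6 hu2
  have htend : Tendsto (fun n : ℕ => (2 : ℝ)⁻¹ ^ n) atTop (𝓝 0) :=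
    tendsto_pow_atTop_nhds_zero_of_lt_one (by norm_num) (by norm_num)
  have hlim : Tendsto (fun n : ℕ => (∑ k ∈ S, qG b (R.filter fun c => τ c = k) y) +
      2 * k0 * M ^ 4 * ((2 : ℝ)⁻¹ ^ n) ^ 2) atTop
      (𝓝 ((∑ k ∈ S, qG b (R.filter fun c => τ c = k) y) + 2 * k0 * M ^ 4 * 0 ^ 2)) :=
    tendsto_const_nhds.add (tendsto_const_nhds.mul (htend.pow 2))
  have c1 := (htend.mul_const M).eventually (ge_mem_nhds (by norm_num : (0:ℝ) * M < 1))
  have c2 := ((htend.mul_const M).const_mul (4 * b * R.card)).eventually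
    (ge_mem_nhds (by norm_num : 4 * b * R.card * ((0:ℝ) * M) < 1))
  have := ge_of_tendsto hlim (by
    filter_upwards [c1, c2] with n h1 h2
    exact key _ (by positivity) h1 h2)
  simpa using this

/-- subadditivity for two disjoint parts -/
theorem qG_two {b : ℝ} (hb : 0 ≤ b) (R : Finset (ℤ × ℤ)) (P : ℤ × ℤ → Prop) [DecidablePred P]
    (y : HF) :
    qG b R y ≤ qG b (R.filter fun c => P c) y + qG b (R.filter fun c => ¬ P c) y := by
  have h := qG_tile hb R Finset.univ (fun c => decide (P c)) (fun c _ => Finset.mem_univ _) y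
  rw [Fintype.sum_bool] at h
  simp only [decide_eq_true_eq, decide_eq_false_iff_not] at h
  exact h

theorem qG_van {b : ℝ} {R : Finset (ℤ × ℤ)} {y : HF} (h : ∀ c ∈ R, ∀ t, y t c = 0) :
    qG b R y = 0 := by
  rw [qG_congr b (z := 0) (fun c hc t => h c hc t), qG_zero]

/-- the form decreases when the region becomes larger -/
theorem qG_sub {b : ℝ} (hb : 0 ≤ b) {R R' : Finset (ℤ × ℤ)} (h : R ⊆ R') (y : HF)
    (hy : ∀ c ∈ R', c ∉ R → ∀ t, y t c = 0) : qG b R' y ≤ qG b R y := by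
  classical
  have h1 := qG_two hb R' (fun c => c ∈ R) y
  have h2 : R'.filter (fun c => c ∈ R) = R := by
    ext c
    rw [Finset.mem_filter]
    exact ⟨fun h3 => h3.2, fun h3 => ⟨h h3, h3⟩⟩
  have h3 : qG b (R'.filter fun c => ¬ c ∈ R) y = 0 := by
    refine qG_van fun c hc t => ?_
    rw [Finset.mem_filter] at hc
    exact hy c hc.1 hc.2 t
  rw [h2, h3, add_zero] at h1
  exact h1

/-- translation of the half-bonds -/
def trE (q : ℤ × ℤ) {R R' : Finset (ℤ × ℤ)} (h : ∀ c, c + q ∈ R' ↔ c ∈ R) : KR R' ≃ KR R where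
  toFun := fun e => (⟨e.1.1 - q, (h _).1 (by rw [sub_add_cancel]; exact e.1.2)⟩, e.2)
  invFun := fun e => (⟨e.1.1 + q, (h _).2 e.1.2⟩, e.2)
  left_inv := fun e => by
    ext <;> simp
  right_inv := fun e => by
    ext <;> simp

theorem hu_add (c q : ℤ × ℤ) (t : HT) : hu (c + q) t = q + hu c t := by
  unfold hu
  ext
  · simp only [Prod.fst_add]; ring
  · simp only [Prod.snd_add]; ring

theorem hv_add (c q : ℤ × ℤ) (t : HT) : hv (c + q) t = q + hv c t := by
  unfold hv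
  rw [hu_add, add_assoc]

/-- the form is invariant under translations -/
theorem qG_shF (b : ℝ) (q : ℤ × ℤ) {R R' : Finset (ℤ × ℤ)} (h : ∀ c, c + q ∈ R' ↔ c ∈ R)
    (y : HF) : qG b R' y = qG b R (shF q y) := by
  have hint : ∀ v, q + v ∈ intR R' ↔ v ∈ intR R := by
    intro v
    unfold intR
    simp only [Set.mem_setOf_eq]
    rw [show q + v = v + q by abel, show v + q - (1, 0) = (v - (1, 0)) + q by abel,
      show v + q - (0, 1) = (v - (0, 1)) + q by abel,
      show v + q - (1, 1) = (v - (1, 1)) + q by abel, h, h, h, h]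
  have hproj : ∀ (x : Ginf) (v : ℤ × ℤ), proj (intR R') x (q + v) =
      proj (intR R) (relabel (fun v : ℤ × ℤ => q + v) x) v := by
    intro x v
    by_cases h1 : v ∈ intR R
    · rw [proj_of_mem h1, proj_of_mem ((hint v).2 h1)]
      rfl
    · rw [proj_of_notMem h1, proj_of_notMem (fun h' => h1 ((hint v).1 h'))]
  have hE : ∀ e : KR R', (e.1 : ℤ × ℤ) = (trE q h e).1 + q := by
    intro e
    show (e.1 : ℤ × ℤ) = e.1 - q + q
    rw [sub_add_cancel]
  refine Qform_tr muInf (J := fun _ : KR R' => b / 2) (χ := chiR R')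
    (J' := fun _ : KR R => b / 2) (χ' := chiR R) (trE q h)
    (fun x => relabel (fun v : ℤ × ℤ => q + v) x) (int_tr_real q) (fun _ => 1)
    (fun _ => Or.inl rfl) (fun e => rfl) (fun e x => ?_) (fun e x => ?_) (fun e => ?_)
  · show cosT (proj (intR R') x (hu e.1 e.2) - proj (intR R') x (hv e.1 e.2)) =
      cosT (proj (intR R) (relabel (fun v : ℤ × ℤ => q + v) x) (hu (trE q h e).1 e.2) -
        proj (intR R) (relabel (fun v : ℤ × ℤ => q + v) x) (hv (trE q h e).1 e.2))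
    rw [hE e, hu_add, hv_add, hproj, hproj]
  · rw [one_mul]
    show sinT (proj (intR R') x (hu e.1 e.2) - proj (intR R') x (hv e.1 e.2)) =
      sinT (proj (intR R) (relabel (fun v : ℤ × ℤ => q + v) x) (hu (trE q h e).1 e.2) -
        proj (intR R) (relabel (fun v : ℤ × ℤ => q + v) x) (hv (trE q h e).1 e.2))
    rw [hE e, hu_add, hv_add, hproj, hproj]
  · rw [one_mul]
    show y e.2 e.1 = y e.2 ((trE q h e).1 + q)
    rw [← hE e]

/-- the form is invariant under symmetric reflections -/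
theorem qG_ac (r : Refl) {b : ℝ} {R : Finset (ℤ × ℤ)} (h : r.Sym R) (y : HF) :
    qG b R (ac r y) = qG b R y := by
  have hinj : Function.Injective r.s := by
    intro u v huv
    rw [← r.s_s u, huv, r.s_s]
  have hproj : ∀ (x : Ginf) (v : ℤ × ℤ), proj (intR R) (relabel r.s x) v =
      proj (intR R) x (r.s v) := by
    intro x v
    rw [relabel_proj (intR R) r.s h.2]
    rfl
  refine Qform_tr muInf (J := fun _ : KR R => b / 2) (χ := chiR R)
    (J' := fun _ : KR R => b / 2) (χ' := chiR R) (rE r h)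
    (fun x => relabel r.s x) (fun F hF => integral_relabel r.s hinj muInf muInf hF)
    (fun e => r.sg e.2.1) (fun _ => r.sg_or _) (fun e => rfl) (fun e x => ?_) (fun e x => ?_)
    (fun e => rfl)
  · show cosT (proj (intR R) x (hu e.1 e.2) - proj (intR R) x (hv e.1 e.2)) =
      cosT (proj (intR R) (relabel r.s x) (hu (r.cm e.1) (r.tm e.2)) -
        proj (intR R) (relabel r.s x) (hv (r.cm e.1) (r.tm e.2)))
    rw [hproj, hproj]
    rcases r.ends e.1 e.2 with ⟨_, h1, h2⟩ | ⟨_, h1, h2⟩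
    · rw [h1, h2, r.s_s, r.s_s]
    · rw [h1, h2, r.s_s, r.s_s, ← cosT_neg]
      congr 1
      abel
  · show sinT (proj (intR R) x (hu e.1 e.2) - proj (intR R) x (hv e.1 e.2)) =
      r.sg e.2.1 * sinT (proj (intR R) (relabel r.s x) (hu (r.cm e.1) (r.tm e.2)) -
        proj (intR R) (relabel r.s x) (hv (r.cm e.1) (r.tm e.2)))
    rw [hproj, hproj]
    rcases r.ends e.1 e.2 with ⟨h0, h1, h2⟩ | ⟨h0, h1, h2⟩
    · rw [h0, h1, h2, r.s_s, r.s_s, one_mul]
    · rw [h0, h1, h2, r.s_s, r.s_s, neg_one_mul, ← sinT_neg]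
      congr 1
      abel

/-- **reversed reflection positivity** -/
theorem rpG_rev (r : Refl) {b : ℝ} {R : Finset (ℤ × ℤ)} (h : r.Sym R) (y : HF)
    (hy : ∀ c ∈ R, ∀ t, ¬ r.left c t → y t c = 0) :
    2 * qG b R y ≤ qG b R (y - ac r y) := by
  have h1 := rpG r (b := b) h y hy
  have h2 := qG_par b R y (ac r y)
  rw [qG_ac r h] at h2
  linarith

/-! ### symmetric regions -/

theorem symA_of {a : ℤ} {R : Finset (ℤ × ℤ)} (h : ∀ c : ℤ × ℤ, (a - 1 - c.2, a - 1 - c.1) ∈ R ↔ c ∈ R) :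
    (rA a).Sym R := by
  refine ⟨h, fun v => ?_⟩
  show (a - v.2, a - v.1) ∈ intR R ↔ v ∈ intR R
  unfold intR
  simp only [Set.mem_setOf_eq]
  have e1 := h v
  have e2 := h (v - (1, 0))
  have e3 := h (v - (0, 1))
  have e4 := h (v - (1, 1))
  simp only [Prod.fst_sub, Prod.snd_sub, sub_zero] at e1 e2 e3 e4
  rw [← e1, ← e2, ← e3, ← e4]
  have f1 : ((a - v.2, a - v.1) : ℤ × ℤ) = (a - 1 - (v.2 - 1), a - 1 - (v.1 - 1)) := by
    ext <;> simp
  have f2 : ((a - v.2, a - v.1) : ℤ × ℤ) - (1, 0) = (a - 1 - v.2, a - 1 - (v.1 - 1)) := by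
    ext
    · simp only [Prod.fst_sub]; ring
    · simp only [Prod.snd_sub]; ring
  have f3 : ((a - v.2, a - v.1) : ℤ × ℤ) - (0, 1) = (a - 1 - (v.2 - 1), a - 1 - v.1) := by
    ext
    · simp only [Prod.fst_sub]; ring
    · simp only [Prod.snd_sub]; ring
  have f4 : ((a - v.2, a - v.1) : ℤ × ℤ) - (1, 1) = (a - 1 - v.2, a - 1 - v.1) := by
    ext
    · simp only [Prod.fst_sub]; ring
    · simp only [Prod.snd_sub]; ring
  rw [f2, f3, f4, f1]
  tauto

theorem symD_of {a : ℤ} {R : Finset (ℤ × ℤ)} (h : ∀ c : ℤ × ℤ, (c.2 + a, c.1 - a) ∈ R ↔ c ∈ R) :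
    (rD a).Sym R := by
  refine ⟨h, fun v => ?_⟩
  show (v.2 + a, v.1 - a) ∈ intR R ↔ v ∈ intR R
  unfold intR
  simp only [Set.mem_setOf_eq]
  have e1 := h v
  have e2 := h (v - (1, 0))
  have e3 := h (v - (0, 1))
  have e4 := h (v - (1, 1))
  simp only [Prod.fst_sub, Prod.snd_sub, sub_zero] at e1 e2 e3 e4
  rw [← e1, ← e2, ← e3, ← e4]
  have f2 : ((v.2 + a, v.1 - a) : ℤ × ℤ) - (1, 0) = (v.2 - 1 + a, v.1 - a) := by
    ext
    · simp only [Prod.fst_sub]; ring
    · simp only [Prod.snd_sub]; ring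
  have f3 : ((v.2 + a, v.1 - a) : ℤ × ℤ) - (0, 1) = (v.2 + a, v.1 - 1 - a) := by
    ext
    · simp only [Prod.fst_sub]; ring
    · simp only [Prod.snd_sub]; ring
  have f4 : ((v.2 + a, v.1 - a) : ℤ × ℤ) - (1, 1) = (v.2 - 1 + a, v.1 - 1 - a) := by
    ext
    · simp only [Prod.fst_sub]; ring
    · simp only [Prod.snd_sub]; ring
  rw [f2, f3, f4]
  tauto

theorem symH_of {a : ℤ} {R : Finset (ℤ × ℤ)} (h : ∀ c : ℤ × ℤ, (c.1, 2 * a - 1 - c.2) ∈ R ↔ c ∈ R) :
    (rH a).Sym R := by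
  refine ⟨h, fun v => ?_⟩
  show (v.1, 2 * a - v.2) ∈ intR R ↔ v ∈ intR R
  unfold intR
  simp only [Set.mem_setOf_eq]
  have e1 := h v
  have e2 := h (v - (1, 0))
  have e3 := h (v - (0, 1))
  have e4 := h (v - (1, 1))
  simp only [Prod.fst_sub, Prod.snd_sub, sub_zero] at e1 e2 e3 e4
  rw [← e1, ← e2, ← e3, ← e4]
  have f1 : ((v.1, 2 * a - v.2) : ℤ × ℤ) = (v.1, 2 * a - 1 - (v.2 - 1)) := by
    ext <;> simp
  have f2 : ((v.1, 2 * a - v.2) : ℤ × ℤ) - (1, 0) = (v.1 - 1, 2 * a - 1 - (v.2 - 1)) := by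
    ext
    · simp only [Prod.fst_sub]
    · simp only [Prod.snd_sub]; ring
  have f3 : ((v.1, 2 * a - v.2) : ℤ × ℤ) - (0, 1) = (v.1, 2 * a - 1 - v.2) := by
    ext
    · simp only [Prod.fst_sub]; ring
    · simp only [Prod.snd_sub]; ring
  have f4 : ((v.1, 2 * a - v.2) : ℤ × ℤ) - (1, 1) = (v.1 - 1, 2 * a - 1 - v.2) := by
    ext
    · simp only [Prod.fst_sub]
    · simp only [Prod.snd_sub]; ring
  rw [f2, f3, f4, f1]
  tauto

end

end Vale.Agent.P159.H856
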