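import Vale.Agent.P159.H856.Pf1
import Vale.Agent.P159.H856.Arr

/-!
P159 (helper856), finite size pyramid inequality, part 2: rectangles, the alternating stripes and
the uniform field.
-/

set_option linter.all false

open scoped BigOperators

namespace Vale.Agent.P159.H856

open Vale.Agent.P159 Vale.Agent.P159.UJ Vale.Agent.P159.H950

noncomputable section

/-- the cells of the rectangle `[x0, x1] × [y0, y1]` -/
def rec4 (x0 x1 y0 y1 : ℤ) : Finset (ℤ × ℤ) := Finset.Ico x0 x1 ×ˢ Finset.Ico y0 y1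

theorem mem_rec4 {x0 x1 y0 y1 : ℤ} {c : ℤ × ℤ} : c ∈ rec4 x0 x1 y0 y1 ↔
    (x0 ≤ c.1 ∧ c.1 < x1) ∧ (y0 ≤ c.2 ∧ c.2 < y1) := by
  unfold rec4
  rw [Finset.mem_product, Finset.mem_Ico, Finset.mem_Ico]

theorem card_rec4 (x0 x1 y0 y1 : ℤ) : (rec4 x0 x1 y0 y1).card = (x1 - x0).toNat * (y1 - y0).toNat := by
  unfold rec4
  rw [Finset.card_product, Int.card_Ico, Int.card_Ico]

theorem card_rec4' {x0 x1 y0 y1 : ℤ} (hx : x0 ≤ x1) (hy : y0 ≤ y1) :
    ((rec4 x0 x1 y0 y1).card : ℝ) = ((x1 - x0 : ℤ) : ℝ) * ((y1 - y0 : ℤ) : ℝ) := by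
  rw [card_rec4]
  push_cast
  have h1 : (((x1 - x0).toNat : ℕ) : ℝ) = (((x1 - x0).toNat : ℤ) : ℝ) := by push_cast; rfl
  have h2 : (((y1 - y0).toNat : ℕ) : ℝ) = (((y1 - y0).toNat : ℤ) : ℝ) := by push_cast; rfl
  rw [h1, h2, Int.toNat_of_nonneg (by omega), Int.toNat_of_nonneg (by omega)]
  push_cast
  ring

theorem blk_rec4 (q : ℤ × ℤ) (L : ℕ) : blk q L = rec4 q.1 (q.1 + L) q.2 (q.2 + L) := rfl

theorem rec4_symH {x0 x1 y0 y1 a : ℤ} (h : y0 + y1 = 2 * a) : (rH a).Sym (rec4 x0 x1 y0 y1) := by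
  refine symH_of fun c => ?_
  rw [mem_rec4, mem_rec4]
  simp only
  omega

/-! ### reversed chessboard estimate for the alternating stripes -/

/-- horizontal stripes of alternating sign, heights between `0` and `h` -/
def stp (p h : ℤ) : HF := bF (fun v => if 0 ≤ v.2 ∧ v.2 ≤ h then -sqw p v.2 else 0) fun _ => 0

theorem stp_h (p h : ℤ) (s : Bool) (c : ℤ × ℤ) : stp p h (false, s) c =
    if 0 ≤ c.2 + (if s then 1 else 0) ∧ c.2 + (if s then 1 else 0) ≤ h then
      -sqw p (c.2 + (if s then 1 else 0)) else 0 := by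
  cases s <;> simp [stp, bF, hu]

theorem stp_v (p h : ℤ) (s : Bool) (c : ℤ × ℤ) : stp p h (true, s) c = 0 := rfl

theorem sqw_mul {p : ℤ} (hp : 0 < p) (k : ℤ) : sqw p (p * k) = 0 := by
  rcases Int.even_or_odd' k with ⟨m, h | h⟩
  · rw [h, show p * (2 * m) = 0 + 2 * p * m by ring, sqw_per hp, sqw_zero hp]
  · rw [h, show p * (2 * m + 1) = 0 + p + 2 * p * m by ring, sqw_per hp, sqw_add_p hp, sqw_zero hp,
      neg_zero]

/-- doubling of the stripes -/
theorem stp_two {p a k : ℤ} (hp : 0 < p) (ha : a = p * k) (ha0 : 0 ≤ a) :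
    stp p (2 * a) = stp p a - ac (rH a) (stp p a) := by
  funext t c
  show stp p (2 * a) t c = stp p a t c - (rH a).sg t.1 * stp p a ((rH a).tm t) ((rH a).cm c)
  rcases t with ⟨_ | _, s⟩
  · have e : stp p a ((rH a).tm (false, s)) ((rH a).cm c) = stp p a (false, !s) (c.1, 2 * a - 1 - c.2) := rfl
    have e2 : (rH a).sg (false, s).1 = 1 := rfl
    rw [e, e2, stp_h, stp_h, stp_h]
    set y : ℤ := c.2 + (if s then 1 else 0) with hy
    have hy' : (2 * a - 1 - c.2) + (if (!s) then 1 else 0) = 2 * a - y := by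
      rw [hy]
      cases s <;> simp <;> ring
    simp only
    rw [hy']
    have h1 : sqw p (2 * a - y) = -sqw p y := by
      rw [show 2 * a - y = -y + 2 * p * k by rw [ha]; ring, sqw_per hp, sqw_neg hp]
    rw [h1]
    by_cases h2 : y = a
    · have h3 : sqw p y = 0 := by rw [h2, ha]; exact sqw_mul hp k
      rw [h3]
      simp
    · split_ifs <;> first | (exfalso; omega) | ring
  · show (0 : ℝ) = 0 - (-1 : ℝ) * 0
    ring

theorem stp_left {p a k : ℤ} (hp : 0 < p) (ha : a = p * k) (c : ℤ × ℤ) (t : HT)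
    (h : ¬ (rH a).left c t) : stp p a t c = 0 := by
  have h1 : ¬ c.2 < a := h
  rcases t with ⟨_ | _, s⟩
  · rw [stp_h]
    set y : ℤ := c.2 + (if s then 1 else 0) with hy
    have hy1 : a ≤ y := by
      rw [hy]
      cases s <;> simp <;> omega
    by_cases h2 : y = a
    · have h3 : sqw p y = 0 := by rw [h2, ha]; exact sqw_mul hp k
      rw [h3]
      simp
    · rw [if_neg (by omega)]
  · rfl

/-- **reversed chessboard estimate** -/
theorem stp_chess {b : ℝ} (hb : 0 ≤ b) {p : ℕ} (hp : 1 ≤ p) (m : ℕ) (X : ℤ) :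
    ∀ j : ℕ, j ≤ m →
      2 ^ (m - j) * qG b (rec4 0 X (-(((p * 2 ^ m : ℕ) : ℤ) - ((p * 2 ^ j : ℕ) : ℤ))) ((p * 2 ^ m : ℕ) : ℤ))
        (stp p ((p * 2 ^ j : ℕ) : ℤ)) ≤
      qG b (rec4 0 X 0 ((p * 2 ^ m : ℕ) : ℤ)) (stp p ((p * 2 ^ m : ℕ) : ℤ)) := by
  intro j hj
  obtain ⟨d, rfl⟩ := Nat.exists_eq_add_of_le hj
  clear hj
  induction d generalizing j with
  | zero => simp
  | succ d ih =>
    have h1 := ih (j + 1)
    have e0 : j + 1 + d = j + (d + 1) := by ring
    rw [e0] at h1
    refine le_trans ?_ h1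
    have e1 : j + (d + 1) - j = d + 1 := by omega
    have e2 : j + (d + 1) - (j + 1) = d := by omega
    rw [e1, e2]
    set M : ℤ := ((p * 2 ^ (j + (d + 1)) : ℕ) : ℤ) with hM
    set a : ℤ := ((p * 2 ^ j : ℕ) : ℤ) with ha
    have ha1 : ((p * 2 ^ (j + 1) : ℕ) : ℤ) = 2 * a := by
      rw [ha]; push_cast; ring
    rw [ha1]
    have haM : 2 * a ≤ M := by
      rw [← ha1, hM]
      have : p * 2 ^ (j + 1) ≤ p * 2 ^ (j + (d + 1)) :=
        Nat.mul_le_mul_left p (Nat.pow_le_pow_right (by norm_num) (by omega))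
      exact_mod_cast this
    have hp0 : (0 : ℤ) < (p : ℤ) := by exact_mod_cast hp
    have ha0 : 0 ≤ a := by rw [ha]; positivity
    have hak : a = (p : ℤ) * 2 ^ j := by rw [ha]; push_cast; ring
    -- reversed reflection positivity
    have h2 := rpG_rev (rH a) (b := b) (R := rec4 0 X (-(M - 2 * a)) M)
      (rec4_symH (by ring)) (stp p a) fun c _ t h => stp_left hp0 hak c t h
    rw [← stp_two hp0 hak ha0] at h2
    -- the domain becomes larger
    have h3 : qG b (rec4 0 X (-(M - a)) M) (stp p a) ≤ qG b (rec4 0 X (-(M - 2 * a)) M) (stp p a) := by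
      refine qG_sub hb ?_ _ ?_
      · intro c hc
        rw [mem_rec4] at hc ⊢
        omega
      · intro c hc hc' t
        rw [mem_rec4] at hc hc'
        rcases t with ⟨_ | _, s⟩
        · rw [stp_h]
          set y : ℤ := c.2 + (if s then 1 else 0) with hy
          have hy1 : y ≤ 0 := by
            rw [hy]
            cases s <;> simp <;> omega
          by_cases h4 : y = 0
          · rw [h4, sqw_zero hp0]
            simp
          · rw [if_neg (by omega)]
        · rfl
    have h5 : (0 : ℝ) ≤ 2 ^ d := by positivity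
    calc 2 ^ (d + 1) * qG b (rec4 0 X (-(M - a)) M) (stp p a)
        ≤ 2 ^ (d + 1) * qG b (rec4 0 X (-(M - 2 * a)) M) (stp p a) := by gcongr
      _ = 2 ^ d * (2 * qG b (rec4 0 X (-(M - 2 * a)) M) (stp p a)) := by ring
      _ ≤ _ := mul_le_mul_of_nonneg_left h2 h5

/-! ### forward chessboard estimate for one stripe -/

/-- the field `1` on the horizontal half-bonds of the cells of the rows `0, …, h - 1` -/
def bar (h : ℤ) : HF := fun t c => if t.1 then 0 else if 0 ≤ c.2 ∧ c.2 < h then 1 else 0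

/-- the horizontal uniform field -/
def uni : HF := fun t _ => if t.1 then 0 else 1

theorem bar_two {a : ℤ} (ha : 0 ≤ a) : bar (2 * a) = bar a + ac (rH a) (bar a) := by
  funext t c
  show bar (2 * a) t c = bar a t c + (rH a).sg t.1 * bar a ((rH a).tm t) ((rH a).cm c)
  rcases t with ⟨_ | _, s⟩
  · show (if 0 ≤ c.2 ∧ c.2 < 2 * a then (1 : ℝ) else 0) = (if 0 ≤ c.2 ∧ c.2 < a then 1 else 0) +
      1 * (if 0 ≤ 2 * a - 1 - c.2 ∧ 2 * a - 1 - c.2 < a then 1 else 0)
    split_ifs <;> first | (exfalso; omega) | ring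
  · show (0 : ℝ) = 0 + (-1) * 0
    ring

theorem bar_left {a : ℤ} (c : ℤ × ℤ) (t : HT) (h : ¬ (rH a).left c t) : bar a t c = 0 := by
  have h1 : ¬ c.2 < a := h
  unfold bar
  rcases t with ⟨_ | _, s⟩
  · simp only [Bool.false_eq_true, if_false]
    rw [if_neg (by omega)]
  · simp

/-- **forward chessboard estimate** for a stripe -/
theorem bar_chess {b : ℝ} (hb : 0 ≤ b) {p : ℕ} (hp : 1 ≤ p) (X K : ℤ) (hK : 0 ≤ K) (j : ℕ) :
    qG b (rec4 0 X (-K) (((p * 2 ^ j : ℕ) : ℤ) + K)) (bar ((p * 2 ^ j : ℕ) : ℤ)) ≤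
      2 ^ j * qG b (rec4 0 X (-K) ((p : ℤ) + K)) (bar p) := by
  induction j with
  | zero => simp
  | succ j ih =>
    set a : ℤ := ((p * 2 ^ j : ℕ) : ℤ) with ha
    have ha1 : ((p * 2 ^ (j + 1) : ℕ) : ℤ) = 2 * a := by
      rw [ha]; push_cast; ring
    rw [ha1]
    have ha0 : 0 ≤ a := by rw [ha]; positivity
    have h2 := rpG (rH a) (b := b) (R := rec4 0 X (-K) (2 * a + K))
      (rec4_symH (by ring)) (bar a) fun c _ t h => bar_left c t h
    rw [← bar_two ha0] at h2
    have h3 : qG b (rec4 0 X (-K) (2 * a + K)) (bar a) ≤ qG b (rec4 0 X (-K) (a + K)) (bar a) := by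
      refine qG_sub hb ?_ _ ?_
      · intro c hc
        rw [mem_rec4] at hc ⊢
        omega
      · intro c hc hc' t
        rw [mem_rec4] at hc hc'
        unfold bar
        rcases t with ⟨_ | _, s⟩
        · simp only [Bool.false_eq_true, if_false]
          rw [if_neg (by omega)]
        · simp
    calc _ ≤ 2 * qG b (rec4 0 X (-K) (a + K)) (bar a) := by linarith
      _ ≤ 2 * (2 ^ j * qG b (rec4 0 X (-K) ((p : ℤ) + K)) (bar p)) := by linarith
      _ = _ := by ring

/-! ### norms -/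

theorem nG_sum (R : Finset (ℤ × ℤ)) (y : HF) :
    nG R y = ∑ z ∈ R, ∑ t : Bool × Bool, y t z ^ 2 := by
  unfold nG
  rw [Fintype.sum_prod_type, ← Finset.sum_coe_sort R]

theorem sum_BB (f : Bool × Bool → ℝ) : ∑ t : Bool × Bool, f t =
    f (false, false) + f (false, true) + f (true, false) + f (true, true) := by
  rw [Fintype.sum_prod_type]
  simp only [Fintype.sum_bool]
  ring

/-- norm of a field supported in a set of cells and bounded by one -/
theorem nG_le_card {R : Finset (ℤ × ℤ)} (y : HF) (S : Finset (ℤ × ℤ)) {k : ℝ}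
    (h1 : ∀ c ∈ R, c ∉ S → ∀ t, y t c = 0)
    (h2 : ∀ c ∈ R, c ∈ S → ∑ t : Bool × Bool, y t c ^ 2 ≤ k) (hk : 0 ≤ k) :
    nG R y ≤ k * S.card := by
  rw [nG_sum]
  have h3 : ∀ c ∈ R, ∑ t : Bool × Bool, y t c ^ 2 ≤ if c ∈ S then k else 0 := by
    intro c hc
    by_cases h : c ∈ S
    · rw [if_pos h]
      exact h2 c hc h
    · rw [if_neg h]
      refine le_of_eq (Finset.sum_eq_zero fun t _ => ?_)
      rw [h1 c hc h t]
      norm_num
  refine (Finset.sum_le_sum h3).trans ?_
  rw [← Finset.sum_filter, Finset.sum_const, nsmul_eq_mul]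
  have h4 : ((R.filter fun c => c ∈ S).card : ℝ) ≤ S.card := by
    exact_mod_cast Finset.card_le_card fun c hc => (Finset.mem_filter.1 hc).2
  nlinarith only [h4, hk]

/-- the stripe with and without the boundary heights -/
theorem bar_stp {b : ℝ} (hb : 0 ≤ b) {p : ℕ} (hp : 1 ≤ p) {X y0 y1 : ℤ} (hX : 0 ≤ X) {η : ℝ}
    (hη : 0 < η) :
    qG b (rec4 0 X y0 y1) (bar p) ≤ (1 + η) * qG b (rec4 0 X y0 y1) (stp p p) +
      (1 + 1 / η) * (b * X) := by
  have h1 := qG_add_le hb (rec4 0 X y0 y1) (-(stp p p)) (bar p + stp p p) hη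
  rw [neg_add_cancel_comm_assoc, qG_neg] at h1
  refine h1.trans ?_
  have hp0 : (0 : ℤ) < (p : ℤ) := by exact_mod_cast hp
  have h2 : nG (rec4 0 X y0 y1) (bar p + stp p p) ≤ 2 * X := by
    have e1 : ∀ c : ℤ × ℤ, ∀ s : Bool, (bar p + stp p p) (false, s) c =
        (if 0 ≤ c.2 ∧ c.2 < p then 1 else 0) +
        (if 0 ≤ c.2 + (if s then 1 else 0) ∧ c.2 + (if s then 1 else 0) ≤ (p : ℤ) then
          -sqw p (c.2 + (if s then 1 else 0)) else 0) := by
      intro c s
      show bar p (false, s) c + stp p p (false, s) c = _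
      rw [stp_h]
      rfl
    have e2 : ∀ c : ℤ × ℤ, ∀ s : Bool, (bar p + stp p p) (true, s) c = 0 := by
      intro c s
      show (0 : ℝ) + 0 = 0
      ring
    have hpp : sqw p (p : ℤ) = 0 := by
      have := sqw_mul hp0 1
      rwa [mul_one] at this
    have e3 : ∀ c : ℤ × ℤ, (bar p + stp p p) (false, false) c = if c.2 = 0 then 1 else 0 := by
      intro c
      rw [e1]
      simp only [Bool.false_eq_true, if_false, add_zero]
      rcases lt_trichotomy c.2 0 with h | h | h
      · rw [if_neg (by omega), if_neg (by omega), if_neg (by omega)]; ring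
      · rw [if_pos (by omega), if_pos (by omega), if_pos (by omega), h, sqw_zero hp0]; ring
      · by_cases h4 : c.2 < p
        · rw [if_pos (by omega), if_pos (by omega), if_neg (by omega), sqw_pos h h4]; ring
        · rw [if_neg (by omega), if_neg (show ¬ c.2 = 0 by omega)]
          by_cases h5 : c.2 = p
          · rw [if_pos (by omega), h5, hpp]; ring
          · rw [if_neg (by omega)]; ring
    have e4 : ∀ c : ℤ × ℤ, (bar p + stp p p) (false, true) c = if c.2 = p - 1 then 1 else 0 := by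
      intro c
      rw [e1]
      simp only [if_true]
      rcases lt_trichotomy (c.2 + 1) p with h | h | h
      · rw [if_neg (show ¬ c.2 = p - 1 by omega)]
        by_cases h4 : 0 ≤ c.2
        · rw [if_pos (by omega), if_pos (by omega), sqw_pos (by omega) h]; ring
        · rw [if_neg (by omega)]
          by_cases h5 : c.2 + 1 = 0
          · rw [if_pos (by omega), h5, sqw_zero hp0]; ring
          · rw [if_neg (by omega)]; ring
      · rw [if_pos (by omega), if_pos (by omega), if_pos (show c.2 = p - 1 by omega), h, hpp]; ring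
      · rw [if_neg (by omega), if_neg (by omega), if_neg (show ¬ c.2 = p - 1 by omega)]; ring
    rw [nG_sum]
    have e5 : ∀ c ∈ rec4 0 X y0 y1, ∑ t : Bool × Bool, (bar p + stp p p) t c ^ 2 =
        (if c.2 = 0 then 1 else 0) + (if c.2 = p - 1 then 1 else 0) := by
      intro c _
      rw [sum_BB, e3, e4, e2, e2]
      split_ifs <;> norm_num
    rw [Finset.sum_congr rfl e5, Finset.sum_add_distrib]
    have e6 : ∀ r : ℤ, ∑ c ∈ rec4 0 X y0 y1, (if c.2 = r then (1 : ℝ) else 0) ≤ X := by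
      intro r
      rw [← Finset.sum_filter, Finset.sum_const, nsmul_eq_mul, mul_one]
      have h5 : ((rec4 0 X y0 y1).filter fun c => c.2 = r) ⊆ rec4 0 X r (r + 1) := by
        intro c hc
        rw [Finset.mem_filter, mem_rec4] at hc
        rw [mem_rec4]
        omega
      have h6 : (((rec4 0 X y0 y1).filter fun c => c.2 = r).card : ℝ) ≤ (rec4 0 X r (r + 1)).card := by
        exact_mod_cast Finset.card_le_card h5
      rw [card_rec4' hX (by omega)] at h6
      refine h6.trans (le_of_eq ?_)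
      push_cast
      ring
    have := e6 0
    have := e6 (p - 1)
    linarith
  have h3 : qG b (rec4 0 X y0 y1) (bar p + stp p p) ≤ b * X := by
    refine (qG_le hb _ _).trans ?_
    nlinarith only [h2, hb]
  have h4 : 0 ≤ 1 + 1 / η := by positivity
  nlinarith only [mul_le_mul_of_nonneg_left h3 h4]

/-- the uniform field in a rectangle against the stripe in its middle -/
theorem uni_bar {b : ℝ} (hb : 0 ≤ b) {X K h : ℤ} (hX : 0 ≤ X) (hK : 0 ≤ K) (hh : 0 ≤ h) {η : ℝ}
    (hη : 0 < η) :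
    qG b (rec4 0 X (-K) (h + K)) uni ≤ (1 + η) * qG b (rec4 0 X (-K) (h + K)) (bar h) +
      (1 + 1 / η) * (2 * b * (X * K)) := by
  have h1 := qG_add_le hb (rec4 0 X (-K) (h + K)) (bar h) (uni - bar h) hη
  rw [add_sub_cancel] at h1
  refine h1.trans ?_
  have h2 : nG (rec4 0 X (-K) (h + K)) (uni - bar h) ≤ 2 * (2 * (X * K)) := by
    have h5 := nG_le_card (R := rec4 0 X (-K) (h + K)) (uni - bar h)
      (rec4 0 X (-K) 0 ∪ rec4 0 X h (h + K)) (k := 2)
      (fun c hc hc' t => by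
        rw [Finset.mem_union, mem_rec4, mem_rec4] at hc'
        rw [mem_rec4] at hc
        rcases t with ⟨_ | _, s⟩
        · show (1 : ℝ) - (if 0 ≤ c.2 ∧ c.2 < h then 1 else 0) = 0
          rw [if_pos (by omega)]
          ring
        · show (0 : ℝ) - 0 = 0
          ring)
      (fun c hc hc' => by
        rw [sum_BB]
        show ((1 : ℝ) - (if 0 ≤ c.2 ∧ c.2 < h then 1 else 0)) ^ 2 +
          ((1 : ℝ) - (if 0 ≤ c.2 ∧ c.2 < h then 1 else 0)) ^ 2 + ((0 : ℝ) - 0) ^ 2 +
          ((0 : ℝ) - 0) ^ 2 ≤ 2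
        split_ifs <;> norm_num) (by norm_num)
    refine h5.trans ?_
    have h6 : ((rec4 0 X (-K) 0 ∪ rec4 0 X h (h + K)).card : ℝ) ≤ 2 * (X * K) := by
      have h7 : ((rec4 0 X (-K) 0 ∪ rec4 0 X h (h + K)).card : ℝ) ≤
          (rec4 0 X (-K) 0).card + (rec4 0 X h (h + K)).card := by
        exact_mod_cast Finset.card_union_le _ _
      rw [card_rec4' hX (by omega), card_rec4' hX (by omega)] at h7
      refine h7.trans (le_of_eq ?_)
      push_cast
      ring
    linarith
  have h3 : qG b (rec4 0 X (-K) (h + K)) (uni - bar h) ≤ 2 * b * (X * K) := by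
    refine (qG_le hb _ _).trans ?_
    nlinarith only [h2, hb]
  have h4 : 0 ≤ 1 + 1 / η := by positivity
  nlinarith only [mul_le_mul_of_nonneg_left h3 h4]

/-- the uniform field in a block -/
theorem qG_uni (b : ℝ) (q : ℤ × ℤ) (L : ℕ) (hL : 1 ≤ L) :
    qG b (blk q L) uni = (L : ℝ) ^ 2 * stiff L b := by
  have h := qR_const b q L hL 1 0
  have e : qG b (blk q L) uni = qR b (blk q L) (cst 1 0) := by
    unfold qG qR
    congr 1
  rw [e, h]
  ring

/-- a square block tiled by `k` rectangles -/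
theorem uni_tile {b : ℝ} (hb : 0 ≤ b) {X : ℕ} (hX : 1 ≤ X) (k : ℕ) (hk : 1 ≤ k) (y0 : ℤ) :
    ((X * k : ℕ) : ℝ) ^ 2 * stiff (X * k) b ≤ k * qG b (rec4 0 X y0 (y0 + (X * k : ℕ))) uni := by
  rw [← qG_uni b (0, y0) (X * k) (Nat.mul_pos hX hk)]
  have hX0 : (0 : ℤ) < X := by exact_mod_cast hX
  have h := qG_tile hb (blk (0, y0) (X * k)) (Finset.Ico (0 : ℤ) k) (fun c => c.1 / X)
    (fun c hc => by
      rw [mem_blk] at hc
      rw [Finset.mem_Ico]
      simp only at hc
      refine ⟨Int.ediv_nonneg hc.1 hX0.le, ?_⟩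
      rw [Int.ediv_lt_iff_lt_mul hX0]
      have := hc.2.1
      push_cast at this
      linarith) uni
  refine h.trans ?_
  have h2 : ∀ i ∈ Finset.Ico (0 : ℤ) k, qG b ((blk (0, y0) (X * k)).filter fun c => c.1 / X = i) uni =
      qG b (rec4 0 X y0 (y0 + (X * k : ℕ))) uni := by
    intro i hi
    rw [Finset.mem_Ico] at hi
    rw [qG_shF b ((X : ℤ) * i, 0) (R := rec4 0 X y0 (y0 + (X * k : ℕ)))]
    · rfl
    · intro c
      rw [Finset.mem_filter, mem_blk, mem_rec4]
      simp only [Prod.fst_add, Prod.snd_add, add_zero, zero_add]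
      have e1 : (c.1 + X * i) / X = i ↔ 0 ≤ c.1 ∧ c.1 < X := by
        rw [Int.add_mul_ediv_left _ _ (by omega)]
        constructor
        · intro h3
          have h4 : c.1 / X = 0 := by omega
          exact ⟨by
            by_contra h5
            have := Int.ediv_neg_of_neg_of_pos (by omega : c.1 < 0) hX0
            omega, by
            by_contra h5
            have : 1 ≤ c.1 / X := by
              rw [Int.le_ediv_iff_mul_le hX0]
              omega
            omega⟩
        · intro h3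
          rw [Int.ediv_eq_zero_of_lt h3.1 h3.2]
          ring
      rw [e1]
      have h6 : 0 ≤ (X : ℤ) * i := by nlinarith
      have h7 : (X : ℤ) * i + X ≤ X * k := by nlinarith
      push_cast
      constructor
      · rintro ⟨⟨h3, h4, h5, h8⟩, h9⟩
        exact ⟨h9, h5, h8⟩
      · rintro ⟨h9, h5, h8⟩
        exact ⟨⟨by linarith [h9.1], by linarith [h9.2], h5, h8⟩, h9⟩
  rw [Finset.sum_congr rfl h2, Finset.sum_const, Int.card_Ico, nsmul_eq_mul]
  refine le_of_eq ?_
  simp

end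

end Vale.Agent.P159.H856
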