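import Vale.Agent.P159.H856.Pf2
import Vale.Agent.P159.H177.Lim

/-!
P159 (helper856), finite size pyramid inequality, part 3: lower bound for the stripes; rotated
rectangles and the diagonal chessboard estimate in rotated regions.
-/

set_option linter.all false

open scoped BigOperators

namespace Vale.Agent.P159.H856

open Vale.Agent.P159 Vale.Agent.P159.UJ Vale.Agent.P159.H950

noncomputable section

/-- **lower bound for the alternating stripes** -/
theorem str_low {b : ℝ} (hb : 0 ≤ b) {p : ℕ} (hp : 1 ≤ p) (m d : ℕ) {η1 η2 : ℝ} (h1 : 0 < η1)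
    (h2 : 0 < η2) :
    ((p * 2 ^ m : ℕ) : ℝ) ^ 2 * (stiff (p * 2 ^ m * (2 ^ d + 2)) b * (1 - η1 - η2) -
      b / (p * η1) - 2 * b / (2 ^ d * η2)) ≤
      qG b (rec4 0 ((p * 2 ^ m : ℕ) : ℤ) 0 ((p * 2 ^ m : ℕ) : ℤ)) (stp p ((p * 2 ^ m : ℕ) : ℤ)) := by
  set X : ℕ := p * 2 ^ m with hX
  have hX1 : 1 ≤ X := Nat.mul_pos hp (by positivity)
  have hp0 : (0 : ℝ) < p := by exact_mod_cast hp
  have hX0 : (0 : ℝ) < X := by exact_mod_cast hX1
  have hXi : (0 : ℤ) ≤ (X : ℤ) := by positivity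
  set QD : ℝ := qG b (rec4 0 (X : ℤ) 0 (X : ℤ)) (stp p (X : ℤ)) with hQD
  -- reversed chessboard
  have a1 := stp_chess hb hp m (X : ℤ) 0 (Nat.zero_le _)
  rw [Nat.sub_zero, pow_zero, mul_one, ← hX, ← hQD] at a1
  set A : ℝ := qG b (rec4 0 (X : ℤ) (-((X : ℤ) - (p : ℤ))) (X : ℤ)) (stp p p) with hA
  -- the boundary heights
  have a2 := bar_stp hb hp (X := (X : ℤ)) (y0 := -((X : ℤ) - (p : ℤ))) (y1 := (X : ℤ)) hXi h1
  rw [← hA] at a2
  -- the domain becomes larger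
  have hpX : p ≤ X := by
    rw [hX]
    exact Nat.le_mul_of_pos_right p (by positivity)
  have a3 : qG b (rec4 0 (X : ℤ) (-(X : ℤ)) ((p : ℤ) + X)) (bar p) ≤
      qG b (rec4 0 (X : ℤ) (-((X : ℤ) - (p : ℤ))) (X : ℤ)) (bar p) := by
    refine qG_sub hb ?_ _ ?_
    · intro c hc
      rw [mem_rec4] at hc ⊢
      omega
    · intro c hc hc' t
      rw [mem_rec4] at hc hc'
      unfold bar
      rcases t with ⟨_ | _, s⟩
      · simp only [Bool.false_eq_true, if_false]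
        rw [if_neg (by omega)]
      · simp
  -- forward chessboard
  have a4 := bar_chess hb hp (X : ℤ) (X : ℤ) hXi (m + d)
  set L2 : ℤ := ((p * 2 ^ (m + d) : ℕ) : ℤ) with hL2
  have hL20 : 0 ≤ L2 := by rw [hL2]; positivity
  -- nearly uniform
  have a5 := uni_bar hb (X := (X : ℤ)) (K := (X : ℤ)) (h := L2) hXi hXi hL20 h2
  -- the square
  have a6 := uni_tile hb hX1 (2 ^ d + 2) (Nat.succ_le_of_lt (by positivity)) (-(X : ℤ))
  have e1 : -(X : ℤ) + ((X * (2 ^ d + 2) : ℕ) : ℤ) = L2 + X := by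
    rw [hL2, hX]
    push_cast
    ring
  rw [e1] at a6
  set E : ℝ := qG b (rec4 0 (X : ℤ) (-(X : ℤ)) (L2 + X)) uni with hE
  set S : ℝ := stiff (X * (2 ^ d + 2)) b with hS
  have hS0 : 0 ≤ S := UJ.stiff_nonneg' hb (Nat.mul_pos hX1 (by positivity))
  set r : ℝ := 2 ^ d with hr
  have hr0 : 0 < r := by rw [hr]; positivity
  have hX2 : (X : ℝ) = p * 2 ^ m := by rw [hX]; push_cast; ring
  -- from a6
  have b1 : (X : ℝ) ^ 2 * (r + 2) * S ≤ E := by
    have h3 : (((X * (2 ^ d + 2) : ℕ)) : ℝ) = X * (r + 2) := by rw [hr]; push_cast; ring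
    have h4 : ((2 ^ d + 2 : ℕ) : ℝ) = r + 2 := by rw [hr]; push_cast; ring
    rw [h3, h4] at a6
    have h5 : 0 < r + 2 := by linarith
    have h6 : (r + 2) * ((X : ℝ) ^ 2 * (r + 2) * S) ≤ (r + 2) * E := by
      calc (r + 2) * ((X : ℝ) ^ 2 * (r + 2) * S) = (X * (r + 2)) ^ 2 * S := by ring
        _ ≤ _ := a6
    exact le_of_mul_le_mul_left h6 h5
  have b2 : qG b (rec4 0 (X : ℤ) (-(X : ℤ)) (L2 + X)) (bar L2) ≤
      2 ^ (m + d) * ((1 + η1) * A + (1 + 1 / η1) * (b * X)) := by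
    refine a4.trans (mul_le_mul_of_nonneg_left ?_ (by positivity))
    have h3 : ((X : ℤ) : ℝ) = (X : ℝ) := by push_cast; rfl
    rw [h3] at a2
    exact a3.trans a2
  have h3 : ((X : ℤ) : ℝ) = (X : ℝ) := by push_cast; rfl
  rw [h3] at a5
  have hA0 : 0 ≤ A := qG_nonneg hb _ _
  -- collect
  have b3 : (X : ℝ) ^ 2 * r * S ≤ (1 + η2) * (r * ((1 + η1) * QD + (1 + 1 / η1) * (b * X ^ 2 / p))) +
      (1 + 1 / η2) * (2 * b * X ^ 2) := by
    have c1 : (X : ℝ) ^ 2 * r * S ≤ (X : ℝ) ^ 2 * (r + 2) * S := by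
      have : 0 ≤ (X : ℝ) ^ 2 * S := by positivity
      nlinarith only [this]
    have c2 : 2 ^ (m + d) * ((1 + η1) * A + (1 + 1 / η1) * (b * X)) ≤
        r * ((1 + η1) * QD + (1 + 1 / η1) * (b * X ^ 2 / p)) := by
      have c3 : (2 : ℝ) ^ (m + d) = r * 2 ^ m := by rw [hr, pow_add]; ring
      rw [c3, mul_assoc]
      refine mul_le_mul_of_nonneg_left ?_ hr0.le
      have c4 : (2 : ℝ) ^ m * ((1 + η1) * A + (1 + 1 / η1) * (b * X)) =
          (1 + η1) * (2 ^ m * A) + (1 + 1 / η1) * (b * (2 ^ m * X)) := by ring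
      rw [c4]
      have c5 : (2 : ℝ) ^ m * X = X ^ 2 / p := by
        rw [hX2]
        field_simp
      rw [c5]
      have c6 : (1 + η1) * (2 ^ m * A) ≤ (1 + η1) * QD :=
        mul_le_mul_of_nonneg_left a1 (by linarith)
      have c7 : b * ((X : ℝ) ^ 2 / p) = b * X ^ 2 / p := by ring
      rw [c7]
      linarith
    have c8 : (1 + η2) * qG b (rec4 0 (X : ℤ) (-(X : ℤ)) (L2 + X)) (bar L2) ≤
        (1 + η2) * (r * ((1 + η1) * QD + (1 + 1 / η1) * (b * X ^ 2 / p))) :=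
      mul_le_mul_of_nonneg_left (b2.trans c2) (by linarith)
    calc (X : ℝ) ^ 2 * r * S ≤ E := c1.trans b1
      _ ≤ _ := a5
      _ ≤ (1 + η2) * (r * ((1 + η1) * QD + (1 + 1 / η1) * (b * X ^ 2 / p))) +
          (1 + 1 / η2) * (2 * b * (X * X)) := by linarith
      _ = _ := by ring
  have hpos : 0 < (1 + η1) * (1 + η2) * r := by positivity
  refine le_of_mul_le_mul_left (a := (1 + η1) * (1 + η2) * r) ?_ hpos
  have d1 : (1 + η1) * (1 + η2) * r * ((X : ℝ) ^ 2 * (S * (1 - η1 - η2) - b / (p * η1) -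
      2 * b / (r * η2))) = X ^ 2 * r * S * ((1 + η1) * (1 + η2) * (1 - η1 - η2)) -
      (1 + η2) * r * ((1 + η1) / η1 * (b * X ^ 2 / p)) -
      (1 + η1) * ((1 + η2) / η2) * (2 * b * X ^ 2) := by
    field_simp
  rw [d1]
  have d2 : (1 + η1) * (1 + η2) * (1 - η1 - η2) ≤ 1 := by
    nlinarith [mul_pos h1 h2, mul_pos h1 h1, mul_pos h2 h2, mul_pos (mul_pos h1 h2) h1,
      mul_pos (mul_pos h1 h2) h2]
  have d3 : X ^ 2 * r * S * ((1 + η1) * (1 + η2) * (1 - η1 - η2)) ≤ (X : ℝ) ^ 2 * r * S * 1 :=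
    mul_le_mul_of_nonneg_left d2 (by positivity)
  have d4 : (1 + η1) / η1 = 1 + 1 / η1 := by field_simp; ring
  have d5 : (1 + η2) / η2 = 1 + 1 / η2 := by field_simp; ring
  rw [d4, d5]
  have d6 : 0 ≤ η1 * ((1 + 1 / η2) * (2 * b * X ^ 2)) := by positivity
  nlinarith only [b3, d3, d6]

/-! ### rotated rectangles -/

/-- the cells with centre in `u0 ≤ x + y < u1`, `v0 ≤ x - y < v1` -/
def rot (u0 u1 v0 v1 : ℤ) : Finset (ℤ × ℤ) :=
  (rec4 ((u0 + v0 - 1) / 2 - 1) ((u1 + v1) / 2 + 2) ((u0 - v1) / 2 - 2)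
    ((u1 - v0) / 2 + 2)).filter fun c => (u0 ≤ c.1 + c.2 + 1 ∧ c.1 + c.2 + 1 < u1) ∧
      (v0 ≤ c.1 - c.2 ∧ c.1 - c.2 < v1)

theorem mem_rot {u0 u1 v0 v1 : ℤ} {c : ℤ × ℤ} : c ∈ rot u0 u1 v0 v1 ↔
    (u0 ≤ c.1 + c.2 + 1 ∧ c.1 + c.2 + 1 < u1) ∧ (v0 ≤ c.1 - c.2 ∧ c.1 - c.2 < v1) := by
  unfold rot
  rw [Finset.mem_filter, mem_rec4]
  constructor
  · exact fun h => h.2
  · intro h
    refine ⟨?_, h⟩
    omega

theorem card_rot {u0 u1 v0 v1 : ℤ} (hu : u0 ≤ u1) (hv : v0 ≤ v1) :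
    ((rot u0 u1 v0 v1).card : ℝ) ≤ ((u1 - u0 : ℤ) : ℝ) * ((v1 - v0 : ℤ) : ℝ) := by
  have h1 : (rot u0 u1 v0 v1).card ≤ (rec4 u0 u1 v0 v1).card := by
    refine Finset.card_le_card_of_injOn (fun c => (c.1 + c.2 + 1, c.1 - c.2)) ?_ ?_
    · intro c hc
      have hc' : c ∈ rot u0 u1 v0 v1 := hc
      rw [mem_rot] at hc'
      show (c.1 + c.2 + 1, c.1 - c.2) ∈ rec4 u0 u1 v0 v1
      rw [mem_rec4]
      exact hc'
    · intro c _ c' _ h
      simp only [Prod.mk.injEq] at h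
      ext
      · omega
      · omega
  rw [← card_rec4' hu hv]
  exact_mod_cast h1

/-- the rotated square number `n` of the diagonal chessboard -/
def Rd (p H N : ℤ) : Finset (ℤ × ℤ) :=
  rot (-p - H + 1) (2 * N - p + H) (-p - H + 1) (2 * N - p + H)

theorem Rd_supp {p N H : ℤ} (hH : 1 ≤ H) {c : ℤ × ℤ} {t : HT}
    (h : arr p (2 * N - p) (2 * N - p) t c ≠ 0) : c ∈ Rd p H N := by
  unfold Rd
  rw [mem_rot]
  rcases t with ⟨_ | _, t2⟩
  · have h1 : aH p (2 * N - p) (2 * N - p) (hu c (false, t2)) ≠ 0 := h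
    unfold aH at h1
    by_cases h2 : (-p ≤ (hu c (false, t2)).1 + (hu c (false, t2)).2 ∧
        (hu c (false, t2)).1 + (hu c (false, t2)).2 < 2 * N - p) ∧
        (-p ≤ (hu c (false, t2)).1 - (hu c (false, t2)).2 ∧
        (hu c (false, t2)).1 - (hu c (false, t2)).2 < 2 * N - p)
    · cases t2 <;> simp [hu] at h2 ⊢ <;> omega
    · rw [if_neg h2] at h1
      exact absurd rfl h1
  · have h1 : aV p (2 * N - p) (2 * N - p) (hu c (true, t2)) ≠ 0 := h
    unfold aV at h1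
    by_cases h2 : (-p ≤ (hu c (true, t2)).1 + (hu c (true, t2)).2 ∧
        (hu c (true, t2)).1 + (hu c (true, t2)).2 < 2 * N - p) ∧
        (-p < (hu c (true, t2)).1 - (hu c (true, t2)).2 ∧
        (hu c (true, t2)).1 - (hu c (true, t2)).2 ≤ 2 * N - p)
    · cases t2 <;> simp [hu] at h2 ⊢ <;> omega
    · rw [if_neg h2] at h1
      exact absurd rfl h1

theorem Rd_van {p N H : ℤ} (hH : 1 ≤ H) {c : ℤ × ℤ} (hc : c ∉ Rd p H N) (t : HT) :
    arr p (2 * N - p) (2 * N - p) t c = 0 := by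
  by_contra h
  exact hc (Rd_supp hH h)

theorem Rd_symA {p H N s : ℤ} (hs : 2 * s = 2 * N - 2 * p) : (rA s).Sym (Rd p H N) := by
  refine symA_of fun c => ?_
  unfold Rd
  rw [mem_rot, mem_rot]
  simp only
  omega

theorem Rd_symD {p H N s : ℤ} (hs : 2 * s = 2 * N - 2 * p) : (rD s).Sym (Rd p H N) := by
  refine symD_of fun c => ?_
  unfold Rd
  rw [mem_rot, mem_rot]
  simp only
  omega

/-- **diagonal chessboard estimate in rotated squares** -/
theorem chess_rot (p : ℕ) (hp : 1 ≤ p) {H : ℤ} (hH : 1 ≤ H) {b : ℝ} (hb : 0 ≤ b) (n : ℕ) :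
    qG b (Rd p H ((p * 2 ^ n : ℕ) : ℤ)) (An p n) ≤ 4 ^ n * qG b (Rd p H p) (An p 0) ∧
      nG (Rd p H ((p * 2 ^ n : ℕ) : ℤ)) (An p n) = 4 ^ n * nG (Rd p H p) (An p 0) := by
  induction n with
  | zero => simp
  | succ n ih =>
    obtain ⟨ih1, ih2⟩ := ih
    set P : ℤ := ((p * 2 ^ n : ℕ) : ℤ) with hP
    have hP2 : ((p * 2 ^ (n + 1) : ℕ) : ℤ) = 2 * P := by rw [hP]; push_cast; ring
    have hp0 : (0 : ℤ) < (p : ℤ) := by exact_mod_cast hp
    have hPp : (p : ℤ) ≤ P := by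
      rw [hP]
      exact_mod_cast Nat.le_mul_of_pos_right p (by positivity)
    set s : ℤ := 2 * P - p with hs
    rw [hP2]
    have hm : s = 2 * (p : ℤ) * 2 ^ n - p := by
      rw [hs, hP]
      push_cast
      ring
    have h1 := step_form (b := b) (p := (p : ℤ)) hp0 hm (by omega)
      (Rd_symA (p := (p : ℤ)) (H := H) (N := 2 * P) (s := s) (by omega))
      (Rd_symD (p := (p : ℤ)) (H := H) (N := 2 * P) (s := s) (by omega))
    have hAn : An p n = arr p s s := by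
      unfold An
      rw [← hP]
    have hAn1 : An p (n + 1) = arr p (2 * s + p) (2 * s + p) := by
      unfold An
      rw [hP2]
      have : 2 * (2 * P) - (p : ℤ) = 2 * s + p := by rw [hs]; ring
      rw [this]
    rw [← hAn, ← hAn1] at h1
    have hsub : Rd p H P ⊆ Rd p H (2 * P) := by
      intro c hc
      unfold Rd at hc ⊢
      rw [mem_rot] at hc ⊢
      omega
    have hvan : ∀ c, c ∉ Rd p H P → ∀ t, An p n t c = 0 := by
      intro c hc t
      rw [hAn, hs]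
      exact Rd_van hH hc t
    have h2 : qG b (Rd p H (2 * P)) (An p n) ≤ qG b (Rd p H P) (An p n) :=
      qG_sub hb hsub _ fun c _ hc t => hvan c hc t
    have h3 : nG (Rd p H (2 * P)) (An p n) = nG (Rd p H P) (An p n) := nG_supp hsub _ hvan
    constructor
    · calc _ ≤ 4 * qG b (Rd p H (2 * P)) (An p n) := h1.1
        _ ≤ 4 * (4 ^ n * qG b (Rd p H p) (An p 0)) := by linarith
        _ = _ := by ring
    · rw [h1.2, h3, ih2]
      ring

/-! ### the infinite array -/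

/-- the infinite array -/
def ar (p : ℤ) : HF := bF (fun v => -sqw p v.2) fun v => sqw p v.1

theorem ar_h (p : ℤ) (s : Bool) (c : ℤ × ℤ) : ar p (false, s) c = -sqw p (hu c (false, s)).2 := rfl

theorem ar_v (p : ℤ) (s : Bool) (c : ℤ × ℤ) : ar p (true, s) c = sqw p (hu c (true, s)).1 := rfl

theorem ar_sq (p : ℤ) (t : HT) (c : ℤ × ℤ) : ar p t c ^ 2 ≤ 1 := by
  rcases t with ⟨_ | _, s⟩
  · rw [ar_h, neg_sq]; exact sqw_sq _ _
  · rw [ar_v]; exact sqw_sq _ _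

theorem ar_sum (p : ℤ) (c : ℤ × ℤ) : ∑ t : Bool × Bool, ar p t c ^ 2 ≤ 4 := by
  rw [sum_BB]
  linarith [ar_sq p (false, false) c, ar_sq p (false, true) c, ar_sq p (true, false) c,
    ar_sq p (true, true) c]

/-- the finite array is the infinite one or zero -/
theorem arr_or (p s d : ℤ) (t : HT) (c : ℤ × ℤ) : arr p s d t c = ar p t c ∨ arr p s d t c = 0 := by
  rcases t with ⟨_ | _, t2⟩
  · show aH p s d _ = -sqw p (hu c (false, t2)).2 ∨ aH p s d _ = 0
    unfold aH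
    split_ifs
    · left; rfl
    · right; rfl
  · show aV p s d _ = sqw p (hu c (true, t2)).1 ∨ aV p s d _ = 0
    unfold aV
    split_ifs
    · left; rfl
    · right; rfl

/-- inside, the finite array is the infinite one -/
theorem arr_in {p M : ℤ} {t : HT} {c : ℤ × ℤ} (h : c ∈ rot (-p + 1) M (-p + 1) M) :
    arr p M M t c = ar p t c := by
  rw [mem_rot] at h
  rcases t with ⟨_ | _, t2⟩
  · show aH p M M _ = -sqw p (hu c (false, t2)).2
    unfold aH
    rw [if_pos]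
    cases t2 <;> simp [hu] <;> omega
  · show aV p M M _ = sqw p (hu c (true, t2)).1
    unfold aV
    rw [if_pos]
    cases t2 <;> simp [hu] <;> omega

/-- translations of the infinite array -/
theorem ar_per {p : ℤ} (hp : 0 < p) (i j : ℤ) : shF (2 * p * i, 2 * p * j) (ar p) = ar p := by
  funext t c
  show ar p t (c + (2 * p * i, 2 * p * j)) = ar p t c
  have h : hu (c + (2 * p * i, 2 * p * j)) t = (2 * p * i, 2 * p * j) + hu c t := hu_add _ _ _
  rcases t with ⟨_ | _, s⟩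
  · rw [ar_h, ar_h, h]
    simp only [Prod.snd_add]
    rw [add_comm, sqw_per hp]
  · rw [ar_v, ar_v, h]
    simp only [Prod.fst_add]
    rw [add_comm, sqw_per hp]

end

end Vale.Agent.P159.H856
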