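import Vale.Agent.P159.H856.Pf3

/-!
P159 (helper856), finite size pyramid inequality, part 4: tiling of the plane by rotated squares and
the inequality with explicit errors.
-/

set_option linter.all false

open scoped BigOperators

namespace Vale.Agent.P159.H856

open Vale.Agent.P159 Vale.Agent.P159.UJ Vale.Agent.P159.H950

noncomputable section

/-! ### norms -/

theorem nG_shF (q : ℤ × ℤ) {R R' : Finset (ℤ × ℤ)} (h : ∀ c, c + q ∈ R' ↔ c ∈ R) (y : HF) :
    nG R' y = nG R (shF q y) := by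
  unfold nG
  rw [← Equiv.sum_comp (trE q h) (fun e : KR R => shF q y e.2 e.1 ^ 2)]
  refine Finset.sum_congr rfl fun e _ => ?_
  have hE : (e.1 : ℤ × ℤ) = (trE q h e).1 + q := by
    show (e.1 : ℤ × ℤ) = e.1 - q + q
    rw [sub_add_cancel]
  show y e.2 e.1 ^ 2 = y e.2 ((trE q h e).1 + q) ^ 2
  rw [← hE]

theorem nG_uni (R : Finset (ℤ × ℤ)) : nG R uni = 2 * R.card := by
  rw [nG_sum]
  have h : ∀ z ∈ R, ∑ t : Bool × Bool, uni t z ^ 2 = 2 := by
    intro z _
    rw [sum_BB]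
    unfold uni
    norm_num
  rw [Finset.sum_congr rfl h, Finset.sum_const, nsmul_eq_mul]
  ring

theorem nG_sub {R R' : Finset (ℤ × ℤ)} (h : R ⊆ R') (y : HF) : nG R y ≤ nG R' y := by
  rw [nG_sum, nG_sum]
  exact Finset.sum_le_sum_of_subset_of_nonneg h fun c _ _ =>
    Finset.sum_nonneg fun t _ => sq_nonneg _

theorem nG_le4 {R : Finset (ℤ × ℤ)} {y : HF} (h : ∀ c ∈ R, ∀ t, y t c ^ 2 ≤ 1) :
    nG R y ≤ 4 * R.card := by
  rw [nG_sum]
  have h1 : ∀ z ∈ R, ∑ t : Bool × Bool, y t z ^ 2 ≤ 4 := by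
    intro z hz
    rw [sum_BB]
    linarith [h z hz (false, false), h z hz (false, true), h z hz (true, false),
      h z hz (true, true)]
  refine (Finset.sum_le_sum h1).trans (le_of_eq ?_)
  rw [Finset.sum_const, nsmul_eq_mul]
  ring

/-! ### the rotated tiles -/

theorem ediv_iff {a m i : ℤ} (hm : 0 < m) : a / m = i ↔ m * i ≤ a ∧ a < m * i + m := by
  constructor
  · rintro rfl
    have h1 := Int.mul_ediv_add_emod a m
    have h2 := Int.emod_nonneg a hm.ne'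
    have h3 := Int.emod_lt_of_pos a hm
    constructor <;> linarith
  · rintro ⟨h1, h2⟩
    apply le_antisymm
    · rw [← Int.lt_add_one_iff, Int.ediv_lt_iff_lt_mul hm]
      linarith
    · rw [Int.le_ediv_iff_mul_le hm]
      linarith

/-- the rotated tile number `(i, j)` -/
def Tl (p H N i j : ℤ) : Finset (ℤ × ℤ) :=
  rot (-p - H + 2 * (N * i)) (-p - H + 2 * (N * i) + 2 * N) (-p - H + 2 * (N * j))
    (-p - H + 2 * (N * j) + 2 * N)

/-- the number of the tile of a cell -/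
def ti (p H N : ℤ) (c : ℤ × ℤ) : ℤ × ℤ :=
  ((c.1 + c.2 + 1 + p + H) / (2 * N), (c.1 - c.2 + p + H) / (2 * N))

theorem ti_iff {p H N : ℤ} (hN : 0 < N) {c k : ℤ × ℤ} : ti p H N c = k ↔ c ∈ Tl p H N k.1 k.2 := by
  unfold ti Tl
  rw [mem_rot, Prod.ext_iff, ediv_iff (by omega), ediv_iff (by omega)]
  rw [show 2 * N * k.1 = 2 * (N * k.1) by ring, show 2 * N * k.2 = 2 * (N * k.2) by ring]
  omega

theorem Tl_tr (p H N i j : ℤ) (c : ℤ × ℤ) :
    c + (N * (i + j), N * (i - j)) ∈ Tl p H N i j ↔ c ∈ Tl p H N 0 0 := by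
  unfold Tl
  rw [mem_rot, mem_rot]
  simp only [Prod.fst_add, Prod.snd_add]
  rw [show N * (i + j) = N * i + N * j by ring, show N * (i - j) = N * i - N * j by ring,
    mul_zero, mul_zero]
  omega

theorem ar_Tl {p N K : ℤ} (hp : 0 < p) (hN : N = 2 * p * K) (i j : ℤ) :
    shF (N * (i + j), N * (i - j)) (ar p) = ar p := by
  have h := ar_per hp (K * (i + j)) (K * (i - j))
  have e1 : N * (i + j) = 2 * p * (K * (i + j)) := by rw [hN]; ring
  have e2 : N * (i - j) = 2 * p * (K * (i - j)) := by rw [hN]; ring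
  rw [e1, e2]
  exact h

theorem qG_Tl (b : ℝ) {p N K : ℤ} (hp : 0 < p) (hN : N = 2 * p * K) (H i j : ℤ) :
    qG b (Tl p H N i j) (ar p) = qG b (Tl p H N 0 0) (ar p) := by
  rw [qG_shF b (N * (i + j), N * (i - j)) (Tl_tr p H N i j), ar_Tl hp hN]

theorem nG_Tl {p N K : ℤ} (hp : 0 < p) (hN : N = 2 * p * K) (H i j : ℤ) :
    nG (Tl p H N i j) (ar p) = nG (Tl p H N 0 0) (ar p) := by
  rw [nG_shF (N * (i + j), N * (i - j)) (Tl_tr p H N i j), ar_Tl hp hN]

theorem card_Tl (p H N i j : ℤ) : ((Tl p H N i j).card : ℝ) = (Tl p H N 0 0).card := by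
  have h1 := nG_uni (Tl p H N i j)
  rw [nG_shF (N * (i + j), N * (i - j)) (Tl_tr p H N i j),
    show shF (N * (i + j), N * (i - j)) uni = uni from rfl, nG_uni] at h1
  linarith

theorem card_Tl_ge {N M : ℕ} (hN : N = 2 * M) (p H : ℤ) :
    ((N : ℕ) : ℝ) ^ 2 ≤ (Tl p H N 0 0).card := by
  have h1 : blk ((N : ℤ) - p - H - M, -(M : ℤ)) N ⊆ Tl p H N 0 0 := by
    intro c hc
    rw [mem_blk] at hc
    unfold Tl
    rw [mem_rot, mul_zero]
    simp only at hc
    omega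
  have h2 := Finset.card_le_card h1
  rw [card_blk] at h2
  exact_mod_cast h2

/-- sums over disjoint tiles -/
theorem sum_Tl {p H N : ℤ} (hN : 0 < N) (J : Finset (ℤ × ℤ)) (D : Finset (ℤ × ℤ))
    (hJ : ∀ k ∈ J, Tl p H N k.1 k.2 ⊆ D) (f : ℤ × ℤ → ℝ) (hf : ∀ c, 0 ≤ f c) :
    ∑ k ∈ J, ∑ c ∈ Tl p H N k.1 k.2, f c ≤ ∑ c ∈ D, f c := by
  classical
  rw [← Finset.sum_biUnion]
  · refine Finset.sum_le_sum_of_subset_of_nonneg ?_ fun c _ _ => hf c
    intro c hc
    rw [Finset.mem_biUnion] at hc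
    obtain ⟨k, hk, hc⟩ := hc
    exact hJ k hk hc
  · intro k _ k' _ hkk
    rw [Function.onFun, Finset.disjoint_left]
    intro c hc hc'
    rw [← ti_iff hN] at hc hc'
    exact hkk (hc.symm.trans hc')

/-- the four boundary strips of a square -/
def bd4 (q : ℤ × ℤ) (X M : ℤ) : Finset (ℤ × ℤ) :=
  (rec4 q.1 (q.1 + M) q.2 (q.2 + X) ∪ rec4 (q.1 + X - M) (q.1 + X) q.2 (q.2 + X)) ∪
    (rec4 q.1 (q.1 + X) q.2 (q.2 + M) ∪ rec4 q.1 (q.1 + X) (q.2 + X - M) (q.2 + X))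

theorem card_bd4 (q : ℤ × ℤ) {X M : ℤ} (hX : 0 ≤ X) (hM : 0 ≤ M) :
    ((bd4 q X M).card : ℝ) ≤ 4 * ((M : ℝ) * X) := by
  have h0 : (bd4 q X M).card ≤ ((rec4 q.1 (q.1 + M) q.2 (q.2 + X)).card +
      (rec4 (q.1 + X - M) (q.1 + X) q.2 (q.2 + X)).card) +
      ((rec4 q.1 (q.1 + X) q.2 (q.2 + M)).card +
      (rec4 q.1 (q.1 + X) (q.2 + X - M) (q.2 + X)).card) :=
    (Finset.card_union_le _ _).trans (Nat.add_le_add (Finset.card_union_le _ _)
      (Finset.card_union_le _ _))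
  have h1 : ((bd4 q X M).card : ℝ) ≤ (((rec4 q.1 (q.1 + M) q.2 (q.2 + X)).card : ℝ) +
      (rec4 (q.1 + X - M) (q.1 + X) q.2 (q.2 + X)).card) +
      ((rec4 q.1 (q.1 + X) q.2 (q.2 + M)).card +
      (rec4 q.1 (q.1 + X) (q.2 + X - M) (q.2 + X)).card) := by exact_mod_cast h0
  rw [card_rec4' (by omega) (by omega), card_rec4' (by omega) (by omega),
    card_rec4' (by omega) (by omega), card_rec4' (by omega) (by omega)] at h1
  refine h1.trans (le_of_eq ?_)
  push_cast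
  ring

/-- **the tiling bound** -/
theorem tile_le {b : ℝ} (hb : 0 ≤ b) {p : ℤ} {N M : ℕ} {K : ℤ} (hp : 0 < p)
    (hNM : N = 2 * M) (hN0 : 0 < N) (hN : (N : ℤ) = 2 * p * K) (H : ℤ) (X : ℕ) (q : ℤ × ℤ) :
    ∃ κ : ℝ, 0 ≤ κ ∧ qG b (blk q X) (ar p) ≤ κ * qG b (Tl p H N 0 0) (ar p) + 16 * b * N * X ∧
      κ * nG (Tl p H N 0 0) (ar p) ≤ 4 * (X : ℝ) ^ 2 ∧ κ * (N : ℝ) ^ 2 ≤ (X : ℝ) ^ 2 := by
  classical
  have hNz : (0 : ℤ) < (N : ℤ) := by exact_mod_cast hN0
  set D : Finset (ℤ × ℤ) := blk q X with hD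
  set J : Finset (ℤ × ℤ) := (D.image (ti p H N)).filter fun k => Tl p H N k.1 k.2 ⊆ D with hJ
  have hJ1 : ∀ k ∈ J, Tl p H N k.1 k.2 ⊆ D := fun k hk => (Finset.mem_filter.1 hk).2
  refine ⟨J.card, Nat.cast_nonneg _, ?_, ?_, ?_⟩
  · set τ : ℤ × ℤ → Option (ℤ × ℤ) := fun c => if ti p H N c ∈ J then some (ti p H N c) else none
      with hτ
    have h1 := qG_tile hb D (Finset.insertNone J) τ (fun c _ => by
      rw [hτ]
      simp only
      by_cases h : ti p H N c ∈ J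
      · rw [if_pos h, Finset.some_mem_insertNone]
        exact h
      · rw [if_neg h]
        exact Finset.none_mem_insertNone) (ar p)
    rw [Finset.sum_insertNone] at h1
    have h2 : ∀ k ∈ J, qG b (D.filter fun c => τ c = some k) (ar p) =
        qG b (Tl p H N 0 0) (ar p) := by
      intro k hk
      rw [← qG_Tl b hp hN H k.1 k.2]
      congr 1
      ext c
      rw [Finset.mem_filter, ← ti_iff hNz]
      constructor
      · rintro ⟨_, h3⟩
        rw [hτ] at h3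
        simp only at h3
        by_cases h : ti p H N c ∈ J
        · rw [if_pos h] at h3
          exact Option.some.inj h3
        · rw [if_neg h] at h3
          exact absurd h3 (by simp)
      · intro h3
        refine ⟨hJ1 k hk ((ti_iff hNz).1 h3), ?_⟩
        rw [hτ]
        simp only
        rw [if_pos (by rw [h3]; exact hk), h3]
    rw [Finset.sum_congr rfl h2, Finset.sum_const, nsmul_eq_mul] at h1
    have h3 : qG b (D.filter fun c => τ c = none) (ar p) ≤ 16 * b * N * X := by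
      have h4 : (D.filter fun c => τ c = none) ⊆ bd4 q X (2 * N) := by
        intro c hc
        rw [Finset.mem_filter] at hc
        obtain ⟨hc, hc2⟩ := hc
        by_contra hcon
        have h5 : ti p H N c ∈ J := by
          rw [hJ, Finset.mem_filter]
          refine ⟨Finset.mem_image_of_mem _ hc, fun c' hc' => ?_⟩
          have h6 : c ∈ Tl p H N (ti p H N c).1 (ti p H N c).2 := (ti_iff hNz).1 rfl
          unfold bd4 at hcon
          rw [Finset.mem_union, Finset.mem_union, Finset.mem_union, mem_rec4, mem_rec4, mem_rec4,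
            mem_rec4] at hcon
          rw [hD, mem_blk] at hc ⊢
          unfold Tl at h6 hc'
          rw [mem_rot] at h6 hc'
          omega
        rw [hτ] at hc2
        simp only at hc2
        rw [if_pos h5] at hc2
        exact absurd hc2 (by simp)
      have h5 : nG (D.filter fun c => τ c = none) (ar p) ≤ 4 * (4 * ((2 * N : ℝ) * X)) := by
        refine (nG_le4 fun c _ t => ar_sq p t c).trans ?_
        have h6 : ((D.filter fun c => τ c = none).card : ℝ) ≤ (bd4 q X (2 * N)).card := by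
          exact_mod_cast Finset.card_le_card h4
        have h7 := card_bd4 q (X := (X : ℤ)) (M := 2 * (N : ℤ)) (by positivity) (by positivity)
        push_cast at h7
        linarith
      refine (qG_le hb _ _).trans ?_
      nlinarith only [h5, hb]
    linarith
  · have h1 := sum_Tl (p := p) (H := H) hNz J D hJ1 (fun c => ∑ t : Bool × Bool, ar p t c ^ 2)
      (fun c => Finset.sum_nonneg fun t _ => sq_nonneg _)
    rw [← nG_sum] at h1
    have h2 : ∀ k ∈ J, ∑ c ∈ Tl p H N k.1 k.2, ∑ t : Bool × Bool, ar p t c ^ 2 =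
        nG (Tl p H N 0 0) (ar p) := by
      intro k _
      rw [← nG_sum, nG_Tl hp hN]
    rw [Finset.sum_congr rfl h2, Finset.sum_const, nsmul_eq_mul] at h1
    refine h1.trans ((nG_le4 fun c _ t => ar_sq p t c).trans (le_of_eq ?_))
    rw [hD, card_blk]
    push_cast
    ring
  · have h1 := sum_Tl (p := p) (H := H) hNz J D hJ1 (fun c => 1) (fun c => zero_le_one)
    simp only [Finset.sum_const, nsmul_eq_mul, mul_one] at h1
    have h2 : ∀ k ∈ J, (N : ℝ) ^ 2 ≤ ((Tl p H N k.1 k.2).card : ℝ) := by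
      intro k _
      rw [card_Tl]
      exact card_Tl_ge hNM p H
    have h3 := Finset.sum_le_sum h2
    rw [Finset.sum_const, nsmul_eq_mul] at h3
    refine h3.trans (h1.trans (le_of_eq ?_))
    rw [hD, card_blk]
    push_cast
    ring

/-! ### the margin -/

/-- the four boundary strips of the rotated tile -/
def bdr (p H P : ℤ) : Finset (ℤ × ℤ) :=
  (rot (-p - H) (-p + 1) (-p - H) (2 * P - p + H) ∪ rot (2 * P - p) (2 * P - p + H) (-p - H) (2 * P - p + H)) ∪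
    (rot (-p - H) (2 * P - p + H) (-p - H) (-p + 1) ∪ rot (-p - H) (2 * P - p + H) (2 * P - p) (2 * P - p + H))

theorem card_bdr (p : ℤ) {H P : ℤ} (hH : 0 ≤ H) (hP : 0 ≤ P) :
    ((bdr p H P).card : ℝ) ≤ 8 * (((H : ℝ) + 1) * ((P : ℝ) + H)) := by
  have h0 : (bdr p H P).card ≤ ((rot (-p - H) (-p + 1) (-p - H) (2 * P - p + H)).card +
      (rot (2 * P - p) (2 * P - p + H) (-p - H) (2 * P - p + H)).card) +
      ((rot (-p - H) (2 * P - p + H) (-p - H) (-p + 1)).card +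
      (rot (-p - H) (2 * P - p + H) (2 * P - p) (2 * P - p + H)).card) :=
    (Finset.card_union_le _ _).trans (Nat.add_le_add (Finset.card_union_le _ _)
      (Finset.card_union_le _ _))
  have h1 : ((bdr p H P).card : ℝ) ≤ (((rot (-p - H) (-p + 1) (-p - H) (2 * P - p + H)).card : ℝ) +
      (rot (2 * P - p) (2 * P - p + H) (-p - H) (2 * P - p + H)).card) +
      ((rot (-p - H) (2 * P - p + H) (-p - H) (-p + 1)).card +
      (rot (-p - H) (2 * P - p + H) (2 * P - p) (2 * P - p + H)).card) := by exact_mod_cast h0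
  have a1 := card_rot (u0 := -p - H) (u1 := -p + 1) (v0 := -p - H) (v1 := 2 * P - p + H)
    (by omega) (by omega)
  have a2 := card_rot (u0 := 2 * P - p) (u1 := 2 * P - p + H) (v0 := -p - H) (v1 := 2 * P - p + H)
    (by omega) (by omega)
  have a3 := card_rot (u0 := -p - H) (u1 := 2 * P - p + H) (v0 := -p - H) (v1 := -p + 1)
    (by omega) (by omega)
  have a4 := card_rot (u0 := -p - H) (u1 := 2 * P - p + H) (v0 := 2 * P - p) (v1 := 2 * P - p + H)
    (by omega) (by omega)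
  push_cast at a1 a2 a3 a4
  have hH' : (0 : ℝ) ≤ H := by exact_mod_cast hH
  have hP' : (0 : ℝ) ≤ P := by exact_mod_cast hP
  nlinarith only [h1, a1, a2, a3, a4, hH', hP']

/-- the infinite array in the tile against the finite array -/
theorem margin {b : ℝ} (hb : 0 ≤ b) {p n : ℕ} {H : ℤ} (hH : 1 ≤ H) {N P : ℤ}
    (hP : P = ((p * 2 ^ n : ℕ) : ℤ)) (hN : N = P + H) {η : ℝ} (hη : 0 < η) :
    qG b (Tl p H N 0 0) (ar p) ≤ (1 + η) * qG b (Rd p H P) (An p n) +
      (1 + 1 / η) * (16 * b * (((H : ℝ) + 1) * N)) ∧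
    nG (Rd p H P) (An p n) ≤ nG (Tl p H N 0 0) (ar p) := by
  have hP0 : 0 ≤ P := by rw [hP]; positivity
  have hAn : An p n = arr p (2 * P - p) (2 * P - p) := by
    unfold An
    rw [← hP]
  have hsub : Rd p H P ⊆ Tl p H N 0 0 := by
    intro c hc
    unfold Rd at hc
    unfold Tl
    rw [mem_rot] at hc ⊢
    rw [mul_zero]
    omega
  constructor
  · have h1 := qG_add_le hb (Tl p H N 0 0) (An p n) (ar p - An p n) hη
    rw [add_sub_cancel] at h1
    refine h1.trans ?_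
    have h2 : qG b (Tl p H N 0 0) (An p n) ≤ qG b (Rd p H P) (An p n) := by
      refine qG_sub hb hsub _ fun c _ hc t => ?_
      rw [hAn]
      exact Rd_van hH hc t
    have h3 : nG (Tl p H N 0 0) (ar p - An p n) ≤ 4 * (bdr p H P).card := by
      refine nG_le_card _ _ ?_ ?_ (by norm_num)
      · intro c hc hc' t
        show ar p t c - An p n t c = 0
        rw [hAn, arr_in (p := (p : ℤ)) (M := 2 * P - p), sub_self]
        unfold bdr at hc'
        rw [Finset.mem_union, Finset.mem_union, Finset.mem_union, mem_rot, mem_rot, mem_rot,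
          mem_rot] at hc'
        unfold Tl at hc
        rw [mem_rot, mul_zero] at hc
        rw [mem_rot]
        omega
      · intro c _ _
        have h4 : ∀ t : HT, (ar p - An p n) t c ^ 2 ≤ 1 := by
          intro t
          show (ar p t c - An p n t c) ^ 2 ≤ 1
          rw [hAn]
          rcases arr_or (p : ℤ) (2 * P - p) (2 * P - p) t c with h | h
          · rw [h, sub_self]; norm_num
          · rw [h, sub_zero]; exact ar_sq _ _ _
        rw [sum_BB]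
        linarith [h4 (false, false), h4 (false, true), h4 (true, false), h4 (true, true)]
    have h4 := card_bdr (p : ℤ) (H := H) (P := P) (by omega) hP0
    have hN' : (N : ℝ) = P + H := by rw [hN]; push_cast; ring
    rw [← hN'] at h4
    have h5 : qG b (Tl p H N 0 0) (ar p - An p n) ≤ 16 * b * (((H : ℝ) + 1) * N) := by
      refine (qG_le hb _ _).trans ?_
      nlinarith only [h3, h4, hb]
    have h6 : 0 ≤ 1 + 1 / η := by positivity
    have h7 : 0 ≤ 1 + η := by positivity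
    nlinarith only [mul_le_mul_of_nonneg_left h5 h6, mul_le_mul_of_nonneg_left h2 h7]
  · refine le_trans (nG_sub hsub _) ?_
    rw [nG_sum, nG_sum]
    refine Finset.sum_le_sum fun c _ => Finset.sum_le_sum fun t _ => ?_
    rw [hAn]
    rcases arr_or (p : ℤ) (2 * P - p) (2 * P - p) t c with h | h
    · rw [h]
    · rw [h]
      have := sq_nonneg (ar p t c)
      linarith

theorem arith_up {κ QT n0 Q0 F X N h b η : ℝ} (hκ : 0 ≤ κ) (hn0 : 0 ≤ n0) (hQ0 : 0 ≤ Q0)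
    (hη : 0 < η) (hN : 0 < N) (hb : 0 ≤ b) (hh : 0 ≤ h)
    (b1 : QT ≤ (1 + η) * (F * Q0) + (1 + 1 / η) * (16 * b * (h * N)))
    (d1 : κ * (F * n0) ≤ 4 * X ^ 2) (t3 : κ * N ^ 2 ≤ X ^ 2) :
    n0 * (κ * QT) ≤ (1 + η) * (4 * X ^ 2 * Q0) + n0 * ((1 + 1 / η) * (16 * b * h) * X ^ 2 / N) := by
  have d2 : κ * N ≤ X ^ 2 / N := by
    rw [le_div_iff₀ hN]
    calc κ * N * N = κ * N ^ 2 := by ring
      _ ≤ _ := t3
  have hηi : 0 ≤ 1 + 1 / η := by positivity
  have s1 : n0 * (κ * QT) ≤ n0 * (κ * ((1 + η) * (F * Q0) + (1 + 1 / η) * (16 * b * (h * N)))) :=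
    mul_le_mul_of_nonneg_left (mul_le_mul_of_nonneg_left b1 hκ) hn0
  have s2 : (1 + η) * Q0 * (κ * (F * n0)) ≤ (1 + η) * Q0 * (4 * X ^ 2) :=
    mul_le_mul_of_nonneg_left d1 (by positivity)
  have s3 : n0 * ((1 + 1 / η) * (16 * b * h)) * (κ * N) ≤
      n0 * ((1 + 1 / η) * (16 * b * h)) * (X ^ 2 / N) :=
    mul_le_mul_of_nonneg_left d2 (by positivity)
  calc n0 * (κ * QT) ≤ _ := s1
    _ = (1 + η) * Q0 * (κ * (F * n0)) + n0 * ((1 + 1 / η) * (16 * b * h)) * (κ * N) := by ring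
    _ ≤ (1 + η) * Q0 * (4 * X ^ 2) + n0 * ((1 + 1 / η) * (16 * b * h)) * (X ^ 2 / N) :=
        add_le_add s2 s3
    _ = _ := by ring

theorem arith_core {A B F1 n0 Q0 X N h b η η1 η2 S e1 e2 : ℝ} (hn0 : 0 ≤ n0)
    (hη : 0 < η) (h1 : 0 < η1) (h2 : 0 < η2) (hN : 0 < N) (hX : 0 < X) (hb : 0 ≤ b) (hh : 0 ≤ h)
    (hS : 0 ≤ S) (he1 : 0 ≤ e1) (he2 : 0 ≤ e2)
    (a1 : n0 * A ≤ (1 + η) * (4 * X ^ 2 * Q0) +
      n0 * ((1 + 1 / η) * (16 * b * h) * X ^ 2 / N + 16 * b * N * X))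
    (a2 : n0 * B ≤ (1 + η) * (4 * X ^ 2 * Q0) +
      n0 * ((1 + 1 / η) * (16 * b * h) * X ^ 2 / N + 16 * b * N * X))
    (a3 : A + B = 4 * F1) (a4 : X ^ 2 * (S * (1 - η1 - η2) - e1 - e2) ≤ F1) :
    n0 / 2 * (S * (1 - η - η1 - η2) - e1 - e2 - 8 * b * h / (η * N) - 8 * b * N / X) ≤ Q0 := by
  have b1 : 4 * X ^ 2 * (n0 * (S * (1 - η1 - η2) - e1 - e2)) ≤
      2 * ((1 + η) * (4 * X ^ 2 * Q0) +
        n0 * ((1 + 1 / η) * (16 * b * h) * X ^ 2 / N + 16 * b * N * X)) := by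
    have c1 := mul_le_mul_of_nonneg_left a4 (by positivity : 0 ≤ 4 * n0)
    have c2 : 4 * n0 * F1 = n0 * A + n0 * B := by
      rw [← mul_add, a3]
      ring
    rw [c2] at c1
    calc 4 * X ^ 2 * (n0 * (S * (1 - η1 - η2) - e1 - e2)) =
        4 * n0 * (X ^ 2 * (S * (1 - η1 - η2) - e1 - e2)) := by ring
      _ ≤ _ := c1
      _ ≤ _ := by linarith
  have b2 : n0 * (S * (1 - η1 - η2) - e1 - e2) ≤ 2 * (1 + η) * Q0 +
      n0 * ((1 + 1 / η) * (8 * b * h) / N + 8 * b * N / X) := by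
    have c1 : 4 * X ^ 2 * (2 * (1 + η) * Q0 +
        n0 * ((1 + 1 / η) * (8 * b * h) / N + 8 * b * N / X)) =
        2 * ((1 + η) * (4 * X ^ 2 * Q0) +
        n0 * ((1 + 1 / η) * (16 * b * h) * X ^ 2 / N + 16 * b * N * X)) := by
      field_simp
      ring
    rw [← c1] at b1
    exact le_of_mul_le_mul_left b1 (by positivity)
  have hpos : 0 < 2 * (1 + η) := by positivity
  refine le_of_mul_le_mul_left (a := 2 * (1 + η)) ?_ hpos
  have d1 : 2 * (1 + η) * (n0 / 2 * (S * (1 - η - η1 - η2) - e1 - e2 -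
      8 * b * h / (η * N) - 8 * b * N / X)) = n0 * (S * ((1 + η) * (1 - η - η1 - η2)) -
      (1 + η) * (e1 + e2) - (1 + 1 / η) * (8 * b * h) / N - (1 + η) * (8 * b * N / X)) := by
    field_simp
    ring
  rw [d1]
  have d2 : (1 + η) * (1 - η - η1 - η2) ≤ 1 - η1 - η2 := by
    nlinarith only [mul_pos hη hη, mul_pos hη h1, mul_pos hη h2]
  have d3 : S * ((1 + η) * (1 - η - η1 - η2)) ≤ S * (1 - η1 - η2) :=
    mul_le_mul_of_nonneg_left d2 hS
  have d4 : 0 ≤ η * (e1 + e2) := by positivity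
  have d5 : 0 ≤ η * (8 * b * N / X) := by positivity
  have d6 : n0 * (S * ((1 + η) * (1 - η - η1 - η2)) -
      (1 + η) * (e1 + e2) - (1 + 1 / η) * (8 * b * h) / N - (1 + η) * (8 * b * N / X)) ≤
      n0 * (S * (1 - η1 - η2) - e1 - e2 - (1 + 1 / η) * (8 * b * h) / N - 8 * b * N / X) := by
    refine mul_le_mul_of_nonneg_left ?_ hn0
    linarith
  refine d6.trans ?_
  have d7 : n0 * (S * (1 - η1 - η2) - e1 - e2 - (1 + 1 / η) * (8 * b * h) / N - 8 * b * N / X) =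
      n0 * (S * (1 - η1 - η2) - e1 - e2) -
        n0 * ((1 + 1 / η) * (8 * b * h) / N + 8 * b * N / X) := by
    ring
  rw [d7]
  linarith

/-- **upper bound of the infinite array in a square** -/
theorem arr_up {b : ℝ} (hb : 0 ≤ b) {p n k : ℕ} (hp : 1 ≤ p) (hn : 1 ≤ n) (hk : 1 ≤ k) {N : ℕ}
    (hN : N = p * 2 ^ n + 2 * (p * k)) {η : ℝ} (hη : 0 < η) (X : ℕ) (q : ℤ × ℤ) :
    nG (Rd p (2 * (p * k) : ℕ) p) (An p 0) * qG b (blk q X) (ar p) ≤
      (1 + η) * (4 * (X : ℝ) ^ 2 * qG b (Rd p (2 * (p * k) : ℕ) p) (An p 0)) +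
      nG (Rd p (2 * (p * k) : ℕ) p) (An p 0) *
        ((1 + 1 / η) * (16 * b * (((2 * (p * k) : ℕ) : ℝ) + 1)) * (X : ℝ) ^ 2 / N +
          16 * b * N * X) := by
  set H : ℤ := ((2 * (p * k) : ℕ) : ℤ) with hH
  set n0 : ℝ := nG (Rd p H p) (An p 0) with hn0
  set Q0 : ℝ := qG b (Rd p H p) (An p 0) with hQ0
  have hn00 : 0 ≤ n0 := nG_nonneg _ _
  have hQ00 : 0 ≤ Q0 := qG_nonneg hb _ _
  have hpk : 1 ≤ p * k := Nat.mul_pos hp hk
  have hH1 : 1 ≤ H := by rw [hH]; exact_mod_cast (by omega : 1 ≤ 2 * (p * k))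
  obtain ⟨n', rfl⟩ : ∃ n', n = n' + 1 := ⟨n - 1, by omega⟩
  have hNM : N = 2 * (p * 2 ^ n' + p * k) := by rw [hN, pow_succ]; ring
  have hN0 : 0 < N := by omega
  have hp0 : (0 : ℤ) < (p : ℤ) := by exact_mod_cast hp
  have hNK : (N : ℤ) = 2 * (p : ℤ) * (2 ^ n' + k) := by
    rw [hNM]
    push_cast
    ring
  obtain ⟨κ, hκ, t1, t2, t3⟩ := tile_le hb hp0 hNM hN0 hNK H X q
  obtain ⟨m1, m2⟩ := margin hb (p := p) (n := n' + 1) hH1 (P := ((p * 2 ^ (n' + 1) : ℕ) : ℤ)) rfl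
    (N := (N : ℤ)) (by rw [hN, hH]; push_cast; ring) hη
  obtain ⟨c1, c2⟩ := chess_rot p hp hH1 hb (n' + 1)
  rw [← hQ0] at c1
  rw [← hn0] at c2
  rw [c2] at m2
  set QT : ℝ := qG b (Tl p H N 0 0) (ar p) with hQT
  set nT : ℝ := nG (Tl p H N 0 0) (ar p) with hnT
  set QR : ℝ := qG b (Rd p H ((p * 2 ^ (n' + 1) : ℕ) : ℤ)) (An p (n' + 1)) with hQR
  set h : ℝ := ((2 * (p * k) : ℕ) : ℝ) + 1 with hh
  have hh' : (H : ℝ) + 1 = h := by rw [hh, hH]; push_cast; ring
  have hNr : ((N : ℤ) : ℝ) = (N : ℝ) := by push_cast; rfl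
  rw [hh', hNr] at m1
  have hNpos : (0 : ℝ) < N := by exact_mod_cast hN0
  have hh0 : 0 ≤ h := by rw [hh]; positivity
  -- the bound
  have b1 : QT ≤ (1 + η) * (4 ^ (n' + 1) * Q0) + (1 + 1 / η) * (16 * b * (h * N)) := by
    have : (1 + η) * QR ≤ (1 + η) * (4 ^ (n' + 1) * Q0) :=
      mul_le_mul_of_nonneg_left c1 (by linarith)
    linarith
  have b2 := arith_up hκ hn00 hQ00 hη hNpos hb hh0 b1 ((mul_le_mul_of_nonneg_left m2 hκ).trans t2)
    t3
  have b3 := mul_le_mul_of_nonneg_left t1 hn00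
  rw [mul_add] at b3
  rw [mul_add n0]
  linarith

/-! ### the swap of the two components -/

/-- horizontal part of the array -/
def f1 (p : ℤ) : HF := bF (fun v => -sqw p v.2) fun _ => 0

/-- vertical part of the array -/
def f2 (p : ℤ) : HF := bF (fun _ => 0) fun v => sqw p v.1

theorem ar_eq (p : ℤ) : ar p = f1 p + f2 p := by
  funext t c
  rcases t with ⟨_ | _, s⟩
  · show -sqw p _ = -sqw p _ + 0
    ring
  · show sqw p _ = 0 + sqw p _
    ring

theorem ar_shift {p : ℤ} (hp : 0 < p) : shF (p, 0) (ar p) = f1 p - f2 p := by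
  funext t c
  have h : hu (c + (p, 0)) t = (p, 0) + hu c t := hu_add _ _ _
  rcases t with ⟨_ | _, s⟩
  · show -sqw p (hu (c + (p, 0)) (false, s)).2 = -sqw p (hu c (false, s)).2 - 0
    rw [h]
    simp
  · show sqw p (hu (c + (p, 0)) (true, s)).1 = 0 - sqw p (hu c (true, s)).1
    rw [h]
    simp only [Prod.fst_add]
    rw [add_comm, sqw_add_p hp]
    ring

theorem f2_eq (p : ℤ) : f2 p = -ac (rD 0) (f1 p) := by
  funext t c
  show f2 p t c = -((1 : ℝ) * f1 p ((rD 0).tm t) ((rD 0).cm c))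
  rcases t with ⟨_ | _, s⟩
  · show (0 : ℝ) = -((1 : ℝ) * 0)
    ring
  · show sqw p (hu c (true, s)).1 = -((1 : ℝ) * -sqw p (hu (c.2 + 0, c.1 - 0) (false, s)).2)
    have : (hu (c.2 + 0, c.1 - 0) (false, s)).2 = (hu c (true, s)).1 := by
      cases s <;> simp [hu]
    rw [this]
    ring

theorem swap {b : ℝ} {p : ℤ} (hp : 0 < p) (X : ℕ) :
    qG b (blk (0, 0) X) (ar p) + qG b (blk (p, 0) X) (ar p) = 4 * qG b (blk (0, 0) X) (f1 p) := by
  have h1 : qG b (blk (p, 0) X) (ar p) = qG b (blk (0, 0) X) (shF (p, 0) (ar p)) := by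
    refine qG_shF b (p, 0) (fun c => ?_) _
    rw [mem_blk, mem_blk]
    simp only [Prod.fst_add, Prod.snd_add]
    omega
  rw [h1, ar_shift hp, ar_eq, qG_par, f2_eq, qG_neg, qG_ac]
  · ring
  · refine symD_of fun c => ?_
    rw [mem_blk, mem_blk]
    simp only
    omega

theorem f1_stp {p : ℤ} (b : ℝ) (X : ℕ) :
    qG b (blk (0, 0) X) (f1 p) = qG b (rec4 0 (X : ℤ) 0 (X : ℤ)) (stp p (X : ℤ)) := by
  rw [blk_rec4]
  simp only [zero_add]
  refine qG_congr b fun c hc t => ?_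
  rw [mem_rec4] at hc
  rcases t with ⟨_ | _, s⟩
  · rw [stp_h, if_pos]
    · show -sqw p (hu c (false, s)).2 = _
      cases s <;> simp [hu]
    · cases s <;> simp <;> omega
  · rfl

/-- **the pyramid inequality with explicit errors**, in the rotated square -/
theorem pyrf_core {b : ℝ} (hb : 0 ≤ b) {p n k : ℕ} (hp : 1 ≤ p) (hn : 1 ≤ n) (hk : 1 ≤ k) {N : ℕ}
    (hN : N = p * 2 ^ n + 2 * (p * k)) (m d : ℕ) {η η1 η2 : ℝ} (hη : 0 < η) (h1 : 0 < η1)
    (h2 : 0 < η2) :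
    nG (Rd p (2 * (p * k) : ℕ) p) (An p 0) / 2 *
      (stiff (p * 2 ^ m * (2 ^ d + 2)) b * (1 - η - η1 - η2) - b / (p * η1) - 2 * b / (2 ^ d * η2) -
        8 * b * (((2 * (p * k) : ℕ) : ℝ) + 1) / (η * N) - 8 * b * N / ((p * 2 ^ m : ℕ) : ℝ)) ≤
      qG b (Rd p (2 * (p * k) : ℕ) p) (An p 0) := by
  set H : ℤ := ((2 * (p * k) : ℕ) : ℤ) with hH
  set n0 : ℝ := nG (Rd p H p) (An p 0) with hn0
  set Q0 : ℝ := qG b (Rd p H p) (An p 0) with hQ0
  set X : ℕ := p * 2 ^ m with hX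
  set S : ℝ := stiff (X * (2 ^ d + 2)) b with hS
  set h : ℝ := ((2 * (p * k) : ℕ) : ℝ) + 1 with hh
  have hX1 : 1 ≤ X := Nat.mul_pos hp (by positivity)
  have hX0 : (0 : ℝ) < X := by exact_mod_cast hX1
  have hN0 : (0 : ℝ) < N := by
    have : 1 ≤ p * k := Nat.mul_pos hp hk
    have : 0 < N := by omega
    exact_mod_cast this
  have hp0 : (0 : ℤ) < (p : ℤ) := by exact_mod_cast hp
  have hn00 : 0 ≤ n0 := nG_nonneg _ _
  have hQ00 : 0 ≤ Q0 := qG_nonneg hb _ _
  have hh0 : 0 ≤ h := by rw [hh]; positivity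
  have hS0 : 0 ≤ S := UJ.stiff_nonneg' hb (Nat.mul_pos hX1 (by positivity))
  have a1 := arr_up hb hp hn hk hN hη X (0, 0)
  have a2 := arr_up hb hp hn hk hN hη X ((p : ℤ), 0)
  rw [← hH, ← hn0, ← hQ0, ← hh] at a1 a2
  have a3 := swap (b := b) hp0 X
  have a4 := str_low hb hp m d h1 h2
  rw [← hX, ← hS, ← f1_stp] at a4
  have he10 : 0 ≤ b / (p * η1) := by positivity
  have he20 : 0 ≤ 2 * b / (2 ^ d * η2) := by positivity
  exact arith_core hn00 hη h1 h2 hN0 hX0 hb hh0 hS0 he10 he20 a1 a2 a3 a4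

end

end Vale.Agent.P159.H856
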