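import Vale.Agent.P159.H950.B3
import Vale.Agent.P159.H282.Var

/-!
P159 (helper856), RP bound for the blocks, part 3: reflection positivity of the quadratic form of
wired regions for fields on half-bonds, monotonicity in the block.
-/

set_option linter.all false

open MeasureTheory Filter Topology
open scoped BigOperators

namespace Vale.Agent.P159.H856

open Vale.Agent.P159 Vale.Agent.P159.UJ Vale.Agent.P159.H950

noncomputable section

/-- half-bond fields: (type of the bond, unit cell); the same letter as `H282.Fld` -/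
abbrev HF : Type := Bool × Bool → ℤ × ℤ → ℝ

/-- quadratic form of the wired region -/
def qG (b : ℝ) (R : Finset (ℤ × ℤ)) (y : HF) : ℝ :=
  Qform muInf (fun _ : KR R => b / 2) (chiR R) fun e => y e.2 e.1

/-- squared norm: sum over half-bonds -/
def nG (R : Finset (ℤ × ℤ)) (y : HF) : ℝ := ∑ e : KR R, y e.2 e.1 ^ 2

/-- reflected field -/
def ac (r : Refl) (y : HF) : HF := fun t c => r.sg t.1 * y (r.tm t) (r.cm c)

/-- the permutation of the half-bonds -/
def rE (r : Refl) {R : Finset (ℤ × ℤ)} (h : r.Sym R) : KR R ≃ KR R where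
  toFun := fun e => (⟨r.cm e.1, (h.1 _).2 e.1.2⟩, r.tm e.2)
  invFun := fun e => (⟨r.cm e.1, (h.1 _).2 e.1.2⟩, r.tm e.2)
  left_inv := fun e => by
    ext
    · simp only [r.cm_cm]
    · simp only [r.cm_cm]
    · simp only [r.tm_tm]
    · simp only [r.tm_tm]
  right_inv := fun e => by
    ext
    · simp only [r.cm_cm]
    · simp only [r.cm_cm]
    · simp only [r.tm_tm]
    · simp only [r.tm_tm]

theorem qG_congr (b : ℝ) {R : Finset (ℤ × ℤ)} {y z : HF} (h : ∀ c ∈ R, ∀ t, y t c = z t c) :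
    qG b R y = qG b R z := by
  unfold qG
  congr 1
  funext e
  exact h e.1 e.1.2 e.2

theorem nG_congr {R : Finset (ℤ × ℤ)} {y z : HF} (h : ∀ c ∈ R, ∀ t, y t c = z t c) :
    nG R y = nG R z := by
  unfold nG
  exact Finset.sum_congr rfl fun e _ => by rw [h e.1 e.1.2 e.2]

/-- **reflection positivity** for half-bond fields -/
theorem rpG (r : Refl) {b : ℝ} {R : Finset (ℤ × ℤ)} (h : r.Sym R) (y : HF)
    (hy : ∀ c ∈ R, ∀ t, ¬ r.left c t → y t c = 0) :
    qG b R (y + ac r y) ≤ 2 * qG b R y := by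
  classical
  have hinj : Function.Injective r.s := by
    intro u v huv
    rw [← r.s_s u, huv, r.s_s]
  set P : Ginf →+ Ginf := proj {v | r.lam v < 0} with hP
  set σ : KR R ≃ KR R := rE r h with hσ
  have hproj : ∀ (x : Ginf) (v : ℤ × ℤ), proj (intR R) (relabel r.s x) v =
      proj (intR R) x (r.s v) := by
    intro x v
    rw [relabel_proj (intR R) r.s h.2]
    rfl
  have hc : ∀ (e : KR R) (x : Ginf), (chiR R e).c (relabel r.s x) = (chiR R (σ e)).c x := by
    intro e x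
    show cosT (proj (intR R) (relabel r.s x) (hu e.1 e.2) -
        proj (intR R) (relabel r.s x) (hv e.1 e.2)) =
      cosT (proj (intR R) x (hu (r.cm e.1) (r.tm e.2)) -
        proj (intR R) x (hv (r.cm e.1) (r.tm e.2)))
    rw [hproj, hproj]
    rcases r.ends e.1 e.2 with ⟨_, h1, h2⟩ | ⟨_, h1, h2⟩
    · rw [h1, h2]
    · rw [h1, h2, ← cosT_neg]
      congr 1
      abel
  have hs : ∀ (e : KR R) (x : Ginf), (chiR R e).s (relabel r.s x) =
      r.sg e.2.1 * (chiR R (σ e)).s x := by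
    intro e x
    show sinT (proj (intR R) (relabel r.s x) (hu e.1 e.2) -
        proj (intR R) (relabel r.s x) (hv e.1 e.2)) =
      r.sg e.2.1 * sinT (proj (intR R) x (hu (r.cm e.1) (r.tm e.2)) -
        proj (intR R) x (hv (r.cm e.1) (r.tm e.2)))
    rw [hproj, hproj]
    rcases r.ends e.1 e.2 with ⟨h0, h1, h2⟩ | ⟨h0, h1, h2⟩
    · rw [h0, h1, h2, one_mul]
    · rw [h0, h1, h2, neg_one_mul, ← sinT_neg]
      congr 1
      abel
  have hPz : ∀ (z : Ginf) (v : ℤ × ℤ), 0 ≤ r.lam v → P z v = 0 := by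
    intro z v hv'
    exact proj_of_notMem (by simp only [Set.mem_setOf_eq, not_lt]; exact hv') z
  have hval : ∀ (x z : Ginf) (v : ℤ × ℤ), x v = z v →
      proj (intR R) x v = proj (intR R) z v := by
    intro x z v hxz
    by_cases h1 : v ∈ intR R
    · rw [proj_of_mem h1, proj_of_mem h1, hxz]
    · rw [proj_of_notMem h1, proj_of_notMem h1]
  have hchi : ∀ (x z : Ginf) (e : KR R), x (hu e.1 e.2) = z (hu e.1 e.2) →
      x (hv e.1 e.2) = z (hv e.1 e.2) →
      (chiR R e).c x = (chiR R e).c z ∧ (chiR R e).s x = (chiR R e).s z := by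
    intro x z e h1 h2
    constructor
    · show cosT (proj (intR R) x (hu e.1 e.2) - proj (intR R) x (hv e.1 e.2)) =
        cosT (proj (intR R) z (hu e.1 e.2) - proj (intR R) z (hv e.1 e.2))
      rw [hval x z _ h1, hval x z _ h2]
    · show sinT (proj (intR R) x (hu e.1 e.2) - proj (intR R) x (hv e.1 e.2)) =
        sinT (proj (intR R) z (hu e.1 e.2) - proj (intR R) z (hv e.1 e.2))
      rw [hval x z _ h1, hval x z _ h2]
  have key := rp_form muInf (fun _ : KR R => b / 2) (chiR R) (fun z => P z) (proj_cont _)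
    (fun x => relabel r.s x) (relabel_cont _)
    (fun F hF => integral_relabel r.s hinj muInf muInf hF)
    (fun x => by funext v; show x (r.s (r.s v)) = x v; rw [r.s_s])
    (fun e => r.left e.1 e.2) σ (fun e => r.left3 e.1 e.2)
    (fun e => σ.left_inv e) (fun e => r.sg e.2.1) (fun e => r.sg_or _)
    (fun e => by
      show r.sg (r.tm e.2).1 = r.sg e.2.1
      rw [r.tm_dm, r.sg_dm])
    (fun e => rfl) hc hs
    (fun e he x z => by
      have h1 := r.left2 e.1 e.2 he
      exact hchi _ _ e (by rw [Pi.add_apply, hPz z _ h1.1, add_zero])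
        (by rw [Pi.add_apply, hPz z _ h1.2, add_zero]))
    (fun x => by
      refine ⟨relabel r.s x - x, fun e he z => ?_⟩
      have h1 := r.left1 e.1 e.2 he
      have h2 : ∀ v, r.lam v ≤ 0 → (relabel r.s x + P z) v =
          (x + P (relabel r.s x - x + z)) v := by
        intro v hv'
        rcases hv'.lt_or_eq with h3 | h3
        · have h4 : ∀ w : Ginf, P w v = w v := fun w => proj_of_mem (by exact h3) w
          rw [Pi.add_apply, Pi.add_apply, h4, h4, Pi.add_apply, Pi.sub_apply]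
          abel
        · rw [Pi.add_apply, Pi.add_apply, hPz _ _ h3.ge, hPz _ _ h3.ge]
          show x (r.s v) + 0 = x v + 0
          rw [r.lam_s v h3]
      exact hchi _ _ e (h2 _ h1.1) (h2 _ h1.2))
    (fun y z => (map_add P y z).symm)
    (fun e => y e.2 e.1) (fun e he => hy e.1 e.1.2 e.2 he)
  exact key

/-- the norm doubles -/
theorem nG_two (r : Refl) {R : Finset (ℤ × ℤ)} (h : r.Sym R) (y : HF)
    (hy : ∀ c ∈ R, ∀ t, ¬ r.left c t → y t c = 0) :
    nG R (y + ac r y) = 2 * nG R y := by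
  unfold nG
  have h1 : ∀ e : KR R, (y + ac r y) e.2 e.1 ^ 2 = y e.2 e.1 ^ 2 +
      y (rE r h e).2 (rE r h e).1 ^ 2 := by
    intro e
    have h2 : (y + ac r y) e.2 e.1 = y e.2 e.1 + r.sg e.2.1 * y (rE r h e).2 (rE r h e).1 := rfl
    have h3 : r.sg e.2.1 ^ 2 = 1 := by
      rcases r.sg_or e.2.1 with h0 | h0 <;> rw [h0] <;> norm_num
    have h4 : y e.2 e.1 * y (rE r h e).2 (rE r h e).1 = 0 := by
      by_cases hl : r.left e.1 e.2
      · have h5 : ¬ r.left (rE r h e).1 (rE r h e).2 := fun h6 => (r.left3 _ _).1 h6 hl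
        rw [hy _ (rE r h e).1.2 _ h5, mul_zero]
      · rw [hy _ e.1.2 _ hl, zero_mul]
    rw [h2]
    linear_combination (y (rE r h e).2 (rE r h e).1) ^ 2 * h3 + 2 * r.sg e.2.1 * h4
  rw [Finset.sum_congr rfl fun e _ => h1 e, Finset.sum_add_distrib,
    Equiv.sum_comp (rE r h) (fun e : KR R => y e.2 e.1 ^ 2)]
  ring

theorem qG_nonneg {b : ℝ} (hb : 0 ≤ b) (R : Finset (ℤ × ℤ)) (y : HF) : 0 ≤ qG b R y :=
  Qform_nonneg muInf _ _ G_div2 (half_nonneg' hb R) _

theorem qG_le {b : ℝ} (hb : 0 ≤ b) (R : Finset (ℤ × ℤ)) (y : HF) :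
    qG b R y ≤ b / 2 * nG R y := by
  unfold qG nG
  rw [Finset.mul_sum]
  exact Qform_le muInf _ _ (half_nonneg' hb R) _

theorem qG_add_le {b : ℝ} (hb : 0 ≤ b) (R : Finset (ℤ × ℤ)) (y z : HF) {η : ℝ} (hη : 0 < η) :
    qG b R (y + z) ≤ (1 + η) * qG b R y + (1 + 1 / η) * qG b R z :=
  Qform_add_le muInf _ _ G_div2 (half_nonneg' hb R) (fun e => y e.2 e.1) (fun e => z e.2 e.1) hη

theorem nG_nonneg (R : Finset (ℤ × ℤ)) (y : HF) : 0 ≤ nG R y :=
  Finset.sum_nonneg fun e _ => sq_nonneg _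

theorem nG_add_le (R : Finset (ℤ × ℤ)) (y z : HF) {η : ℝ} (hη : 0 < η) :
    nG R (y + z) ≤ (1 + η) * nG R y + (1 + 1 / η) * nG R z := by
  unfold nG
  rw [Finset.mul_sum, Finset.mul_sum, ← Finset.sum_add_distrib]
  refine Finset.sum_le_sum fun e _ => ?_
  have h1 : (1 + η) * y e.2 e.1 ^ 2 + (1 + 1 / η) * z e.2 e.1 ^ 2 - (y + z) e.2 e.1 ^ 2 =
      (η * y e.2 e.1 - z e.2 e.1) ^ 2 / η := by
    have : (y + z) e.2 e.1 = y e.2 e.1 + z e.2 e.1 := rfl
    rw [this]
    field_simp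
    ring
  have h2 : 0 ≤ (η * y e.2 e.1 - z e.2 e.1) ^ 2 / η := by positivity
  linarith

/-! ### blocks -/

/-- the quadratic form of a block in the letters of helper282 -/
theorem qG_blk (b : ℝ) (p : ℤ × ℤ) (L : ℕ) (y : HF) :
    qG b (blk p L) y = Qform muInf (fun _ => b / 2) (chi0 L) (H282.rs L p y) := by
  refine Qform_tr muInf (J := fun _ : KR (blk p L) => b / 2) (χ := chiR (blk p L))
    (J' := fun _ : BI L => b / 2) (χ' := chi0 L) (eBlk p L)
    (fun x => relabel (fun v : ℤ × ℤ => p + v) x) (int_tr_real p) (fun _ => 1)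
    (fun _ => Or.inl rfl) (fun e => rfl) (fun e x => blk_c p L e x)
    (fun e x => by rw [one_mul]; exact blk_s p L e x) (fun e => ?_)
  rw [one_mul]
  obtain ⟨⟨c, hc⟩, t⟩ := e
  have h := mem_blk.1 hc
  unfold H282.rs eBlk
  simp only [Equiv.coe_fn_mk]
  congr 1
  apply Prod.ext
  · simp only [Prod.fst_add]; omega
  · simp only [Prod.snd_add]; omega

theorem qG_blk_qc (b : ℝ) (p : ℤ × ℤ) (L : ℕ) (y : HF) (c : ℤ × ℤ) :
    qG b (blk p L) y = qc b L c (H282.rs L p y) 0 := by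
  rw [qG_blk, H282.qc_zero, QQ_zero]

theorem uc_eq_blk (L : ℕ) (c : ℤ × ℤ) : H282.uc L c = blk c L := rfl

/-- translation -/
def shF (q : ℤ × ℤ) (y : HF) : HF := fun t z => y t (z + q)

theorem rs_shF (L : ℕ) (c q : ℤ × ℤ) (y : HF) : H282.rs L c (shF q y) = H282.rs L (c + q) y := by
  funext e
  unfold H282.rs shF
  congr 1
  abel

/-- the form decreases when the block becomes larger -/
theorem qG_mono {b : ℝ} (hb : 0 ≤ b) {p p' : ℤ × ℤ} {L L' : ℕ} (hL : 1 ≤ L)
    (h : p'.1 ≤ p.1 ∧ p'.2 ≤ p.2 ∧ p.1 + L ≤ p'.1 + L' ∧ p.2 + L ≤ p'.2 + L') (y : HF)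
    (hy : ∀ c, c ∉ blk p L → ∀ t, y t c = 0) :
    qG b (blk p' L') y ≤ qG b (blk p L) y := by
  have hS : H282.Sq L' L (p - p') := by
    unfold H282.Sq
    simp only [Prod.fst_sub, Prod.snd_sub]
    omega
  have h1 := H282.qc_anti hb hL hS (shF p' y)
  rw [qG_blk_qc b p L y (p - p'), qG_blk_qc b p' L' y 0]
  have e1 : H282.rs L (p - p') (shF p' y) = H282.rs L p y := by
    rw [rs_shF]
    congr 1
    abel
  have e2 : H282.rs L' 0 (H282.cut {(L, p - p')} (shF p' y)) = H282.rs L' p' y := by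
    funext e
    unfold H282.rs H282.cut shF
    have h2 : ∀ z : ℤ × ℤ, z ∈ H282.cov {(L, p - p')} ↔ z + p' ∈ blk p L := by
      intro z
      unfold H282.cov
      rw [Finset.singleton_biUnion, H282.mem_uc, mem_blk]
      simp only [Prod.fst_sub, Prod.snd_sub, Prod.fst_add, Prod.snd_add]
      omega
    by_cases h3 : (0 : ℤ × ℤ) + (((e.1.1 : ℕ) : ℤ), ((e.1.2 : ℕ) : ℤ)) ∈ H282.cov {(L, p - p')}
    · rw [if_pos h3]
      congr 1
      abel
    · rw [if_neg h3]
      rw [h2] at h3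
      have h4 := hy _ h3 e.2
      rw [← h4]
      congr 1
      abel
  rw [e1, e2] at h1
  exact h1

theorem nG_blk (p : ℤ × ℤ) (L : ℕ) (y : HF) :
    nG (blk p L) y = ∑ z ∈ blk p L, ∑ t : Bool × Bool, y t z ^ 2 := by
  unfold nG
  rw [Fintype.sum_prod_type, ← Finset.sum_coe_sort (blk p L)]

/-- the norm does not depend on the region -/
theorem nG_supp {R R' : Finset (ℤ × ℤ)} (h : R ⊆ R') (y : HF)
    (hy : ∀ c, c ∉ R → ∀ t, y t c = 0) : nG R' y = nG R y := by
  unfold nG
  rw [Fintype.sum_prod_type, Fintype.sum_prod_type,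
    Finset.sum_coe_sort R' (fun z => ∑ t : HT, y t z ^ 2),
    Finset.sum_coe_sort R (fun z => ∑ t : HT, y t z ^ 2)]
  symm
  refine Finset.sum_subset h fun z _ hz => ?_
  refine Finset.sum_eq_zero fun t _ => ?_
  rw [hy z hz t]
  norm_num

end

end Vale.Agent.P159.H856
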